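import Vale.Agent.P224.FV.Geom

namespace Vale.Agent.P224.FV

open Matrix MeasureTheory Module Function Set
open scoped RealInnerProductSpace Topology ContDiff Manifold

set_option linter.unusedSectionVars false

section

variable {V W M : Type*} [NormedAddCommGroup V] [InnerProductSpace ℝ V] [FiniteDimensional ℝ V]
  [NormedAddCommGroup W] [InnerProductSpace ℝ W] [FiniteDimensional ℝ W]
  [TopologicalSpace M] [ChartedSpace V M] [MeasurableSpace V] [BorelSpace V]
  [MeasurableSpace M] [BorelSpace M]

variable (V) in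
/-- the volume measure read in a chart -/
def VolChart (F : M → W) : Prop :=
  ∀ x : M, (volM V F).restrict (chartAt V x).source =
    ((volume.withDensity fun u : V =>
      ENNReal.ofReal (Real.sqrt (metricMat (rep F x) u).det)).restrict (chartAt V x).target).map
        (chartAt V x).symm

lemma continuousOn_sqrt_det [IsManifold 𝓘(ℝ, V) ∞ M] {F : M → W} (hF : SphImm V F) (x : M) :
    ContinuousOn (fun u : V => Real.sqrt (metricMat (rep F x) u).det) (chartAt V x).target := by
  intro u hu
  have hI := immV_rep hF x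
  have h1 : ContDiffAt ℝ 1 (rep (V := V) F x) u :=
    (hI.smooth.contDiffAt (hI.isOpen.mem_nhds hu)).of_le (by norm_cast)
  exact (contDiffAt_sqrt (n := 0) h1 (lG_det_pos (hI.inj u hu)).ne').continuousAt.continuousWithinAt

/-- change of variables for the volume -/
lemma integral_chart [IsManifold 𝓘(ℝ, V) ∞ M] {F : M → W} (hF : SphImm V F)
    (hV : VolChart V F) (x : M) {g : M → ℝ} (hg : Continuous g)
    (hs : ∀ p, p ∉ (chartAt V x).source → g p = 0) :
    ∫ p, g p ∂(volM V F) = ∫ u in (chartAt V x).target,
      Real.sqrt (metricMat (rep F x) u).det * g ((chartAt V x).symm u) := by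
  have h1 : ∫ p, g p ∂(volM V F) = ∫ p in (chartAt V x).source, g p ∂(volM V F) :=
    (setIntegral_eq_integral_of_forall_compl_eq_zero hs).symm
  have hT := (chartAt V x).open_target.measurableSet
  have hae : AEMeasurable (chartAt V x).symm ((volume.withDensity fun u : V =>
      ENNReal.ofReal (Real.sqrt (metricMat (rep F x) u).det)).restrict (chartAt V x).target) :=
    (chartAt V x).continuousOn_symm.aemeasurable hT
  rw [h1, hV x, integral_map hae hg.aestronglyMeasurable, restrict_withDensity hT,
    integral_withDensity_eq_integral_toReal_smul₀]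
  · refine integral_congr_ae ?_
    filter_upwards with u
    rw [ENNReal.toReal_ofReal (Real.sqrt_nonneg _), smul_eq_mul]
  · exact ((continuousOn_sqrt_det hF x).aemeasurable hT).ennreal_ofReal
  · filter_upwards with u
    exact ENNReal.ofReal_lt_top

lemma dl_zero_of_notMem {F : M → W} (a : W) {h : M → ℝ} {p : M} (hp : p ∉ tsupport h) :
    dl V F a h p = 0 := by
  have h1 : ∀ᶠ q in 𝓝 p, h q = 0 := by
    filter_upwards [(isClosed_tsupport h).isOpen_compl.mem_nhds hp] with q hq
    exact image_eq_zero_of_notMem_tsupport hq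
  have hpT : chartAt V p p ∈ (chartAt V p).target :=
    (chartAt V p).map_source (mem_chart_source _ p)
  have hc : ContinuousAt (chartAt V p).symm (chartAt V p p) := (chartAt V p).continuousAt_symm hpT
  have h2 : rep (V := V) h p =ᶠ[𝓝 (chartAt V p p)] fun _ => 0 := by
    have h3 : Filter.Tendsto (chartAt V p).symm (𝓝 (chartAt V p p)) (𝓝 p) := by
      have := hc.tendsto
      rwa [(chartAt V p).left_inv (mem_chart_source _ p)] at this
    exact h3.eventually h1
  unfold dl
  rw [h2.fderiv_eq]
  simp

/-- the first variation formula for functions supported in a chart -/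
lemma stokes_chart [IsManifold 𝓘(ℝ, V) ∞ M] [CompactSpace M] [T2Space M]
    (hW : finrank ℝ W = finrank ℝ V + 2) {F : M → W}
    (hF : SphImm V F) (hmin : ∀ x n, IsUnitNormal V F x n → meanCurv V F x n = 0)
    (hV : VolChart V F) (a : W) {h : M → ℝ} (hh : ContMDiff 𝓘(ℝ, V) 𝓘(ℝ, ℝ) ∞ h) (x : M)
    (hs : tsupport h ⊆ (chartAt V x).source) :
    ∫ p, dl V F a h p ∂(volM V F) = (finrank ℝ V : ℝ) * ∫ p, ⟪a, F p⟫ * h p ∂(volM V F) := by
  have hL := locMin_rep hW hF hmin x
  set T := (chartAt V x).target with hTdef
  set f := rep (V := V) F x with hf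
  have hTm : MeasurableSet T := (chartAt V x).open_target.measurableSet
  set φ : V → ℝ := T.indicator (rep (V := V) h x) with hφ
  set K : Set V := chartAt V x '' tsupport h with hK
  have hKc : IsCompact K :=
    (isClosed_tsupport h).isCompact.image_of_continuousOn ((chartAt V x).continuousOn.mono hs)
  have hKT : K ⊆ T := by
    rintro _ ⟨p, hp, rfl⟩
    exact (chartAt V x).map_source (hs hp)
  have hφ0 : ∀ u, u ∉ K → φ u = 0 := by
    intro u hu
    by_cases huT : u ∈ T
    · rw [hφ, indicator_of_mem huT]
      unfold rep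
      apply image_eq_zero_of_notMem_tsupport
      intro hmem
      exact hu ⟨_, hmem, (chartAt V x).right_inv huT⟩
    · rw [hφ, indicator_of_notMem huT]
  have hφs : tsupport φ ⊆ K := by
    apply closure_minimal _ hKc.isClosed
    intro u hu
    by_contra h
    exact hu (hφ0 u h)
  have hφc : HasCompactSupport φ := hKc.of_isClosed_subset (isClosed_tsupport φ) hφs
  have hφT : ∀ u ∈ T, φ =ᶠ[𝓝 u] rep (V := V) h x := by
    intro u hu
    filter_upwards [(chartAt V x).open_target.mem_nhds hu] with v hv
    rw [hφ, indicator_of_mem hv]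
  have hφd : ContDiff ℝ 1 φ := by
    rw [contDiff_iff_contDiffAt]
    intro u
    by_cases huT : u ∈ T
    · have : ContDiffAt ℝ 1 (rep (V := V) h x) u :=
        ((rep_contDiffOn hh x).contDiffAt ((chartAt V x).open_target.mem_nhds huT)).of_le
          (by norm_cast)
      exact this.congr_of_eventuallyEq (hφT u huT)
    · have huK : u ∉ K := fun h => huT (hKT h)
      have : φ =ᶠ[𝓝 u] fun _ => 0 := by
        filter_upwards [hKc.isClosed.isOpen_compl.mem_nhds huK] with v hv
        exact hφ0 v hv
      exact contDiffAt_const.congr_of_eventuallyEq this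
  have key := hL.stokes a hφd hφc (hφs.trans hKT)
  have hcdl := continuous_dl hF a hh
  have hsrc : ∀ p, p ∉ (chartAt V x).source → p ∉ tsupport h := fun p hp hp' => hp (hs hp')
  rw [integral_chart hF hV x hcdl (fun p hp => dl_zero_of_notMem a (hsrc p hp))]
  have hcF : Continuous F := hF.smooth.continuous
  rw [integral_chart hF hV x (g := fun p => ⟪a, F p⟫ * h p)
    ((continuous_const.inner hcF).mul hh.continuous)
    (fun p hp => by
      rw [image_eq_zero_of_notMem_tsupport (hsrc p hp), mul_zero])]
  have e1 : ∫ u in T, Real.sqrt (metricMat f u).det * dl V F a h ((chartAt V x).symm u)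
      = ∫ u, Real.sqrt (lG f u).det * fderiv ℝ φ u (vW f a u) := by
    have e0 : ∀ u, u ∉ T → Real.sqrt (lG f u).det * fderiv ℝ φ u (vW f a u) = 0 := by
      intro u hu
      have huK : u ∉ K := fun h => hu (hKT h)
      have : φ =ᶠ[𝓝 u] fun _ => 0 := by
        filter_upwards [hKc.isClosed.isOpen_compl.mem_nhds huK] with v hv
        exact hφ0 v hv
      rw [this.fderiv_eq]
      simp
    rw [← setIntegral_eq_integral_of_forall_compl_eq_zero e0]
    · apply setIntegral_congr_fun hTm
      intro u hu
      simp only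
      have hps : (chartAt V x).symm u ∈ (chartAt V x).source := (chartAt V x).map_target hu
      have hri : chartAt V x ((chartAt V x).symm u) = u := (chartAt V x).right_inv hu
      rw [dl_eq hF a hps (by rw [hri]; exact rep_differentiableAt hh x hu), hri,
        (hφT u hu).fderiv_eq]
      rfl
  have e2 : ∫ u in T, Real.sqrt (metricMat f u).det *
        (⟪a, F ((chartAt V x).symm u)⟫ * h ((chartAt V x).symm u))
      = ∫ u, Real.sqrt (lG f u).det * ⟪a, f u⟫ * φ u := by
    have e0 : ∀ u, u ∉ T → Real.sqrt (lG f u).det * ⟪a, f u⟫ * φ u = 0 := by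
      intro u hu
      rw [hφ, indicator_of_notMem hu, mul_zero]
    rw [← setIntegral_eq_integral_of_forall_compl_eq_zero e0]
    · apply setIntegral_congr_fun hTm
      intro u hu
      simp only
      rw [hφ, indicator_of_mem hu, ← mul_assoc]
      rfl
  rw [e1, e2, key]

lemma integrable_of_cont [CompactSpace M] (μ : Measure M) [IsFiniteMeasure μ] {g : M → ℝ}
    (hg : Continuous g) : Integrable g μ :=
  hg.integrable_of_hasCompactSupport (HasCompactSupport.of_compactSpace g)

/-- the first variation formula -/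
theorem first_variation [IsManifold 𝓘(ℝ, V) ∞ M] [CompactSpace M] [T2Space M]
    (hW : finrank ℝ W = finrank ℝ V + 2) {F : M → W}
    (hF : SphImm V F) (hmin : ∀ x n, IsUnitNormal V F x n → meanCurv V F x n = 0)
    (hV : VolChart V F) [IsFiniteMeasure (volM V F)] (a : W) {h : M → ℝ}
    (hh : ContMDiff 𝓘(ℝ, V) 𝓘(ℝ, ℝ) ∞ h) :
    ∫ p, dl V F a h p ∂(volM V F) = (finrank ℝ V : ℝ) * ∫ p, ⟪a, F p⟫ * h p ∂(volM V F) := by
  obtain ⟨t, ht⟩ := (isCompact_univ (X := M)).elim_nhds_subcover
      (fun x => (chartAt V x).source)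
      (fun x _ => (chartAt V x).open_source.mem_nhds (mem_chart_source _ x))
  obtain ⟨ρ, hρ⟩ := SmoothPartitionOfUnity.exists_isSubordinate (I := 𝓘(ℝ, V)) (M := M)
    isClosed_univ (fun i : t => (chartAt V (i : M)).source) (fun i => (chartAt V (i : M)).open_source)
    (by
      intro y hy
      have := ht.2 hy
      simp only [mem_iUnion] at this
      obtain ⟨z, hz, hyz⟩ := this
      exact mem_iUnion.mpr ⟨⟨z, hz⟩, hyz⟩)
  have hsum : ∀ p, ∑ i, ρ i p = 1 := by
    intro p
    have := ρ.sum_eq_one (mem_univ p)
    rwa [finsum_eq_sum_of_fintype] at this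
  have hsm : ∀ i, ContMDiff 𝓘(ℝ, V) 𝓘(ℝ, ℝ) ∞ (fun p => ρ i p * h p) := fun i =>
    (ρ i).contMDiff.mul hh
  have hts : ∀ i, tsupport (fun p => ρ i p * h p) ⊆ (chartAt V (i : M)).source := fun i =>
    (tsupport_mul_subset_left).trans (hρ i)
  have hdl : ∀ p, dl V F a h p = ∑ i, dl V F a (fun p => ρ i p * h p) p := by
    intro p
    unfold dl
    rw [← _root_.sum_apply, ← fderiv_fun_sum (fun i _ => rep_diff_self (hsm i) p)]
    congr 2
    funext u
    simp only [rep]
    rw [← Finset.sum_mul, hsum, one_mul]
  have hcont : Continuous F := hF.smooth.continuous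
  calc ∫ p, dl V F a h p ∂(volM V F)
      = ∫ p, ∑ i, dl V F a (fun p => ρ i p * h p) p ∂(volM V F) := by simp only [hdl]
    _ = ∑ i, ∫ p, dl V F a (fun p => ρ i p * h p) p ∂(volM V F) :=
        integral_finsetSum _ (fun i _ => integrable_of_cont _ (continuous_dl hF a (hsm i)))
    _ = ∑ i, (finrank ℝ V : ℝ) * ∫ p, ⟪a, F p⟫ * (ρ i p * h p) ∂(volM V F) :=
        Finset.sum_congr rfl fun i _ => stokes_chart hW hF hmin hV a (hsm i) i (hts i)
    _ = (finrank ℝ V : ℝ) * ∫ p, ∑ i, ⟪a, F p⟫ * (ρ i p * h p) ∂(volM V F) := by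
        rw [← Finset.mul_sum, integral_finsetSum]
        intro i _
        exact integrable_of_cont _ ((continuous_const.inner hcont).mul (hsm i).continuous)
    _ = _ := by
        congr 1
        refine integral_congr_ae ?_
        filter_upwards with p
        rw [← Finset.mul_sum, ← Finset.sum_mul, hsum, one_mul]

end

end Vale.Agent.P224.FV
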