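import Mathlib

namespace Vale.Agent.P224.FV

open MeasureTheory Set Real Filter
open scoped Topology

/-- the one dimensional argument -/
theorem one_dim {J B a b : ℝ → ℝ} {L φ₁ κ : ℝ}
    (hJ : ∀ φ ∈ Ioo (-(π / 2)) (π / 2), HasDerivAt J (-(sin φ * a φ)) φ)
    (hB : ∀ φ ∈ Ioo (-(π / 2)) (π / 2), HasDerivAt B (b φ) φ)
    (hab : ∀ φ ∈ Ioo (-(π / 2)) (π / 2), |b φ| ≤ a φ)
    (h1 : φ₁ ∈ Ioo 0 (π / 2))
    (hκ0 : 0 ≤ κ) (hκ1 : κ ≤ 2 * sin φ₁)
    (hint : ∫ φ in (0 : ℝ)..φ₁, cos φ * B φ ≤ κ * B φ₁)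
    (hL : ∀ ε > 0, ∀ᶠ φ in 𝓝[<] (π / 2), L - ε ≤ J φ)
    (hJB : ∀ ε > 0, ∀ᶠ φ in 𝓝[<] (π / 2), |J φ - B φ| ≤ ε) :
    (1 + sin φ₁ - κ) * L ≤ J 0 := by
  have hpi := pi_pos
  have hsub : ∀ φ, φ ∈ Icc 0 φ₁ → φ ∈ Ioo (-(π / 2)) (π / 2) := fun φ hφ =>
    ⟨by have := hφ.1; linarith, by have := hφ.2; have := h1.2; linarith⟩
  have hsub2 : ∀ φ, φ ∈ Ico φ₁ (π / 2) → φ ∈ Ioo (-(π / 2)) (π / 2) := fun φ hφ =>
    ⟨by have := hφ.1; have := h1.1; linarith, hφ.2⟩
  have hS0 : 0 < sin φ₁ := sin_pos_of_pos_of_lt_pi h1.1 (by have := h1.2; linarith)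
  have hS1 : sin φ₁ ≤ 1 := sin_le_one _
  -- first interval
  have hBc : ContinuousOn B (Icc 0 φ₁) := fun φ hφ =>
    (hB φ (hsub φ hφ)).continuousAt.continuousWithinAt
  have hstep1 : J φ₁ + sin φ₁ * B φ₁ - ∫ φ in (0 : ℝ)..φ₁, cos φ * B φ ≤ J 0 := by
    have hcB : ContinuousOn (fun φ => cos φ * B φ) (Icc 0 φ₁) :=
      (continuous_cos.continuousOn).mul hBc
    have hanti : AntitoneOn (fun φ => J φ + sin φ * B φ - ∫ ψ in (0 : ℝ)..φ, cos ψ * B ψ)
        (Icc 0 φ₁) := by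
      apply antitoneOn_of_deriv_nonpos (convex_Icc 0 φ₁)
      · apply ContinuousOn.sub
        · apply ContinuousOn.add
          · exact fun φ hφ => (hJ φ (hsub φ hφ)).continuousAt.continuousWithinAt
          · exact (continuous_sin.continuousOn).mul hBc
        · have hp := intervalIntegral.continuousOn_primitive_interval'
            (μ := volume) (a := (0 : ℝ)) (b₁ := 0) (b₂ := φ₁)
            (hcB.intervalIntegrable_of_Icc h1.1.le) left_mem_uIcc
          rwa [uIcc_of_le h1.1.le] at hp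
      · intro φ hφ
        rw [interior_Icc] at hφ
        have hφ' : φ ∈ Icc 0 φ₁ := Ioo_subset_Icc_self hφ
        have hd : HasDerivAt (fun φ => J φ + sin φ * B φ - ∫ ψ in (0 : ℝ)..φ, cos ψ * B ψ)
            (-(sin φ * a φ) + (cos φ * B φ + sin φ * b φ) - cos φ * B φ) φ := by
          refine ((hJ φ (hsub φ hφ')).add ((hasDerivAt_sin φ).mul (hB φ (hsub φ hφ')))).sub ?_
          apply intervalIntegral.integral_hasDerivAt_right
          · exact (hcB.mono (Icc_subset_Icc_right hφ.2.le)).intervalIntegrable_of_Icc hφ.1.le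
          · have : ContinuousOn (fun φ => cos φ * B φ) (Ioo 0 φ₁) := hcB.mono Ioo_subset_Icc_self
            exact this.stronglyMeasurableAtFilter isOpen_Ioo φ hφ
          · exact (hcB.continuousAt (Icc_mem_nhds hφ.1 hφ.2))
        exact (hd.differentiableAt).differentiableWithinAt
      · intro φ hφ
        rw [interior_Icc] at hφ
        have hφ' : φ ∈ Icc 0 φ₁ := Ioo_subset_Icc_self hφ
        have hd : HasDerivAt (fun φ => J φ + sin φ * B φ - ∫ ψ in (0 : ℝ)..φ, cos ψ * B ψ)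
            (-(sin φ * a φ) + (cos φ * B φ + sin φ * b φ) - cos φ * B φ) φ := by
          refine ((hJ φ (hsub φ hφ')).add ((hasDerivAt_sin φ).mul (hB φ (hsub φ hφ')))).sub ?_
          apply intervalIntegral.integral_hasDerivAt_right
          · exact (hcB.mono (Icc_subset_Icc_right hφ.2.le)).intervalIntegrable_of_Icc hφ.1.le
          · have : ContinuousOn (fun φ => cos φ * B φ) (Ioo 0 φ₁) := hcB.mono Ioo_subset_Icc_self
            exact this.stronglyMeasurableAtFilter isOpen_Ioo φ hφ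
          · exact (hcB.continuousAt (Icc_mem_nhds hφ.1 hφ.2))
        rw [hd.deriv]
        have h2 := hab φ (hsub φ hφ')
        have h3 : 0 < sin φ := sin_pos_of_pos_of_lt_pi hφ.1 (by have := hφ.2; have := h1.2; linarith)
        have h4 : b φ ≤ a φ := (le_abs_self _).trans h2
        nlinarith
    have := hanti (left_mem_Icc.mpr h1.1.le) (right_mem_Icc.mpr h1.1.le) h1.1.le
    simp only [sin_zero, zero_mul, add_zero, intervalIntegral.integral_same, sub_zero] at this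
    exact this
  -- second interval
  have hstep2 : ∀ σ : ℝ, |σ| ≤ sin φ₁ → AntitoneOn (fun φ => J φ + σ * B φ) (Ico φ₁ (π / 2)) := by
    intro σ hσ
    apply antitoneOn_of_deriv_nonpos (convex_Ico φ₁ (π / 2))
    · exact fun φ hφ => ((hJ φ (hsub2 φ hφ)).continuousAt.add
        ((hB φ (hsub2 φ hφ)).continuousAt.const_mul σ)).continuousWithinAt
    · intro φ hφ
      rw [interior_Ico] at hφ
      have hφ' : φ ∈ Ico φ₁ (π / 2) := Ioo_subset_Ico_self hφ
      exact ((hJ φ (hsub2 φ hφ')).add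
        ((hB φ (hsub2 φ hφ')).const_mul σ)).differentiableAt.differentiableWithinAt
    · intro φ hφ
      rw [interior_Ico] at hφ
      have hφ' : φ ∈ Ico φ₁ (π / 2) := Ioo_subset_Ico_self hφ
      have hd := ((hJ φ (hsub2 φ hφ')).fun_add ((hB φ (hsub2 φ hφ')).const_mul σ))
      rw [hd.deriv]
      have h2 := hab φ (hsub2 φ hφ')
      have h3 : sin φ₁ ≤ sin φ := sin_le_sin_of_le_of_le_pi_div_two (by linarith [h1.1])
        hφ.2.le hφ.1.le
      have h4 : σ * b φ ≤ sin φ * a φ := by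
        calc σ * b φ ≤ |σ * b φ| := le_abs_self _
          _ = |σ| * |b φ| := abs_mul _ _
          _ ≤ sin φ * a φ := mul_le_mul (hσ.trans h3) h2 (abs_nonneg _) (hS0.le.trans h3)
      linarith
  -- limits
  have hlim : ∀ σ : ℝ, |σ| ≤ sin φ₁ → (1 + σ) * L ≤ J φ₁ + σ * B φ₁ := by
    intro σ hσ
    have hσ1 : |σ| ≤ 1 := hσ.trans hS1
    have h1σ : 0 ≤ 1 + σ := by have := (abs_le.mp hσ1).1; linarith
    apply le_of_forall_pos_le_add
    intro ε hε
    have e1 := hL (ε / 4) (by positivity)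
    have e2 := hJB (ε / 4) (by positivity)
    have e3 : ∀ᶠ φ in 𝓝[<] (π / 2), φ ∈ Ioo φ₁ (π / 2) := Ioo_mem_nhdsLT h1.2
    obtain ⟨φ, k1, k2, k3⟩ := (e1.and (e2.and e3)).exists
    have h5 := hstep2 σ hσ (left_mem_Ico.mpr h1.2) (Ioo_subset_Ico_self k3) k3.1.le
    simp only at h5
    have h6 : (1 + σ) * (L - ε / 4) ≤ (1 + σ) * J φ := mul_le_mul_of_nonneg_left k1 h1σ
    have h7 : |σ * (J φ - B φ)| ≤ 1 * (ε / 4) := by
      rw [abs_mul]
      exact mul_le_mul hσ1 k2 (abs_nonneg _) zero_le_one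
    have h8 := le_abs_self (σ * (J φ - B φ))
    have h9 : 1 + σ ≤ 2 := by have := (abs_le.mp hσ1).2; linarith
    nlinarith
  have hc : |sin φ₁ - κ| ≤ sin φ₁ := by
    rw [abs_le]; constructor <;> linarith
  have h5 := hlim (sin φ₁ - κ) hc
  linarith

end Vale.Agent.P224.FV
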