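import Vale.Agent.P224.FV.SerComp
import Vale.Agent.P224.FV.OneDim

namespace Vale.Agent.P224.FV

open Real Set Filter MeasureTheory
open scoped Topology RealInnerProductSpace

set_option linter.unusedSectionVars false

section

variable {X : Type*} [MeasurableSpace X] {E : Type*} [NormedAddCommGroup E]
  [InnerProductSpace ℝ E] [FiniteDimensional ℝ E] [MeasurableSpace E] [BorelSpace E]
  {μ : Measure X} [IsFiniteMeasure μ] {m : ℕ} {p n : X → E}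

lemma JJ_zero : JJ μ m p 0 = μ.real univ ^ 2 := by
  unfold JJ cf
  simp only [cos_zero, sin_zero, mul_zero, sub_zero, div_one, one_pow]
  rw [integral_const, smul_eq_mul, mul_one, ← univ_prod_univ, measureReal_prod_prod]
  ring

/-- the comparison structure for the normal correlation -/
lemma Pts.cmp (h : Pts p n) (hm : 1 ≤ m) {c φ₁ : ℝ} (hφ₁ : φ₁ ∈ Ioo 0 (π / 2))
    (hA0 : 0 ≤ (0 - c) * bb μ m p n 0) (hA1 : 0 ≤ (1 + m - c) * bb μ m p n 1)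
    (hrec : ∀ j : ℕ, ((j : ℝ) + m) * (j + m + 1) * bb μ m p n j
      ≤ (((j : ℝ) + 2) ^ 2 + m * (j + 2) - c) * bb μ m p n (j + 2))
    {f f1 f2 : ℝ → ℝ} (hf : ∀ φ, HasDerivAt f (f1 φ) φ) (hf1 : ∀ φ, HasDerivAt f1 (f2 φ) φ)
    (hfpos : ∀ φ ∈ Ioc 0 φ₁, 0 < f φ)
    (hineq : ∀ φ ∈ Ioo 0 φ₁, cos φ ^ 2 * sin φ ^ 2 * f2 φ
      + cos φ * sin φ * (m + cos φ ^ 2) * f1 φ
      + (m * sin φ ^ 2 - c * cos φ ^ 2) * f φ ≤ 0) :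
    Cmp m c φ₁ (fun φ => ps (bb μ m p n) (sin φ))
      (fun φ => ps (fun j => (j : ℝ) * bb μ m p n j) (sin φ))
      (fun φ => ps (fun j => (j : ℝ) * ((j : ℝ) * bb μ m p n j)) (sin φ)) f f1 f2 where
  hm := hm
  h1 := hφ₁
  T0c := (h.bb_PG hm).continuousOn_sin.mono fun φ hφ => ⟨hφ.1, hφ.2.trans_lt hφ₁.2⟩
  T1c := (h.bb_PG hm).mul_id.continuousOn_sin.mono fun φ hφ => ⟨hφ.1, hφ.2.trans_lt hφ₁.2⟩
  fc := fun φ _ => (hf φ).continuousAt.continuousWithinAt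
  f1c := fun φ _ => (hf1 φ).continuousAt.continuousWithinAt
  T0d := fun φ hφ => (h.bb_PG hm).deriv_sin ⟨hφ.1, hφ.2.trans hφ₁.2⟩
  T1d := fun φ hφ => (h.bb_PG hm).mul_id.deriv_sin ⟨hφ.1, hφ.2.trans hφ₁.2⟩
  fd := fun φ _ => hf φ
  f1d := fun φ _ => hf1 φ
  T0n := fun φ hφ => ps_nonneg h.bb_nonneg
    (sin_nonneg_of_nonneg_of_le_pi hφ.1 (by linarith [hφ.2, hφ₁.2, pi_pos]))
  fpos := hfpos
  ineqT := fun φ hφ => by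
    have hs0 : 0 < sin φ := sin_pos_of_pos_of_lt_pi hφ.1 (by linarith [hφ.2, hφ₁.2, pi_pos])
    have hs1 := (abs_lt.mp (abs_sin_lt_one (φ := φ)
      ⟨by linarith [hφ.1, pi_pos], hφ.2.trans hφ₁.2⟩)).2
    have := ineqT_of_rec (h.bb_PG hm) hA0 hA1 hrec hs0.le hs1
    have e : 1 - sin φ ^ 2 = cos φ ^ 2 := by have := sin_sq_add_cos_sq φ; linarith
    rw [e] at this
    exact this
  ineqf := hineq

/-- the general bound -/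
theorem TwoPt.bound (h : TwoPt μ m p n) (hm : 1 ≤ m) {c φ₁ : ℝ} (hφ₁ : φ₁ ∈ Ioo 0 (π / 2))
    (hA0 : 0 ≤ (0 - c) * bb μ m p n 0) (hA1 : 0 ≤ (1 + m - c) * bb μ m p n 1)
    (hrec : ∀ j : ℕ, ((j : ℝ) + m) * (j + m + 1) * bb μ m p n j
      ≤ (((j : ℝ) + 2) ^ 2 + m * (j + 2) - c) * bb μ m p n (j + 2))
    {f f1 f2 : ℝ → ℝ} (hf : ∀ φ, HasDerivAt f (f1 φ) φ) (hf1 : ∀ φ, HasDerivAt f1 (f2 φ) φ)
    (hfpos : ∀ φ ∈ Ioc 0 φ₁, 0 < f φ)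
    (hineq : ∀ φ ∈ Ioo 0 φ₁, cos φ ^ 2 * sin φ ^ 2 * f2 φ
      + cos φ * sin φ * (m + cos φ ^ 2) * f1 φ
      + (m * sin φ ^ 2 - c * cos φ ^ 2) * f φ ≤ 0)
    {I κ : ℝ} (hI : ∫ φ in (0 : ℝ)..φ₁, cos φ * f φ = I) (hκ : κ = I / f φ₁)
    (hκ0 : 0 ≤ κ) (hκ1 : κ ≤ 2 * sin φ₁) {L : ℝ}
    (hL : ∀ ε > 0, ∀ᶠ φ in 𝓝[<] (π / 2), L - ε ≤ JJ μ m p φ)
    (hJB : ∀ ε > 0, ∀ᶠ φ in 𝓝[<] (π / 2), |JJ μ m p φ - BB μ m p n φ| ≤ ε) :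
    (1 + sin φ₁ - κ) * L ≤ μ.real univ ^ 2 := by
  have hc := (h.cmp hm hφ₁ hA0 hA1 hrec hf hf1 hfpos hineq).integral_le
  obtain ⟨a, b, hab⟩ := h.main
  rw [← JJ_zero (m := m) (p := p)]
  have hφsub : ∀ φ ∈ Icc 0 φ₁, φ ∈ Ioo (-(π / 2)) (π / 2) := fun φ hφ =>
    ⟨by linarith [hφ.1, pi_pos], hφ.2.trans_lt hφ₁.2⟩
  refine one_dim (fun φ hφ => (hab φ hφ).1) (fun φ hφ => (hab φ hφ).2.1)
    (fun φ hφ => (hab φ hφ).2.2) hφ₁ hκ0 hκ1 ?_ hL hJB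
  rw [h.BB_eq hm (hφsub φ₁ (right_mem_Icc.mpr hφ₁.1.le))]
  rw [hI, ← hκ] at hc
  refine le_trans (le_of_eq ?_) hc
  apply intervalIntegral.integral_congr
  intro φ hφ
  rw [uIcc_of_le hφ₁.1.le] at hφ
  simp only
  rw [h.BB_eq hm (hφsub φ hφ)]

end

end Vale.Agent.P224.FV
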