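import Vale.Agent.P224.FV.Bounds

namespace Vale.Agent.P224.FV

open Real Set Filter MeasureTheory
open scoped Topology RealInnerProductSpace

set_option linter.unusedSectionVars false

/-- the comparison function -/
noncomputable def cfun (α β γ φ : ℝ) : ℝ :=
  α * (cos φ - cos φ ^ 2) + β * (cos φ - cos φ ^ 3) + γ * (cos φ - cos φ ^ 4)

/-- its derivative -/
noncomputable def cfun1 (α β γ φ : ℝ) : ℝ :=
  α * (-sin φ + 2 * cos φ * sin φ) + β * (-sin φ + 3 * cos φ ^ 2 * sin φ)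
    + γ * (-sin φ + 4 * cos φ ^ 3 * sin φ)

/-- its second derivative -/
noncomputable def cfun2 (α β γ φ : ℝ) : ℝ :=
  α * (-cos φ - 2 * sin φ ^ 2 + 2 * cos φ ^ 2)
    + β * (-cos φ - 6 * cos φ * sin φ ^ 2 + 3 * cos φ ^ 3)
    + γ * (-cos φ - 12 * cos φ ^ 2 * sin φ ^ 2 + 4 * cos φ ^ 4)

lemma hasDerivAt_cfun (α β γ φ : ℝ) : HasDerivAt (cfun α β γ) (cfun1 α β γ φ) φ := by
  have hc := Real.hasDerivAt_cos φ
  unfold cfun cfun1
  refine (((((hc.fun_sub (hc.fun_pow 2)).const_mul α).fun_add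
    ((hc.fun_sub (hc.fun_pow 3)).const_mul β)).fun_add
    ((hc.fun_sub (hc.fun_pow 4)).const_mul γ))).congr_deriv ?_
  simp only [Nat.add_one_sub_one, pow_one]
  push_cast
  ring

lemma hasDerivAt_cfun1 (α β γ φ : ℝ) : HasDerivAt (cfun1 α β γ) (cfun2 α β γ φ) φ := by
  have hc := Real.hasDerivAt_cos φ
  have hs := Real.hasDerivAt_sin φ
  unfold cfun1 cfun2
  refine (((((hs.fun_neg.fun_add ((hc.const_mul 2).fun_mul hs)).const_mul α).fun_add
    ((hs.fun_neg.fun_add (((hc.fun_pow 2).const_mul 3).fun_mul hs)).const_mul β)).fun_add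
    ((hs.fun_neg.fun_add (((hc.fun_pow 3).const_mul 4).fun_mul hs)).const_mul γ))).congr_deriv ?_
  simp only [Nat.add_one_sub_one, pow_one]
  push_cast
  ring

lemma cfun_pi_div_three (α β γ : ℝ) :
    cfun α β γ (π / 3) = α / 4 + β * (3 / 8) + γ * (7 / 16) := by
  unfold cfun
  rw [cos_pi_div_three]; ring

lemma sin_three : sin (π / 3) = √3 / 2 := sin_pi_div_three

lemma integral_cfun (α β γ : ℝ) :
    ∫ φ in (0 : ℝ)..(π / 3), cos φ * cfun α β γ φ
      = α * (π / 6 - √3 / 4) + β * (π / 24 + √3 / 64) + γ * (π / 6 - 29 * √3 / 160) := by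
  have h3 : √3 * √3 = 3 := mul_self_sqrt (by norm_num)
  have hint : ∀ x ∈ uIcc 0 (π / 3), HasDerivAt (fun φ =>
      α * ((φ / 2 + sin φ * cos φ / 2) - (sin φ - sin φ ^ 3 / 3))
      + β * ((φ / 2 + sin φ * cos φ / 2) - (3 * φ / 8 + 3 * (sin φ * cos φ) / 8
        + sin φ * cos φ ^ 3 / 4))
      + γ * ((φ / 2 + sin φ * cos φ / 2) - (sin φ - 2 * sin φ ^ 3 / 3 + sin φ ^ 5 / 5)))
      (cos x * cfun α β γ x) x := by
    intro x _
    have hc := Real.hasDerivAt_cos x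
    have hs := Real.hasDerivAt_sin x
    have hid := hasDerivAt_id x
    have hS : sin x ^ 2 = 1 - cos x ^ 2 := by have := sin_sq_add_cos_sq x; linarith
    have d1 : HasDerivAt (fun φ => φ / 2 + sin φ * cos φ / 2)
        (1 / 2 + (cos x * cos x + sin x * -sin x) / 2) x :=
      (hid.div_const 2).fun_add ((hs.fun_mul hc).div_const 2)
    have d2 : HasDerivAt (fun φ => sin φ - sin φ ^ 3 / 3)
        (cos x - (3 * sin x ^ 2 * cos x) / 3) x := by
      refine (hs.fun_sub ((hs.fun_pow 3).div_const 3)).congr_deriv ?_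
      simp only [Nat.add_one_sub_one]; push_cast; ring
    have d3 : HasDerivAt (fun φ => 3 * φ / 8 + 3 * (sin φ * cos φ) / 8 + sin φ * cos φ ^ 3 / 4)
        (3 * 1 / 8 + 3 * (cos x * cos x + sin x * -sin x) / 8
          + (cos x * cos x ^ 3 + sin x * (3 * cos x ^ 2 * -sin x)) / 4) x := by
      refine (((hid.const_mul 3).div_const 8).fun_add
        (((hs.fun_mul hc).const_mul 3).div_const 8)).fun_add
        ((hs.fun_mul (hc.fun_pow 3)).div_const 4) |>.congr_deriv ?_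
      simp only [Nat.add_one_sub_one]; push_cast; ring
    have d4 : HasDerivAt (fun φ => sin φ - 2 * sin φ ^ 3 / 3 + sin φ ^ 5 / 5)
        (cos x - 2 * (3 * sin x ^ 2 * cos x) / 3 + (5 * sin x ^ 4 * cos x) / 5) x := by
      refine ((hs.fun_sub (((hs.fun_pow 3).const_mul 2).div_const 3)).fun_add
        ((hs.fun_pow 5).div_const 5)).congr_deriv ?_
      simp only [Nat.add_one_sub_one]; push_cast; ring
    refine ((((d1.fun_sub d2).const_mul α).fun_add ((d1.fun_sub d3).const_mul β)).fun_add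
      ((d1.fun_sub d4).const_mul γ)).congr_deriv ?_
    unfold cfun
    have hS4 : sin x ^ 4 = (1 - cos x ^ 2) ^ 2 := by
      calc sin x ^ 4 = (sin x ^ 2) ^ 2 := by ring
        _ = _ := by rw [hS]
    have hS1 : sin x * -sin x = -(1 - cos x ^ 2) := by
      calc sin x * -sin x = -(sin x ^ 2) := by ring
        _ = _ := by rw [hS]
    have hS2 : sin x * (3 * cos x ^ 2 * -sin x) = -(3 * cos x ^ 2 * (1 - cos x ^ 2)) := by
      calc sin x * (3 * cos x ^ 2 * -sin x) = -(3 * cos x ^ 2 * sin x ^ 2) := by ring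
        _ = _ := by rw [hS]
    rw [hS1, hS2, hS4, hS]
    ring
  rw [intervalIntegral.integral_eq_sub_of_hasDerivAt hint
    ((by unfold cfun; fun_prop : Continuous fun x => cos x * cfun α β γ x).intervalIntegrable _ _)]
  rw [cos_pi_div_three, sin_pi_div_three, sin_zero, cos_zero]
  have e3 : (√3 / 2) ^ 3 = 3 * √3 / 8 := by
    calc (√3 / 2) ^ 3 = (√3 * √3) * √3 / 8 := by ring
      _ = _ := by rw [h3]
  have e5 : (√3 / 2) ^ 5 = 9 * √3 / 32 := by
    calc (√3 / 2) ^ 5 = (√3 * √3) * (√3 * √3) * √3 / 32 := by ring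
      _ = _ := by rw [h3]; ring
  rw [e3, e5]
  ring

section

variable {X : Type*} [MeasurableSpace X] {E : Type*} [NormedAddCommGroup E]
  [InnerProductSpace ℝ E] [FiniteDimensional ℝ E] [MeasurableSpace E] [BorelSpace E]
  {μ : Measure X} [IsFiniteMeasure μ] {m : ℕ} {p n : X → E}

/-- two vanishing moments -/
theorem TwoPt.bound_two (h : TwoPt μ m p n) (hm : 1 ≤ m) (hE : Module.finrank ℝ E = m + 2)
    (h0 : RR μ p n 0 = 0) (h1 : RR μ p n 1 = 0) {α β γ C : ℝ}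
    (hpos : ∀ u : ℝ, 1 / 2 ≤ u → u < 1 → 0 < α + β * (1 + u) + γ * (1 + u + u ^ 2))
    (hineq : ∀ u : ℝ, 1 / 2 < u → u < 1 →
      0 ≤ α * (6 * u ^ 2 + 10 * u + 2 - m) + 12 * β * u * (1 + u) ^ 2
        + γ * u * (2 * m + 6 + (m + 24) * u + 40 * u ^ 2 + 20 * u ^ 3))
    (hC : C = 1 + √3 / 2 - (α * (π / 6 - √3 / 4) + β * (π / 24 + √3 / 64)
      + γ * (π / 6 - 29 * √3 / 160)) / (α / 4 + β * (3 / 8) + γ * (7 / 16)))
    (hC1 : 1 - √3 / 2 ≤ C) (hC2 : C ≤ 1 + √3 / 2) {L : ℝ}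
    (hL : ∀ ε > 0, ∀ᶠ φ in 𝓝[<] (π / 2), L - ε ≤ JJ μ m p φ)
    (hJB : ∀ ε > 0, ∀ᶠ φ in 𝓝[<] (π / 2), |JJ μ m p φ - BB μ m p n φ| ≤ ε) :
    C * L ≤ μ.real univ ^ 2 := by
  have hpi := pi_pos
  have hφ₁ : π / 3 ∈ Ioo 0 (π / 2) := ⟨by positivity, by linarith⟩
  have hcos : ∀ φ ∈ Ioc 0 (π / 3), 1 / 2 ≤ cos φ ∧ cos φ < 1 := by
    intro φ hφ
    constructor
    · rw [← cos_pi_div_three]
      exact cos_le_cos_of_nonneg_of_le_pi hφ.1.le (by linarith) hφ.2
    · rw [← cos_zero]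
      exact cos_lt_cos_of_nonneg_of_le_pi le_rfl (by linarith [hφ.2]) hφ.1
  have key := h.bound hm (c := 2 * ((m : ℝ) + 2)) hφ₁
    (by unfold bb; rw [h0]; simp)
    (by unfold bb; rw [h1]; simp)
    (fun j => h.bb_rec2 hm hE h0 h1 j)
    (hasDerivAt_cfun α β γ) (hasDerivAt_cfun1 α β γ)
    (by
      intro φ hφ
      obtain ⟨hc1, hc2⟩ := hcos φ hφ
      have := hpos _ hc1 hc2
      have e : cfun α β γ φ = cos φ * (1 - cos φ) *
          (α + β * (1 + cos φ) + γ * (1 + cos φ + cos φ ^ 2)) := by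
        unfold cfun; ring
      rw [e]
      have h3 : 0 < 1 - cos φ := by linarith
      have h4 : 0 < cos φ := by linarith
      positivity)
    (by
      intro φ hφ
      obtain ⟨hc1, hc2⟩ := hcos φ ⟨hφ.1, hφ.2.le⟩
      have hc1' : 1 / 2 < cos φ := by
        rw [← cos_pi_div_three]
        exact cos_lt_cos_of_nonneg_of_le_pi hφ.1.le (by linarith) hφ.2
      have h5 := hineq _ hc1' hc2
      have hS : sin φ ^ 2 = 1 - cos φ ^ 2 := by have := sin_sq_add_cos_sq φ; linarith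
      have e : cos φ ^ 2 * sin φ ^ 2 * cfun2 α β γ φ
          + cos φ * sin φ * (m + cos φ ^ 2) * cfun1 α β γ φ
          + (m * sin φ ^ 2 - 2 * ((m : ℝ) + 2) * cos φ ^ 2) * cfun α β γ φ
          = -(cos φ ^ 2 * (1 - cos φ) ^ 2 * (α * (6 * cos φ ^ 2 + 10 * cos φ + 2 - m)
            + 12 * β * cos φ * (1 + cos φ) ^ 2
            + γ * cos φ * (2 * m + 6 + (m + 24) * cos φ + 40 * cos φ ^ 2 + 20 * cos φ ^ 3))) := by
        have e1 : cos φ * sin φ * (m + cos φ ^ 2) * cfun1 α β γ φ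
            = cos φ * (m + cos φ ^ 2) * sin φ ^ 2 * (α * (-1 + 2 * cos φ)
              + β * (-1 + 3 * cos φ ^ 2) + γ * (-1 + 4 * cos φ ^ 3)) := by
          unfold cfun1; ring
        rw [e1]
        unfold cfun2 cfun
        rw [hS]
        ring
      rw [e]
      have : 0 ≤ cos φ ^ 2 * (1 - cos φ) ^ 2 * (α * (6 * cos φ ^ 2 + 10 * cos φ + 2 - m)
            + 12 * β * cos φ * (1 + cos φ) ^ 2
            + γ * cos φ * (2 * m + 6 + (m + 24) * cos φ + 40 * cos φ ^ 2 + 20 * cos φ ^ 3)) := by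
        positivity
      linarith)
    (integral_cfun α β γ) (κ := 1 + √3 / 2 - C)
    (by rw [cfun_pi_div_three, hC]; ring)
    (by linarith)
    (by rw [sin_pi_div_three]; linarith)
    hL hJB
  rw [sin_pi_div_three] at key
  have e : 1 + √3 / 2 - (1 + √3 / 2 - C) = C := by ring
  rwa [e] at key

lemma sqrt3_bounds : 1.73205 < √3 ∧ √3 < 1.732051 := by
  constructor
  · rw [show (1.73205 : ℝ) = √(1.73205 ^ 2) by rw [sqrt_sq (by norm_num)]]
    exact sqrt_lt_sqrt (by norm_num) (by norm_num)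
  · rw [show (1.732051 : ℝ) = √(1.732051 ^ 2) by rw [sqrt_sq (by norm_num)]]
    exact sqrt_lt_sqrt (by norm_num) (by norm_num)

/-- case m = 2 -/
theorem TwoPt.bound_m2 (h : TwoPt μ 2 p n) (hE : Module.finrank ℝ E = 2 + 2)
    (h0 : RR μ p n 0 = 0) (h1 : RR μ p n 1 = 0) {L : ℝ} (hL0 : 0 ≤ L)
    (hL : ∀ ε > 0, ∀ᶠ φ in 𝓝[<] (π / 2), L - ε ≤ JJ μ 2 p φ)
    (hJB : ∀ ε > 0, ∀ᶠ φ in 𝓝[<] (π / 2), |JJ μ 2 p φ - BB μ 2 p n φ| ≤ ε) :
    1.584 * L ≤ μ.real univ ^ 2 := by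
  obtain ⟨s1, s2⟩ := sqrt3_bounds
  have p1 := pi_gt_d6
  have p2 := pi_lt_d6
  have key := h.bound_two (by norm_num) hE h0 h1 (α := 2) (β := -1.35) (γ := 0.35)
    (by intro u hu hu1; nlinarith)
    (by
      intro u hu hu1
      have e : (2 : ℝ) * (6 * u ^ 2 + 10 * u + 2 - (2 : ℕ)) + 12 * (-1.35) * u * (1 + u) ^ 2
        + 0.35 * u * (2 * (2 : ℕ) + 6 + ((2 : ℕ) + 24) * u + 40 * u ^ 2 + 20 * u ^ 3)
        = u * (7.3 - 11.3 * u - 2.2 * u ^ 2 + 7 * u ^ 3) := by push_cast; ring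
      rw [e]
      have : 0 ≤ 7.3 - 11.3 * u - 2.2 * u ^ 2 + 7 * u ^ 3 := by
        linarith [sq_nonneg (u - 0.84), mul_nonneg (by linarith : (0 : ℝ) ≤ u) (sq_nonneg (u - 0.84))]
      positivity)
    rfl
    (by
      rw [show (2 : ℝ) / 4 + -1.35 * (3 / 8) + 0.35 * (7 / 16) = 0.146875 by norm_num,
        le_sub_iff_add_le, ← le_sub_iff_add_le', div_le_iff₀ (by norm_num)]
      linarith)
    (by
      rw [show (2 : ℝ) / 4 + -1.35 * (3 / 8) + 0.35 * (7 / 16) = 0.146875 by norm_num,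
        sub_le_self_iff]
      apply div_nonneg _ (by norm_num)
      linarith)
    hL hJB
  refine le_trans (mul_le_mul_of_nonneg_right ?_ hL0) key
  rw [show (2 : ℝ) / 4 + -1.35 * (3 / 8) + 0.35 * (7 / 16) = 0.146875 by norm_num,
        le_sub_iff_add_le, ← le_sub_iff_add_le', div_le_iff₀ (by norm_num)]
  linarith

end

end Vale.Agent.P224.FV
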