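import Vale.Agent.P224.FV.Bounds2
import Vale.Agent.P224.Numerics

namespace Vale.Agent.P224.FV

open Real Set Filter MeasureTheory
open scoped Topology RealInnerProductSpace

set_option linter.unusedSectionVars false

theorem ratio2' : leastClifford 2 ≤ 1.584 * sphereVol 2 := by
  have h := leastClifford_le (m := 2) (k := 1) (by norm_num) (by norm_num)
  have h2 := clifford_even (k := 1) (by norm_num)
  rw [show 2 * 1 = 2 by norm_num, evenRatio_one] at h2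
  rw [h2] at h
  have hp := Real.pi_lt_d4
  have hs := sphereVol_pos' 2
  refine h.trans ?_
  gcongr
  norm_num
  linarith

section

variable {X : Type*} [MeasurableSpace X] {E : Type*} [NormedAddCommGroup E]
  [InnerProductSpace ℝ E] [FiniteDimensional ℝ E] [MeasurableSpace E] [BorelSpace E]
  {μ : Measure X} [IsFiniteMeasure μ] {m : ℕ} {p n : X → E}

/-- case m = 3 -/
theorem TwoPt.bound_m3 (h : TwoPt μ 3 p n) (hE : Module.finrank ℝ E = 3 + 2)
    (h0 : RR μ p n 0 = 0) (h1 : RR μ p n 1 = 0) {L : ℝ} (hL0 : 0 ≤ L)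
    (hL : ∀ ε > 0, ∀ᶠ φ in 𝓝[<] (π / 2), L - ε ≤ JJ μ 3 p φ)
    (hJB : ∀ ε > 0, ∀ᶠ φ in 𝓝[<] (π / 2), |JJ μ 3 p φ - BB μ 3 p n φ| ≤ ε) :
    (1 + 0.5525) * L ≤ μ.real univ ^ 2 := by
  obtain ⟨s1, s2⟩ := sqrt3_bounds
  have p1 := pi_gt_d6
  have p2 := pi_lt_d6
  have key := h.bound_two (by norm_num) hE h0 h1 (α := 1.45) (β := -0.45) (γ := 0)
    (by intro u hu hu1; linarith)
    (by
      intro u hu hu1
      have e : (1.45 : ℝ) * (6 * u ^ 2 + 10 * u + 2 - (3 : ℕ)) + 12 * (-0.45) * u * (1 + u) ^ 2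
        + 0 * u * (2 * (3 : ℕ) + 6 + ((3 : ℕ) + 24) * u + 40 * u ^ 2 + 20 * u ^ 3)
        = (-1.45 + 9.1 * u - 2.1 * u ^ 2 - 5.4 * u ^ 3) := by push_cast; ring
      rw [e]
      linarith [mul_pos (sub_pos.2 hu) (sub_pos.2 hu1), mul_pos (mul_pos (sub_pos.2 hu) (sub_pos.2 hu1)) (by linarith : 0 < u)])
    rfl
    (by
      rw [show (1.45 : ℝ) / 4 + -0.45 * (3 / 8) + 0 * (7 / 16) = 0.19375 by norm_num,
        le_sub_iff_add_le, ← le_sub_iff_add_le', div_le_iff₀ (by norm_num)]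
      linarith)
    (by
      rw [show (1.45 : ℝ) / 4 + -0.45 * (3 / 8) + 0 * (7 / 16) = 0.19375 by norm_num,
        sub_le_self_iff]
      apply div_nonneg _ (by norm_num)
      linarith)
    hL hJB
  refine le_trans (mul_le_mul_of_nonneg_right ?_ hL0) key
  rw [show (1.45 : ℝ) / 4 + -0.45 * (3 / 8) + 0 * (7 / 16) = 0.19375 by norm_num,
        le_sub_iff_add_le, ← le_sub_iff_add_le', div_le_iff₀ (by norm_num)]
  linarith

/-- case 4 ≤ m ≤ 8 -/
theorem TwoPt.bound_m4 (h : TwoPt μ m p n) (hm : 4 ≤ m) (hm' : m ≤ 8)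
    (hE : Module.finrank ℝ E = m + 2)
    (h0 : RR μ p n 0 = 0) (h1 : RR μ p n 1 = 0) {L : ℝ} (hL0 : 0 ≤ L)
    (hL : ∀ ε > 0, ∀ᶠ φ in 𝓝[<] (π / 2), L - ε ≤ JJ μ m p φ)
    (hJB : ∀ ε > 0, ∀ᶠ φ in 𝓝[<] (π / 2), |JJ μ m p φ - BB μ m p n φ| ≤ ε) :
    1.5036 * L ≤ μ.real univ ^ 2 := by
  obtain ⟨s1, s2⟩ := sqrt3_bounds
  have p1 := pi_gt_d6
  have p2 := pi_lt_d6
  have hm2 : (m : ℝ) ≤ 8 := by exact_mod_cast hm'
  have key := h.bound_two (by omega) hE h0 h1 (α := 1) (β := 0) (γ := 0)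
    (by intro u hu hu1; norm_num)
    (by
      intro u hu hu1
      nlinarith)
    rfl
    (by
      rw [show (1 : ℝ) / 4 + 0 * (3 / 8) + 0 * (7 / 16) = 0.25 by norm_num,
        le_sub_iff_add_le, ← le_sub_iff_add_le', div_le_iff₀ (by norm_num)]
      linarith)
    (by
      rw [show (1 : ℝ) / 4 + 0 * (3 / 8) + 0 * (7 / 16) = 0.25 by norm_num,
        sub_le_self_iff]
      apply div_nonneg _ (by norm_num)
      linarith)
    hL hJB
  refine le_trans (mul_le_mul_of_nonneg_right ?_ hL0) key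
  rw [show (1 : ℝ) / 4 + 0 * (3 / 8) + 0 * (7 / 16) = 0.25 by norm_num,
        le_sub_iff_add_le, ← le_sub_iff_add_le', div_le_iff₀ (by norm_num)]
  linarith

/-- case 9 ≤ m ≤ 12 -/
theorem TwoPt.bound_m9 (h : TwoPt μ m p n) (hm : 9 ≤ m) (hm' : m ≤ 12)
    (hE : Module.finrank ℝ E = m + 2)
    (h0 : RR μ p n 0 = 0) (h1 : RR μ p n 1 = 0) {L : ℝ} (hL0 : 0 ≤ L)
    (hL : ∀ ε > 0, ∀ᶠ φ in 𝓝[<] (π / 2), L - ε ≤ JJ μ m p φ)
    (hJB : ∀ ε > 0, ∀ᶠ φ in 𝓝[<] (π / 2), |JJ μ m p φ - BB μ m p n φ| ≤ ε) :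
    1.484 * L ≤ μ.real univ ^ 2 := by
  obtain ⟨s1, s2⟩ := sqrt3_bounds
  have p1 := pi_gt_d6
  have p2 := pi_lt_d6
  have hm2 : (m : ℝ) ≤ 12 := by exact_mod_cast hm'
  have key := h.bound_two (by omega) hE h0 h1 (α := 0.75) (β := 0.25) (γ := 0)
    (by intro u hu hu1; linarith)
    (by
      intro u hu hu1
      have h2 : 0 ≤ u * (u - 1 / 2) := by nlinarith
      have h3 : 0 ≤ u * u * (u - 1 / 2) := by
        apply mul_nonneg _ (by linarith)
        linarith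
      linarith)
    rfl
    (by
      rw [show (0.75 : ℝ) / 4 + 0.25 * (3 / 8) + 0 * (7 / 16) = 0.28125 by norm_num,
        le_sub_iff_add_le, ← le_sub_iff_add_le', div_le_iff₀ (by norm_num)]
      linarith)
    (by
      rw [show (0.75 : ℝ) / 4 + 0.25 * (3 / 8) + 0 * (7 / 16) = 0.28125 by norm_num,
        sub_le_self_iff]
      apply div_nonneg _ (by norm_num)
      linarith)
    hL hJB
  refine le_trans (mul_le_mul_of_nonneg_right ?_ hL0) key
  rw [show (0.75 : ℝ) / 4 + 0.25 * (3 / 8) + 0 * (7 / 16) = 0.28125 by norm_num,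
        le_sub_iff_add_le, ← le_sub_iff_add_le', div_le_iff₀ (by norm_num)]
  linarith

/-- case of all m, used for 13 ≤ m -/
theorem TwoPt.bound_m13 (h : TwoPt μ m p n) (hm : 1 ≤ m)
    (hE : Module.finrank ℝ E = m + 2)
    (h0 : RR μ p n 0 = 0) (h1 : RR μ p n 1 = 0) {L : ℝ} (hL0 : 0 ≤ L)
    (hL : ∀ ε > 0, ∀ᶠ φ in 𝓝[<] (π / 2), L - ε ≤ JJ μ m p φ)
    (hJB : ∀ ε > 0, ∀ᶠ φ in 𝓝[<] (π / 2), |JJ μ m p φ - BB μ m p n φ| ≤ ε) :
    1.4447 * L ≤ μ.real univ ^ 2 := by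
  obtain ⟨s1, s2⟩ := sqrt3_bounds
  have p1 := pi_gt_d6
  have p2 := pi_lt_d6
  have key := h.bound_two (by omega) hE h0 h1 (α := 0) (β := 1) (γ := 0)
    (by intro u hu hu1; linarith)
    (by
      intro u hu hu1
      have : 0 < u := by linarith
      rw [zero_mul, zero_add, zero_mul, zero_mul, add_zero]
      positivity)
    rfl
    (by
      rw [show (0 : ℝ) / 4 + 1 * (3 / 8) + 0 * (7 / 16) = 0.375 by norm_num,
        le_sub_iff_add_le, ← le_sub_iff_add_le', div_le_iff₀ (by norm_num)]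
      linarith)
    (by
      rw [show (0 : ℝ) / 4 + 1 * (3 / 8) + 0 * (7 / 16) = 0.375 by norm_num,
        sub_le_self_iff]
      apply div_nonneg _ (by norm_num)
      linarith)
    hL hJB
  refine le_trans (mul_le_mul_of_nonneg_right ?_ hL0) key
  rw [show (0 : ℝ) / 4 + 1 * (3 / 8) + 0 * (7 / 16) = 0.375 by norm_num,
        le_sub_iff_add_le, ← le_sub_iff_add_le', div_le_iff₀ (by norm_num)]
  linarith

/-- all dimensions: the Clifford bound -/
theorem TwoPt.bound_clifford (h : TwoPt μ m p n) (hm : 2 ≤ m) (hE : Module.finrank ℝ E = m + 2)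
    (h0 : RR μ p n 0 = 0) (h1 : RR μ p n 1 = 0)
    (hL : ∀ ε > 0, ∀ᶠ φ in 𝓝[<] (π / 2), sphereVol m * μ.real univ - ε ≤ JJ μ m p φ)
    (hJB : ∀ ε > 0, ∀ᶠ φ in 𝓝[<] (π / 2), |JJ μ m p φ - BB μ m p n φ| ≤ ε)
    (hμ : 0 < μ.real univ) :
    leastClifford m ≤ μ.real univ := by
  have hs := sphereVol_pos' m
  have hL0 : 0 ≤ sphereVol m * μ.real univ := by positivity
  obtain ⟨C, hC1, hC2⟩ : ∃ C : ℝ, leastClifford m ≤ C * sphereVol m ∧
      C * (sphereVol m * μ.real univ) ≤ μ.real univ ^ 2 := by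
    rcases Nat.lt_or_ge m 3 with h3 | h3
    · obtain rfl : m = 2 := by omega
      exact ⟨_, ratio2', h.bound_m2 hE h0 h1 hL0 hL hJB⟩
    rcases Nat.lt_or_ge m 4 with h4 | h4
    · obtain rfl : m = 3 := by omega
      exact ⟨_, ratio3, h.bound_m3 hE h0 h1 hL0 hL hJB⟩
    rcases Nat.lt_or_ge m 9 with h9 | h9
    · exact ⟨_, ratio4to8 m h4 (by omega), h.bound_m4 h4 (by omega) hE h0 h1 hL0 hL hJB⟩
    rcases Nat.lt_or_ge m 13 with h13 | h13
    · exact ⟨_, ratio9to12 m h9 (by omega), h.bound_m9 h9 (by omega) hE h0 h1 hL0 hL hJB⟩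
    · exact ⟨_, ratio12 m (by omega), h.bound_m13 (by omega) hE h0 h1 hL0 hL hJB⟩
  refine hC1.trans ?_
  have : C * sphereVol m * μ.real univ ≤ μ.real univ * μ.real univ := by
    calc _ = C * (sphereVol m * μ.real univ) := by ring
      _ ≤ _ := hC2
      _ = _ := sq _
  exact le_of_mul_le_mul_right this hμ

end

end Vale.Agent.P224.FV
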