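import Vale.Agent.P224.FV.PowerSer

namespace Vale.Agent.P224.FV

open Real Set Filter MeasureTheory
open scoped Topology

/-- the algebraic identity behind the comparison argument -/
lemma wron_identity (S K M T0 T1 T2 f f1 f2 c : ℝ) (k : ℕ) (hS : S ≠ 0) (hK : K ≠ 0) (h : S ^ 2 + K ^ 2 = 1) :
  ((M * S ^ k * K * K + S ^ (k + 1) * -S) *
            (T1 * f - T0 * (S / K * f1 + M * (S / K) ^ 2 * f)) +
          S ^ (k + 1) * K *
            (T2 * (K / S) * f + T1 * f1 -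
              (T1 * (K / S) * (S / K * f1 + M * (S / K) ^ 2 * f) +
                T0 * ((1 / K ^ 2 * f1 + S / K * f2)
            + ((M * (2 * (S / K) * (1 / K ^ 2))) * f
              + M * (S / K) ^ 2 * f1)))))
          = S ^ k * f * (K ^ 2 * T2 + (M * K ^ 2
              - (M + 1) * S ^ 2) * T1
              - (c + M * (M + 1) * S ^ 2) * T0)
            - S ^ k * T0 / K ^ 2 * (K ^ 2 * S ^ 2 * f2
              + K * S * (M + K ^ 2) * f1
              + (M * S ^ 2 - c * K ^ 2) * f) := by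
  have hk1 : S ^ (k + 1) = S ^ k * S := pow_succ S k
  rw [hk1]
  generalize S ^ k = Z
  have e1 : Z * S * K *
            (T2 * (K / S) * f + T1 * f1 -
              (T1 * (K / S) * (S / K * f1 + M * (S / K) ^ 2 * f) +
                T0 * ((1 / K ^ 2 * f1 + S / K * f2)
            + ((M * (2 * (S / K) * (1 / K ^ 2))) * f
              + M * (S / K) ^ 2 * f1)))) = Z * K ^ 2 * T2 * f - M * Z * S ^ 2 * T1 * f
              - Z * S * T0 * (f1 / K + S * f2 + 2 * M * S * f / K ^ 2 + M * S ^ 2 * f1 / K) := by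
    field_simp
    ring
  rw [e1]
  have e2 : ∀ A B : ℝ, K ^ 2 * A = K ^ 2 * B → A = B := fun A B hAB =>
    mul_left_cancel₀ (pow_ne_zero 2 hK) hAB
  apply e2
  have q1 : K ^ 2 * (((M * Z * K * K + Z * S * -S) *
            (T1 * f - T0 * (S / K * f1 + M * (S / K) ^ 2 * f)) +
          (Z * K ^ 2 * T2 * f - M * Z * S ^ 2 * T1 * f
              - Z * S * T0 * (f1 / K + S * f2 + 2 * M * S * f / K ^ 2 + M * S ^ 2 * f1 / K))))
     = (M * Z * K * K + Z * S * -S) *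
            (K ^ 2 * T1 * f - T0 * (S * K * f1 + M * S ^ 2 * f)) +
          (Z * K ^ 4 * T2 * f - M * Z * S ^ 2 * K ^ 2 * T1 * f
              - Z * S * T0 * (K * f1 + K ^ 2 * S * f2 + 2 * M * S * f + K * M * S ^ 2 * f1)) := by
    field_simp
  have q2 : K ^ 2 * (Z * f * (K ^ 2 * T2 + (M * K ^ 2
              - (M + 1) * S ^ 2) * T1
              - (c + M * (M + 1) * S ^ 2) * T0)
            - Z * T0 / K ^ 2 * (K ^ 2 * S ^ 2 * f2
              + K * S * (M + K ^ 2) * f1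
              + (M * S ^ 2 - c * K ^ 2) * f))
     = K ^ 2 * Z * f * (K ^ 2 * T2 + (M * K ^ 2
              - (M + 1) * S ^ 2) * T1
              - (c + M * (M + 1) * S ^ 2) * T0)
            - Z * T0 * (K ^ 2 * S ^ 2 * f2
              + K * S * (M + K ^ 2) * f1
              + (M * S ^ 2 - c * K ^ 2) * f) := by
    field_simp
  rw [q1, q2]
  linear_combination (-T0 * f1 * Z * S * (M - 1) * K + T0 * f * M * Z * S ^ 2) * h

/-- hypotheses of the comparison argument -/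
structure Cmp (m : ℕ) (c φ₁ : ℝ) (T0 T1 T2 f f1 f2 : ℝ → ℝ) : Prop where
  hm : 1 ≤ m
  h1 : φ₁ ∈ Ioo 0 (π / 2)
  T0c : ContinuousOn T0 (Icc 0 φ₁)
  T1c : ContinuousOn T1 (Icc 0 φ₁)
  fc : ContinuousOn f (Icc 0 φ₁)
  f1c : ContinuousOn f1 (Icc 0 φ₁)
  T0d : ∀ φ ∈ Ioo 0 φ₁, HasDerivAt T0 (T1 φ * (cos φ / sin φ)) φ
  T1d : ∀ φ ∈ Ioo 0 φ₁, HasDerivAt T1 (T2 φ * (cos φ / sin φ)) φ
  fd : ∀ φ ∈ Ioo 0 φ₁, HasDerivAt f (f1 φ) φ
  f1d : ∀ φ ∈ Ioo 0 φ₁, HasDerivAt f1 (f2 φ) φ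
  T0n : ∀ φ ∈ Icc 0 φ₁, 0 ≤ T0 φ
  fpos : ∀ φ ∈ Ioc 0 φ₁, 0 < f φ
  ineqT : ∀ φ ∈ Ioo 0 φ₁, (c + m * (m + 1) * sin φ ^ 2) * T0 φ ≤
    cos φ ^ 2 * T2 φ + (m * cos φ ^ 2 - (m + 1) * sin φ ^ 2) * T1 φ
  ineqf : ∀ φ ∈ Ioo 0 φ₁, cos φ ^ 2 * sin φ ^ 2 * f2 φ + cos φ * sin φ * (m + cos φ ^ 2) * f1 φ
    + (m * sin φ ^ 2 - c * cos φ ^ 2) * f φ ≤ 0

variable {m : ℕ} {c φ₁ : ℝ} {T0 T1 T2 f f1 f2 : ℝ → ℝ}

theorem Cmp.wronskian (h : Cmp m c φ₁ T0 T1 T2 f f1 f2) :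
    ∀ φ ∈ Icc 0 φ₁, 0 ≤ sin φ ^ m * cos φ *
      (T1 φ * f φ - T0 φ * (sin φ / cos φ * f1 φ + m * (sin φ / cos φ) ^ 2 * f φ)) := by
  have hcos : ∀ φ ∈ Icc 0 φ₁, 0 < cos φ := fun φ hφ =>
    cos_pos_of_mem_Ioo ⟨by linarith [hφ.1, pi_pos], by linarith [hφ.2, h.h1.2]⟩
  have hsin : ∀ φ ∈ Ioo 0 φ₁, 0 < sin φ := fun φ hφ =>
    sin_pos_of_pos_of_lt_pi hφ.1 (by linarith [hφ.2, h.h1.2, pi_pos])
  set P : ℝ → ℝ := fun φ => sin φ ^ m * cos φ *
      (T1 φ * f φ - T0 φ * (sin φ / cos φ * f1 φ + m * (sin φ / cos φ) ^ 2 * f φ)) with hP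
  have hmono : MonotoneOn P (Icc 0 φ₁) := by
    have hder : ∀ φ ∈ Ioo 0 φ₁, ∃ D, HasDerivAt P D φ ∧ 0 ≤ D := by
      intro φ hφ
      have hc := hcos φ (Ioo_subset_Icc_self hφ)
      have hs := hsin φ hφ
      have hT := h.ineqT φ hφ
      have hf := h.ineqf φ hφ
      have hT0 := h.T0n φ (Ioo_subset_Icc_self hφ)
      have hfp := h.fpos φ ⟨hφ.1, hφ.2.le⟩
      have dsin := Real.hasDerivAt_sin φ
      have dcos := Real.hasDerivAt_cos φ
      have dtan : HasDerivAt (fun φ => sin φ / cos φ) (1 / cos φ ^ 2) φ := by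
        refine (dsin.fun_div dcos hc.ne').congr_deriv ?_
        have := sin_sq_add_cos_sq φ
        congr 1
        linarith
      have dT0 := h.T0d φ hφ
      have dT1 := h.T1d φ hφ
      have df := h.fd φ hφ
      have df1 := h.f1d φ hφ
      have dg : HasDerivAt (fun φ => sin φ / cos φ * f1 φ + m * (sin φ / cos φ) ^ 2 * f φ)
          ((1 / cos φ ^ 2 * f1 φ + sin φ / cos φ * f2 φ)
            + ((m * (2 * (sin φ / cos φ) * (1 / cos φ ^ 2))) * f φ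
              + m * (sin φ / cos φ) ^ 2 * f1 φ)) φ := by
        refine (dtan.fun_mul df1).fun_add (((dtan.fun_pow 2).const_mul (m : ℝ)).fun_mul df)
          |>.congr_deriv ?_
        simp only [Nat.add_one_sub_one, pow_one]
        push_cast
        ring
      have dP1 := ((dsin.fun_pow m).fun_mul dcos)
      have dP2 := (dT1.fun_mul df).fun_sub (dT0.fun_mul dg)
      refine ⟨_, dP1.fun_mul dP2, ?_⟩
      obtain ⟨k, rfl⟩ : ∃ k, m = k + 1 := ⟨m - 1, by have := h.hm; omega⟩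
      simp only [Nat.add_sub_cancel]
      rw [wron_identity (sin φ) (cos φ) ((k + 1 : ℕ) : ℝ) (T0 φ) (T1 φ) (T2 φ) (f φ) (f1 φ) (f2 φ)
        c k hs.ne' hc.ne' (sin_sq_add_cos_sq φ)]
      have n1 : 0 ≤ sin φ ^ k * f φ := by positivity
      have n2 : 0 ≤ sin φ ^ k * T0 φ / cos φ ^ 2 := by positivity
      have n3 := mul_nonneg n1 (sub_nonneg.mpr hT)
      have n4 := mul_nonneg n2 (neg_nonneg.mpr hf)
      linarith
    apply monotoneOn_of_deriv_nonneg (convex_Icc 0 φ₁)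
    · have ccos : ContinuousOn cos (Icc 0 φ₁) := continuous_cos.continuousOn
      have csin : ContinuousOn sin (Icc 0 φ₁) := continuous_sin.continuousOn
      have ctan : ContinuousOn (fun φ => sin φ / cos φ) (Icc 0 φ₁) :=
        csin.div ccos fun φ hφ => (hcos φ hφ).ne'
      exact ((csin.pow m).mul ccos).mul ((h.T1c.mul h.fc).sub (h.T0c.mul ((ctan.mul h.f1c).add
        ((continuousOn_const.mul (ctan.pow 2)).mul h.fc))))
    · intro φ hφ
      rw [interior_Icc] at hφ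
      obtain ⟨D, hD, -⟩ := hder φ hφ
      exact hD.differentiableAt.differentiableWithinAt
    · intro φ hφ
      rw [interior_Icc] at hφ
      obtain ⟨D, hD, hD0⟩ := hder φ hφ
      rw [hD.deriv]; exact hD0
  intro φ hφ
  have h0 : P 0 = 0 := by
    simp only [hP, sin_zero]
    rw [zero_pow (by have := h.hm; omega)]
    ring
  have := hmono (left_mem_Icc.mpr h.h1.1.le) hφ hφ.1
  rw [h0] at this
  exact this

/-- the quotient is nondecreasing -/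
theorem Cmp.ratio (h : Cmp m c φ₁ T0 T1 T2 f f1 f2) :
    MonotoneOn (fun φ => cos φ ^ m * T0 φ / f φ) (Ioc 0 φ₁) := by
  have hcos : ∀ φ ∈ Icc 0 φ₁, 0 < cos φ := fun φ hφ =>
    cos_pos_of_mem_Ioo ⟨by linarith [hφ.1, pi_pos], by linarith [hφ.2, h.h1.2]⟩
  have hsin : ∀ φ ∈ Ioo 0 φ₁, 0 < sin φ := fun φ hφ =>
    sin_pos_of_pos_of_lt_pi hφ.1 (by linarith [hφ.2, h.h1.2, pi_pos])
  have hder : ∀ φ ∈ Ioo 0 φ₁, ∃ D, HasDerivAt (fun φ => cos φ ^ m * T0 φ / f φ) D φ ∧ 0 ≤ D := by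
    intro φ hφ
    have hc := hcos φ (Ioo_subset_Icc_self hφ)
    have hs := hsin φ hφ
    have hfp := h.fpos φ ⟨hφ.1, hφ.2.le⟩
    have hw := h.wronskian φ (Ioo_subset_Icc_self hφ)
    have hd := (((Real.hasDerivAt_cos φ).fun_pow m).fun_mul (h.T0d φ hφ)).fun_div
      (h.fd φ hφ) hfp.ne'
    refine ⟨_, hd, ?_⟩
    obtain ⟨k, rfl⟩ : ∃ k, m = k + 1 := ⟨m - 1, by have := h.hm; omega⟩
    simp only [Nat.add_sub_cancel]
    have hpos : 0 < sin φ ^ (k + 1) * cos φ := by positivity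
    have hw2 := nonneg_of_mul_nonneg_right hw hpos
    have e : ((((k + 1 : ℕ) : ℝ) * cos φ ^ k * -sin φ * T0 φ
        + cos φ ^ (k + 1) * (T1 φ * (cos φ / sin φ))) * f φ - cos φ ^ (k + 1) * T0 φ * f1 φ)
        = cos φ ^ (k + 2) / sin φ * (T1 φ * f φ - T0 φ * (sin φ / cos φ * f1 φ
          + ((k + 1 : ℕ) : ℝ) * (sin φ / cos φ) ^ 2 * f φ)) := by
      generalize ((k + 1 : ℕ) : ℝ) = M
      rw [pow_succ, pow_succ]
      field_simp
      ring
    rw [e]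
    positivity
  apply monotoneOn_of_deriv_nonneg (convex_Ioc 0 φ₁)
  · have c1 : ContinuousOn (fun φ => cos φ ^ m) (Ioc 0 φ₁) :=
      (continuous_cos.pow m).continuousOn
    exact (c1.mul (h.T0c.mono Ioc_subset_Icc_self)).div (h.fc.mono Ioc_subset_Icc_self)
      fun φ hφ => (h.fpos φ hφ).ne'
  · intro φ hφ
    rw [interior_Ioc] at hφ
    obtain ⟨D, hD, -⟩ := hder φ hφ
    exact hD.differentiableAt.differentiableWithinAt
  · intro φ hφ
    rw [interior_Ioc] at hφ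
    obtain ⟨D, hD, hD0⟩ := hder φ hφ
    rw [hD.deriv]; exact hD0

/-- the integral bound -/
theorem Cmp.integral_le (h : Cmp m c φ₁ T0 T1 T2 f f1 f2) :
    ∫ φ in (0 : ℝ)..φ₁, cos φ * (cos φ ^ m * T0 φ)
      ≤ ((∫ φ in (0 : ℝ)..φ₁, cos φ * f φ) / f φ₁) * (cos φ₁ ^ m * T0 φ₁) := by
  have h0 := h.h1.1
  have hf1 : 0 < f φ₁ := h.fpos φ₁ (right_mem_Ioc.mpr h0)
  have hcos : ∀ φ ∈ Icc 0 φ₁, 0 < cos φ := fun φ hφ =>
    cos_pos_of_mem_Ioo ⟨by linarith [hφ.1, pi_pos], by linarith [hφ.2, h.h1.2]⟩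
  have c0 : ContinuousOn (fun φ => cos φ * (cos φ ^ m * T0 φ)) (Icc 0 φ₁) :=
    continuous_cos.continuousOn.mul ((continuous_cos.pow m).continuousOn.mul h.T0c)
  have c1 : ContinuousOn (fun φ => cos φ * f φ * ((cos φ₁ ^ m * T0 φ₁) / f φ₁)) (Icc 0 φ₁) :=
    (continuous_cos.continuousOn.mul h.fc).mul continuousOn_const
  have key : ∫ φ in (0 : ℝ)..φ₁, cos φ * (cos φ ^ m * T0 φ)
      ≤ ∫ φ in (0 : ℝ)..φ₁, cos φ * f φ * ((cos φ₁ ^ m * T0 φ₁) / f φ₁) := by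
    apply intervalIntegral.integral_mono_on_of_le_Ioo h0.le
      (c0.intervalIntegrable_of_Icc h0.le) (c1.intervalIntegrable_of_Icc h0.le)
    intro φ hφ
    have hr := h.ratio ⟨hφ.1, hφ.2.le⟩ (right_mem_Ioc.mpr h0) hφ.2.le
    simp only at hr
    have hfp := h.fpos φ ⟨hφ.1, hφ.2.le⟩
    rw [div_le_iff₀ hfp] at hr
    have hc := hcos φ (Ioo_subset_Icc_self hφ)
    calc cos φ * (cos φ ^ m * T0 φ)
        ≤ cos φ * (cos φ₁ ^ m * T0 φ₁ / f φ₁ * f φ) := mul_le_mul_of_nonneg_left hr hc.le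
      _ = _ := by ring
  refine key.trans (le_of_eq ?_)
  rw [intervalIntegral.integral_mul_const]
  ring

end Vale.Agent.P224.FV
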