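import Vale.Agent.P224.FV.Kernel

namespace Vale.Agent.P224.FV

open MeasureTheory Set Real Filter
open scoped Topology

set_option linter.unusedSectionVars false

section

variable {X : Type*} [MeasurableSpace X] {μ : Measure X} [IsFiniteMeasure μ]

/-- weighted kernel integrals -/
noncomputable def EE (μ : Measure X) (s : X → ℝ) (k : ℕ) (g : X → ℝ) (φ : ℝ) : ℝ :=
  ∫ x, g x * DD k φ (s x) ∂μ

lemma DD_le {k : ℕ} {φ s : ℝ} (hφ : φ ∈ Ioo (-(π / 2)) (π / 2)) (hs : |s| ≤ 1) :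
    DD k φ s ≤ ((1 - |sin φ|) ^ k)⁻¹ := by
  unfold DD
  have h1 := den_ge (φ := φ) hs
  have h2 : 0 < 1 - |sin φ| := by have := abs_sin_lt_one hφ; linarith
  have h3 : (1 - |sin φ|) ^ k ≤ (1 - s * sin φ) ^ k := pow_le_pow_left₀ h2.le h1 _
  exact inv_anti₀ (by positivity) h3

lemma DD_pos' {k : ℕ} {φ s : ℝ} (hφ : φ ∈ Ioo (-(π / 2)) (π / 2)) (hs : |s| ≤ 1) :
    0 < DD k φ s := DD_pos (den_pos hφ hs)

lemma meas_DD {s : X → ℝ} (hs : Measurable s) (k : ℕ) (φ : ℝ) :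
    Measurable (fun x => DD k φ (s x)) := by
  unfold DD
  fun_prop

lemma int_EE {s g : X → ℝ} (hs : Measurable s) (hg : Measurable g) (hs1 : ∀ x, |s x| ≤ 1) {C : ℝ}
    (hg1 : ∀ x, |g x| ≤ C) {φ : ℝ} (hφ : φ ∈ Ioo (-(π / 2)) (π / 2)) (k : ℕ) :
    Integrable (fun x => g x * DD k φ (s x)) μ := by
  refine Integrable.of_bound (hg.mul (meas_DD hs k φ)).aestronglyMeasurable
    (C * ((1 - |sin φ|) ^ k)⁻¹) ?_
  filter_upwards with x
  have h1 := DD_le (k := k) hφ (hs1 x)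
  have h2 := DD_pos' (k := k) hφ (hs1 x)
  rw [norm_mul, Real.norm_eq_abs, Real.norm_eq_abs, abs_of_pos h2]
  exact mul_le_mul (hg1 x) h1 h2.le ((abs_nonneg _).trans (hg1 x))

/-- differentiation under the integral sign -/
lemma hasDerivAt_EE {s g : X → ℝ} (hs : Measurable s) (hg : Measurable g)
    (hs1 : ∀ x, |s x| ≤ 1) {C : ℝ} (hg1 : ∀ x, |g x| ≤ C) (k : ℕ) {φ : ℝ}
    (hφ : φ ∈ Ioo (-(π / 2)) (π / 2)) :
    HasDerivAt (EE μ s k g) (k * cos φ * EE μ s (k + 1) (fun x => g x * s x) φ) φ := by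
  obtain ⟨a, ha0, haφ, haπ⟩ : ∃ a, 0 < a ∧ |φ| < a ∧ a < π / 2 := by
    have h1 : |φ| < π / 2 := abs_lt.mpr hφ
    refine ⟨(|φ| + π / 2) / 2, ?_, ?_, ?_⟩
    · have := abs_nonneg φ; have := pi_pos; positivity
    · linarith
    · linarith
  set S := Ioo (-a) a with hS
  have hSn : S ∈ 𝓝 φ := isOpen_Ioo.mem_nhds (abs_lt.mp haφ)
  have hSsub : ∀ x ∈ S, x ∈ Ioo (-(π / 2)) (π / 2) := fun x hx =>
    ⟨by have := hx.1; linarith, by have := hx.2; linarith⟩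
  have hsin : ∀ x ∈ S, |sin x| ≤ sin a := by
    intro x hx
    rw [abs_le]
    constructor
    · rw [← sin_neg]
      apply sin_le_sin_of_le_of_le_pi_div_two
      · linarith
      · have := hx.2; linarith
      · have := hx.1; linarith
    · apply sin_le_sin_of_le_of_le_pi_div_two
      · have := hx.1; linarith
      · linarith
      · have := hx.2; linarith
  have hsa : sin a < 1 := by
    have := abs_sin_lt_one (φ := a) ⟨by linarith, haπ⟩
    exact (abs_lt.mp this).2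
  have h1a : 0 < 1 - sin a := by linarith
  have hC0 : ∀ x : X, 0 ≤ C := fun x => (abs_nonneg _).trans (hg1 x)
  have key := hasDerivAt_integral_of_dominated_loc_of_deriv_le (μ := μ) (s := S) (x₀ := φ)
    (F := fun ψ x => g x * DD k ψ (s x))
    (F' := fun ψ x => g x * (k * (s x * cos ψ) * DD (k + 1) ψ (s x)))
    (bound := fun _ => C * (k * ((1 - sin a) ^ (k + 1))⁻¹)) hSn
    (Filter.Eventually.of_forall fun ψ => (hg.mul (meas_DD hs k ψ)).aestronglyMeasurable)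
    (int_EE hs hg hs1 hg1 hφ k)
    ((hg.mul ((measurable_const.mul (hs.mul_const _)).mul
      (meas_DD hs (k + 1) φ))).aestronglyMeasurable)
    (by
      filter_upwards with x
      intro ψ hψ
      have hψ' := hSsub ψ hψ
      have h2 := DD_pos' (k := k + 1) hψ' (hs1 x)
      have h3 : DD (k + 1) ψ (s x) ≤ ((1 - sin a) ^ (k + 1))⁻¹ := by
        refine (DD_le hψ' (hs1 x)).trans ?_
        have h4 := hsin ψ hψ
        apply inv_anti₀ (by positivity)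
        exact pow_le_pow_left₀ h1a.le (by linarith) _
      rw [norm_mul, norm_mul, norm_mul, norm_mul]
      simp only [Real.norm_eq_abs]
      rw [abs_of_pos h2, Nat.abs_cast]
      have h5 : |s x| * |cos ψ| ≤ 1 := by
        calc |s x| * |cos ψ| ≤ 1 * 1 :=
              mul_le_mul (hs1 x) (abs_cos_le_one ψ) (abs_nonneg _) zero_le_one
          _ = 1 := one_mul _
      have h6 : (k : ℝ) * (|s x| * |cos ψ|) * DD (k + 1) ψ (s x) ≤
          k * ((1 - sin a) ^ (k + 1))⁻¹ := by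
        have : (k : ℝ) * (|s x| * |cos ψ|) ≤ k := by
          calc (k : ℝ) * (|s x| * |cos ψ|) ≤ k * 1 := by gcongr
            _ = k := mul_one _
        exact mul_le_mul this h3 h2.le (by positivity)
      exact mul_le_mul (hg1 x) h6 (by positivity) (hC0 x))
    (integrable_const _)
    (by
      filter_upwards with x
      intro ψ hψ
      exact (hasDerivAt_DD_phi (den_pos (hSsub ψ hψ) (hs1 x)).ne').const_mul (g x))
  have h2 := key.2
  unfold EE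
  refine h2.congr_deriv ?_
  rw [← integral_const_mul]
  refine integral_congr_ae ?_
  filter_upwards with x
  ring

lemma EE_s {s g : X → ℝ} (hs : Measurable s) (hg : Measurable g)
    (hs1 : ∀ x, |s x| ≤ 1) {C : ℝ} (hg1 : ∀ x, |g x| ≤ C) (k : ℕ) {φ : ℝ}
    (hφ : φ ∈ Ioo (-(π / 2)) (π / 2)) :
    sin φ * EE μ s (k + 1) (fun x => g x * s x) φ = EE μ s (k + 1) g φ - EE μ s k g φ := by
  unfold EE
  rw [← integral_const_mul, ← integral_sub (int_EE hs hg hs1 hg1 hφ _) (int_EE hs hg hs1 hg1 hφ _)]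
  refine integral_congr_ae ?_
  filter_upwards with x
  rw [DD_succ (k := k) (den_pos hφ (hs1 x)).ne']
  ring

/-- derivative of the normalised integrals -/
lemma hasDerivAt_cosEE {s g : X → ℝ} (hs : Measurable s) (hg : Measurable g)
    (hs1 : ∀ x, |s x| ≤ 1) {C : ℝ} (hg1 : ∀ x, |g x| ≤ C) (j k : ℕ) {φ : ℝ}
    (hφ : φ ∈ Ioo 0 (π / 2)) :
    HasDerivAt (fun φ => cos φ ^ (j + 1) * EE μ s k g φ)
      (cos φ ^ j / sin φ * (-((j : ℝ) + 1) * sin φ ^ 2 * EE μ s k g φ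
        + k * cos φ ^ 2 * (EE μ s (k + 1) g φ - EE μ s k g φ))) φ := by
  have hφ' : φ ∈ Ioo (-(π / 2)) (π / 2) := ⟨by linarith [hφ.1, pi_pos], hφ.2⟩
  have hsin : 0 < sin φ := sin_pos_of_pos_of_lt_pi hφ.1 (by linarith [hφ.2, pi_pos])
  have h1 := ((Real.hasDerivAt_cos φ).fun_pow (j + 1)).fun_mul
    (hasDerivAt_EE (μ := μ) hs hg hs1 hg1 k hφ')
  refine h1.congr_deriv ?_
  rw [← EE_s hs hg hs1 hg1 k hφ']
  simp only [Nat.add_sub_cancel]
  push_cast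
  field_simp
  ring

lemma EE_mono {s g g' : X → ℝ} (hs : Measurable s) (hg : Measurable g) (hg' : Measurable g')
    (hs1 : ∀ x, |s x| ≤ 1) {C C' : ℝ} (hg1 : ∀ x, |g x| ≤ C) (hg1' : ∀ x, |g' x| ≤ C')
    (hle : ∀ x, g x ≤ g' x) (k : ℕ) {φ : ℝ} (hφ : φ ∈ Ioo (-(π / 2)) (π / 2)) :
    EE μ s k g φ ≤ EE μ s k g' φ := by
  unfold EE
  refine integral_mono (int_EE hs hg hs1 hg1 hφ k) (int_EE hs hg' hs1 hg1' hφ k) fun x => ?_
  exact mul_le_mul_of_nonneg_right (hle x) (DD_pos' hφ (hs1 x)).le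

lemma EE_sub {s g g' : X → ℝ} (hs : Measurable s) (hg : Measurable g) (hg' : Measurable g')
    (hs1 : ∀ x, |s x| ≤ 1) {C C' : ℝ} (hg1 : ∀ x, |g x| ≤ C) (hg1' : ∀ x, |g' x| ≤ C')
    (k : ℕ) {φ : ℝ} (hφ : φ ∈ Ioo (-(π / 2)) (π / 2)) :
    EE μ s k (fun x => g x - g' x) φ = EE μ s k g φ - EE μ s k g' φ := by
  unfold EE
  rw [← integral_sub (int_EE hs hg hs1 hg1 hφ k) (int_EE hs hg' hs1 hg1' hφ k)]
  refine integral_congr_ae ?_
  filter_upwards with x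
  ring

lemma EE_add {s g g' : X → ℝ} (hs : Measurable s) (hg : Measurable g) (hg' : Measurable g')
    (hs1 : ∀ x, |s x| ≤ 1) {C C' : ℝ} (hg1 : ∀ x, |g x| ≤ C) (hg1' : ∀ x, |g' x| ≤ C')
    (k : ℕ) {φ : ℝ} (hφ : φ ∈ Ioo (-(π / 2)) (π / 2)) :
    EE μ s k (fun x => g x + g' x) φ = EE μ s k g φ + EE μ s k g' φ := by
  unfold EE
  rw [← integral_add (int_EE hs hg hs1 hg1 hφ k) (int_EE hs hg' hs1 hg1' hφ k)]
  refine integral_congr_ae ?_
  filter_upwards with x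
  ring

lemma EE_smul {s g : X → ℝ} (c : ℝ) (k : ℕ) (φ : ℝ) :
    EE μ s k (fun x => c * g x) φ = c * EE μ s k g φ := by
  unfold EE
  rw [← integral_const_mul]
  refine integral_congr_ae ?_
  filter_upwards with x
  ring

lemma EE_nonneg {s g : X → ℝ} (hs1 : ∀ x, |s x| ≤ 1) (hg : ∀ x, 0 ≤ g x)
    (k : ℕ) {φ : ℝ} (hφ : φ ∈ Ioo (-(π / 2)) (π / 2)) : 0 ≤ EE μ s k g φ :=
  integral_nonneg fun x => mul_nonneg (hg x) (DD_pos' hφ (hs1 x)).le

/-- a function with nonpositive derivative is bounded below by its limit -/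
lemma ge_of_deriv {g g' : ℝ → ℝ} {a c : ℝ}
    (hd : ∀ ψ ∈ Ico a (π / 2), HasDerivAt g (g' ψ) ψ) (hn : ∀ ψ ∈ Ioo a (π / 2), g' ψ ≤ 0)
    (hlim : ∀ ε > 0, ∀ᶠ ψ in 𝓝[<] (π / 2), c - ε ≤ g ψ) {φ : ℝ} (hφ : φ ∈ Ico a (π / 2)) :
    c ≤ g φ := by
  have hanti : AntitoneOn g (Ico a (π / 2)) := by
    refine antitoneOn_of_deriv_nonpos (convex_Ico a (π / 2)) ?_ ?_ ?_
    · exact fun ψ hψ => (hd ψ hψ).continuousAt.continuousWithinAt
    · intro ψ hψ
      rw [interior_Ico] at hψ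
      exact (hd ψ ⟨hψ.1.le, hψ.2⟩).differentiableAt.differentiableWithinAt
    · intro ψ hψ
      rw [interior_Ico] at hψ
      rw [(hd ψ ⟨hψ.1.le, hψ.2⟩).deriv]
      exact hn ψ hψ
  refine le_of_forall_pos_le_add fun ε hε => ?_
  have h1 : ∀ᶠ ψ in 𝓝[<] (π / 2), ψ ∈ Ioo φ (π / 2) := Ioo_mem_nhdsLT hφ.2
  obtain ⟨ψ, hψ1, hψ2⟩ := ((hlim ε hε).and h1).exists
  have h2 := hanti hφ ⟨by linarith [hφ.1, hψ2.1], hψ2.2⟩ hψ2.1.le
  linarith

end

end Vale.Agent.P224.FV
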