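import Mathlib

namespace Vale.Agent.P224.FV

open MvPolynomial Finset

section

variable {n : ℕ}

/-- the weight -/
noncomputable def fac (α : Fin n →₀ ℕ) : ℝ := ∏ i, (Nat.factorial (α i) : ℝ)

lemma fac_pos (α : Fin n →₀ ℕ) : 0 < fac α :=
  Finset.prod_pos fun i _ => by exact_mod_cast Nat.factorial_pos _

/-- the Fischer form -/
noncomputable def fB (p q : MvPolynomial (Fin n) ℝ) : ℝ :=
  ∑ᶠ α : Fin n →₀ ℕ, fac α * (coeff α p * coeff α q)

lemma fB_supp (p q : MvPolynomial (Fin n) ℝ) :
    (Function.support fun α : Fin n →₀ ℕ => fac α * (coeff α p * coeff α q)).Finite := by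
  apply (p.support.finite_toSet).subset
  intro α hα
  rw [Finset.mem_coe, MvPolynomial.mem_support_iff]
  intro h
  apply hα
  simp [h]

lemma fB_comm (p q : MvPolynomial (Fin n) ℝ) : fB p q = fB q p := by
  unfold fB
  apply finsum_congr
  intro α; ring

lemma fB_add_left (p p' q : MvPolynomial (Fin n) ℝ) : fB (p + p') q = fB p q + fB p' q := by
  unfold fB
  rw [← finsum_add_distrib (fB_supp p q) (fB_supp p' q)]
  apply finsum_congr
  intro α
  rw [coeff_add]; ring

lemma fB_smul_left (c : ℝ) (p q : MvPolynomial (Fin n) ℝ) : fB (C c * p) q = c * fB p q := by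
  unfold fB
  rw [mul_finsum]
  apply finsum_congr
  intro α
  rw [coeff_C_mul]; ring

lemma fB_zero_left (q : MvPolynomial (Fin n) ℝ) : fB 0 q = 0 := by
  unfold fB; simp

lemma fB_add_right (p q q' : MvPolynomial (Fin n) ℝ) : fB p (q + q') = fB p q + fB p q' := by
  rw [fB_comm, fB_add_left, fB_comm q, fB_comm q']

lemma fB_smul_right (c : ℝ) (p q : MvPolynomial (Fin n) ℝ) : fB p (C c * q) = c * fB p q := by
  rw [fB_comm, fB_smul_left, fB_comm]

lemma fB_sum_left {ι : Type*} (s : Finset ι) (p : ι → MvPolynomial (Fin n) ℝ)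
    (q : MvPolynomial (Fin n) ℝ) : fB (∑ i ∈ s, p i) q = ∑ i ∈ s, fB (p i) q := by
  classical
  induction s using Finset.induction_on with
  | empty => simp [fB_zero_left]
  | insert a s ha ih => rw [sum_insert ha, fB_add_left, ih, sum_insert ha]

lemma fB_monomial (α : Fin n →₀ ℕ) (c : ℝ) (q : MvPolynomial (Fin n) ℝ) :
    fB (monomial α c) q = c * (fac α * coeff α q) := by
  classical
  unfold fB
  rw [finsum_eq_single _ α]
  · rw [coeff_monomial, if_pos rfl]; ring
  · intro β hβ
    rw [coeff_monomial, if_neg (fun h => hβ h.symm)]; ring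

/-- multiplication by a variable is adjoint to differentiation -/
lemma fB_X_mul (i : Fin n) (p q : MvPolynomial (Fin n) ℝ) :
    fB (X i * p) q = fB p (pderiv i q) := by
  induction p using MvPolynomial.induction_on' with
  | monomial α c =>
    have h1 : X i * monomial α c = monomial (α + Finsupp.single i 1) c := by
      rw [X, monomial_mul, one_mul, add_comm]
    rw [h1, fB_monomial, fB_monomial, coeff_pderiv]
    have h2 : fac (α + Finsupp.single i 1) = (α i + 1) * fac α := by
      unfold fac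
      rw [← Finset.mul_prod_erase univ _ (mem_univ i),
        ← Finset.mul_prod_erase univ (fun j => (Nat.factorial (α j) : ℝ)) (mem_univ i)]
      have h3 : ∏ j ∈ univ.erase i, (Nat.factorial ((α + Finsupp.single i 1 : Fin n →₀ ℕ) j) : ℝ)
          = ∏ j ∈ univ.erase i, (Nat.factorial (α j) : ℝ) := by
        apply Finset.prod_congr rfl
        intro j hj
        have hne : j ≠ i := Finset.ne_of_mem_erase hj
        rw [Finsupp.add_apply, Finsupp.single_eq_of_ne hne, add_zero]
      rw [h3, Finsupp.add_apply, Finsupp.single_eq_same, Nat.factorial_succ]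
      push_cast
      ring
    rw [h2]
    ring
  | add p p' h1 h2 => rw [mul_add, fB_add_left, fB_add_left, h1, h2]

/-- linear form -/
noncomputable def lin (x : Fin n → ℝ) : MvPolynomial (Fin n) ℝ := ∑ i, C (x i) * X i

/-- norm squared polynomial -/
noncomputable def nsq : MvPolynomial (Fin n) ℝ := ∑ i, X i * X i

/-- Laplacian -/
noncomputable def lap (q : MvPolynomial (Fin n) ℝ) : MvPolynomial (Fin n) ℝ :=
  ∑ i, pderiv i (pderiv i q)

lemma fB_lin_mul (x : Fin n → ℝ) (p q : MvPolynomial (Fin n) ℝ) :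
    fB (lin x * p) q = ∑ i, x i * fB p (pderiv i q) := by
  unfold lin
  rw [Finset.sum_mul, fB_sum_left]
  apply Finset.sum_congr rfl
  intro i _
  rw [mul_assoc, fB_smul_left, fB_X_mul]

lemma fB_nsq_mul (p q : MvPolynomial (Fin n) ℝ) : fB (nsq * p) q = fB p (lap q) := by
  unfold nsq lap
  rw [Finset.sum_mul, fB_sum_left, fB_comm p, fB_sum_left]
  apply Finset.sum_congr rfl
  intro i _
  rw [mul_assoc, fB_X_mul, fB_X_mul, fB_comm]

lemma pderiv_lin (x : Fin n → ℝ) (i : Fin n) : pderiv i (lin x) = C (x i) := by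
  classical
  unfold lin
  rw [map_sum]
  simp only [pderiv_C_mul, pderiv_X]
  rw [Finset.sum_eq_single i]
  · simp
  · intro j _ hj
    simp [hj]
  · simp

lemma pderiv_lin_pow (x : Fin n → ℝ) (i : Fin n) (k : ℕ) :
    pderiv i (lin x ^ (k + 1)) = C ((k + 1) * x i) * lin x ^ k := by
  rw [Derivation.leibniz_pow, pderiv_lin]
  simp only [Nat.add_sub_cancel, smul_eq_mul, nsmul_eq_mul, Nat.cast_add, Nat.cast_one, map_mul,
    map_add, map_natCast, map_one]
  ring

/-- pairing of powers of linear forms -/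
lemma fB_lin_pow (x y : Fin n → ℝ) (k : ℕ) :
    fB (lin x ^ k) (lin y ^ k) = k.factorial * (∑ i, x i * y i) ^ k := by
  induction k with
  | zero =>
    simp only [pow_zero, Nat.factorial_zero, Nat.cast_one, mul_one]
    have : (1 : MvPolynomial (Fin n) ℝ) = monomial 0 1 := rfl
    rw [this, fB_monomial]
    simp [fac]
  | succ k ih =>
    rw [pow_succ' (lin x), fB_lin_mul]
    simp only [pderiv_lin_pow, fB_smul_right, ih]
    rw [Nat.factorial_succ, pow_succ]
    push_cast
    rw [Finset.mul_sum]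
    rw [Finset.mul_sum]
    apply Finset.sum_congr rfl
    intro i _
    ring

lemma lap_lin_pow (x : Fin n → ℝ) (hx : ∑ i, x i * x i = 1) (k : ℕ) :
    lap (lin x ^ (k + 2)) = C (((k : ℝ) + 2) * (k + 1)) * lin x ^ k := by
  unfold lap
  have h : ∀ i, pderiv i (pderiv i (lin x ^ (k + 2)))
      = C (((k : ℝ) + 2) * (k + 1) * (x i * x i)) * lin x ^ k := by
    intro i
    rw [show k + 2 = (k + 1) + 1 from rfl, pderiv_lin_pow, pderiv_C_mul, pderiv_lin_pow,
      ← mul_assoc, ← C_mul]
    congr 2
    push_cast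
    ring
  simp only [h]
  rw [← Finset.sum_mul, ← map_sum, ← Finset.mul_sum, hx, mul_one]

lemma lap_lin_pow_zero (x : Fin n → ℝ) : lap (lin x ^ 0) = 0 := by
  unfold lap; simp

lemma lap_lin_pow_one (x : Fin n → ℝ) : lap (lin x ^ 1) = 0 := by
  unfold lap
  simp [pderiv_lin]

/-- the Euler operator on powers of linear forms -/
lemma euler_lin_pow (x : Fin n → ℝ) (k : ℕ) :
    ∑ i, X i * pderiv i (lin x ^ k) = C (k : ℝ) * lin x ^ k := by
  rcases k with _ | k
  · simp
  · simp only [pderiv_lin_pow]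
    have : ∀ i, X i * (C (((k : ℝ) + 1) * x i) * lin x ^ k)
        = C ((k : ℝ) + 1) * lin x ^ k * (C (x i) * X i) := by
      intro i; rw [C_mul]; ring
    simp only [this]
    rw [← Finset.mul_sum]
    change C ((k : ℝ) + 1) * lin x ^ k * lin x = _
    push_cast
    ring

lemma pderiv_nsq (i : Fin n) : pderiv i (nsq : MvPolynomial (Fin n) ℝ) = C 2 * X i := by
  classical
  unfold nsq
  rw [map_sum]
  simp only [pderiv_mul, pderiv_X]
  rw [Finset.sum_eq_single i]
  · simp only [Pi.single_eq_same, one_mul, mul_one]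
    rw [show (C 2 : MvPolynomial (Fin n) ℝ) = 2 from map_ofNat C 2]
    ring
  · intro j _ hj
    simp [hj]
  · simp

/-- the commutator of the Laplacian with multiplication by the squared norm -/
lemma lap_nsq_mul (q : MvPolynomial (Fin n) ℝ) :
    lap (nsq * q) = C (2 * (n : ℝ)) * q + C 4 * (∑ i, X i * pderiv i q) + nsq * lap q := by
  unfold lap
  have h : ∀ i, pderiv i (pderiv i (nsq * q))
      = C 2 * q + C 4 * (X i * pderiv i q) + nsq * pderiv i (pderiv i q) := by
    intro i
    simp only [pderiv_mul, pderiv_nsq, map_add, pderiv_C, pderiv_X_self]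
    rw [show (C 4 : MvPolynomial (Fin n) ℝ) = C 2 * C 2 by rw [← C_mul]; norm_num]
    rw [show (C 2 : MvPolynomial (Fin n) ℝ) = 2 from map_ofNat C 2]
    ring
  simp only [h]
  rw [Finset.sum_add_distrib, Finset.sum_add_distrib, Finset.sum_const, Finset.card_univ,
    Fintype.card_fin, ← Finset.mul_sum, ← Finset.mul_sum, nsmul_eq_mul, C_mul]
  rw [show (C (n : ℝ) : MvPolynomial (Fin n) ℝ) = n from map_natCast C n]
  ring

/-- the three pairings -/
lemma fB_nsq_lin (x y : Fin n → ℝ) (hy : ∑ i, y i * y i = 1) (j : ℕ) :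
    fB (nsq * lin x ^ j) (lin y ^ (j + 2))
      = (j + 2).factorial * (∑ i, x i * y i) ^ j := by
  rw [fB_nsq_mul, lap_lin_pow y hy, fB_smul_right, fB_lin_pow]
  rw [Nat.factorial_succ, Nat.factorial_succ]
  push_cast
  ring

lemma fB_nsq_nsq (x y : Fin n → ℝ) (hx : ∑ i, x i * x i = 1) (hy : ∑ i, y i * y i = 1) (j : ℕ) :
    fB (nsq * lin x ^ j) (nsq * lin y ^ j)
      = j.factorial * ((2 * n + 4 * j) * (∑ i, x i * y i) ^ j
        + j * (j - 1) * (∑ i, x i * y i) ^ (j - 2)) := by
  rw [fB_nsq_mul, lap_nsq_mul, euler_lin_pow, fB_add_right, fB_add_right, fB_smul_right,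
    fB_smul_right, fB_smul_right, fB_lin_pow]
  have h1 : fB (lin x ^ j) (nsq * lap (lin y ^ j))
      = j.factorial * (j * (j - 1) * (∑ i, x i * y i) ^ (j - 2)) := by
    rw [fB_comm, fB_nsq_mul]
    rcases j with _ | _ | j
    · rw [lap_lin_pow_zero, fB_zero_left]; simp
    · rw [lap_lin_pow_one, fB_zero_left]; simp
    · rw [lap_lin_pow x hx, lap_lin_pow y hy, fB_smul_left, fB_smul_right, fB_lin_pow]
      have e : j + 1 + 1 - 2 = j := by omega
      rw [e]
      have : ∑ i, y i * x i = ∑ i, x i * y i := Finset.sum_congr rfl fun i _ => mul_comm _ _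
      rw [this, Nat.factorial_succ, Nat.factorial_succ]
      push_cast
      ring
  rw [h1]
  ring

end

end Vale.Agent.P224.FV
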