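import Vale.Agent.P224.FV.Mfd

namespace Vale.Agent.P224.FV

open Matrix MeasureTheory Module Function Set
open scoped RealInnerProductSpace Topology ContDiff Manifold

set_option linter.unusedSectionVars false

section

variable {V W M : Type*} [NormedAddCommGroup V] [InnerProductSpace ℝ V] [FiniteDimensional ℝ V]
  [NormedAddCommGroup W] [InnerProductSpace ℝ W] [FiniteDimensional ℝ W]
  [TopologicalSpace M] [ChartedSpace V M]

/-- dimension count -/
lemma eq_zero_of_orth (hW : finrank ℝ W = finrank ℝ V + 2) (L : V →ₗ[ℝ] W)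
    (hL : Function.Injective L) {f n z : W} (hf : ‖f‖ = 1) (hn : ‖n‖ = 1) (hfn : ⟪f, n⟫ = 0)
    (h1 : ∀ v, ⟪L v, f⟫ = 0) (h2 : ∀ v, ⟪L v, n⟫ = 0) (h3 : ∀ v, ⟪L v, z⟫ = 0)
    (hzf : ⟪f, z⟫ = 0) (hzn : ⟪n, z⟫ = 0) : z = 0 := by
  by_contra hz
  have hff : ⟪f, f⟫ = 1 := by rw [real_inner_self_eq_norm_sq, hf]; norm_num
  have hnn : ⟪n, n⟫ = 1 := by rw [real_inner_self_eq_norm_sq, hn]; norm_num
  have hzz : ⟪z, z⟫ ≠ 0 := fun h => hz (inner_self_eq_zero.mp h)
  let T : (V × ℝ × ℝ × ℝ) →ₗ[ℝ] W :=
    { toFun := fun q => L q.1 + q.2.1 • f + q.2.2.1 • n + q.2.2.2 • z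
      map_add' := by
        intro q r
        simp only [Prod.fst_add, Prod.snd_add, map_add, add_smul]
        abel
      map_smul' := by
        intro c q
        simp only [Prod.smul_fst, Prod.smul_snd, map_smul, smul_add, smul_smul, smul_eq_mul,
          RingHom.id_apply] }
  have hT : Function.Injective T := by
    rw [injective_iff_map_eq_zero]
    rintro ⟨v, α, β, γ⟩ h
    have h0 : L v + α • f + β • n + γ • z = 0 := h
    have e1 := congrArg (fun w => ⟪w, f⟫) h0
    have e2 := congrArg (fun w => ⟪w, n⟫) h0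
    have e3 := congrArg (fun w => ⟪w, z⟫) h0
    have hnf : ⟪n, f⟫ = 0 := by rw [real_inner_comm]; exact hfn
    have hzf' : ⟪z, f⟫ = 0 := by rw [real_inner_comm]; exact hzf
    have hzn' : ⟪z, n⟫ = 0 := by rw [real_inner_comm]; exact hzn
    simp only [inner_add_left, real_inner_smul_left, h1, h2, h3, hff, hnn, hfn, hnf, hzf, hzn,
      hzf', hzn', inner_zero_left, mul_zero, mul_one, zero_add, add_zero] at e1 e2 e3
    have hγ : γ = 0 := (mul_eq_zero.mp e3).resolve_right hzz
    rw [e1, e2, hγ] at h0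
    simp only [zero_smul, add_zero] at h0
    have hv : v = 0 := by
      apply hL; rw [h0, map_zero]
    rw [hv, e1, e2, hγ]
    rfl
  have := LinearMap.finrank_le_finrank_of_injective hT
  simp only [finrank_prod, finrank_self] at this
  omega

/-- a unit normal is normal in every chart -/
lemma normal_rep [IsManifold 𝓘(ℝ, V) ∞ M] {F : M → W} (hF : SphImm V F) {N : M → W}
    (hN : ∀ x, IsUnitNormal V F x (N x)) (p : M) {v : V} (hv : v ∈ (chartAt V p).target) (w : V) :
    ⟪fderiv ℝ (rep (V := V) F p) v w, rep (V := V) N p v⟫ = 0 := by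
  set x := (chartAt V p).symm v with hx
  have hxs : x ∈ (chartAt V p).source := (chartAt V p).map_target hv
  have hpx : chartAt V p x = v := (chartAt V p).right_inv hv
  have hIp := immV_rep hF p
  have hIx := immV_rep hF x
  have hxT : chartAt V x x ∈ (chartAt V x).target :=
    (chartAt V x).map_source (mem_chart_source _ x)
  have hd : DifferentiableAt ℝ (rep (V := V) F p) (chartAt V p x) := by
    rw [hpx]
    exact (hIp.smooth.contDiffAt (hIp.isOpen.mem_nhds hv)).differentiableAt (by norm_num)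
  have hc := fderiv_rep_comp (x := p) (p := x) hxs hd
  rw [hpx] at hc
  have hr : LinearMap.range (fderiv ℝ (rep (V := V) F x) (chartAt V x x)).toLinearMap
      = LinearMap.range (fderiv ℝ (rep (V := V) F p) v).toLinearMap := by
    apply Submodule.eq_of_le_of_finrank_eq
    · rw [hc]
      rintro _ ⟨v, rfl⟩
      exact ⟨_, rfl⟩
    · rw [LinearMap.finrank_range_of_inj (hIx.inj _ hxT),
        LinearMap.finrank_range_of_inj (hIp.inj _ hv)]
  have hmem : fderiv ℝ (rep (V := V) F p) v w ∈
      LinearMap.range (fderiv ℝ (rep (V := V) F x) (chartAt V x x)).toLinearMap := by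
    rw [hr]; exact ⟨w, rfl⟩
  obtain ⟨z, hz⟩ := hmem
  have hz' : fderiv ℝ (rep (V := V) F x) (chartAt V x x) z = fderiv ℝ (rep (V := V) F p) v w := hz
  rw [← hz']
  have hN1 := (hN x).2.2
  have hv : z = ∑ i, (stdOrthonormalBasis ℝ V).repr z i • stdOrthonormalBasis ℝ V i :=
    ((stdOrthonormalBasis ℝ V).sum_repr z).symm
  rw [hv, map_sum, sum_inner]
  refine Finset.sum_eq_zero fun i _ => ?_
  rw [map_smul, inner_smul_left]
  have : ⟪fderiv ℝ (rep (V := V) F x) (chartAt V x x) (stdOrthonormalBasis ℝ V i),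
      rep (V := V) N p v⟫ = 0 := hN1 i
  rw [this, mul_zero]

lemma inner_rep_F_fderiv {f : V → W} {T : Set V} (h : ImmV f T) {u : V} (hu : u ∈ T) (v : V) :
    ⟪fderiv ℝ f u v, f u⟫ = 0 := by
  have hd : DifferentiableAt ℝ f u :=
    (h.smooth.contDiffAt (h.isOpen.mem_nhds hu)).differentiableAt (by norm_num)
  have h1 : fderiv ℝ (fun v => ⟪f v, f v⟫) u = fderiv ℝ (fun _ => (1 : ℝ)) u := by
    apply Filter.EventuallyEq.fderiv_eq
    filter_upwards [h.isOpen.mem_nhds hu] with v hv
    rw [real_inner_self_eq_norm_sq, h.unit v hv]; norm_num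
  have h2 := congrArg (fun L => L v) h1
  simp only [fderiv_inner_apply ℝ hd hd, fderiv_fun_const] at h2
  simp only [Pi.zero_apply, _root_.zero_apply] at h2
  rw [real_inner_comm (fderiv ℝ f u v) (f u)] at h2
  linarith

/-- the tangential derivative of F -/
lemma dl_F [IsManifold 𝓘(ℝ, V) ∞ M] (hW : finrank ℝ W = finrank ℝ V + 2) {F : M → W}
    (hF : SphImm V F) {N : M → W} (hN : ∀ x, IsUnitNormal V F x (N x)) (a : W) (p : M) :
    dl V F a F p = a - ⟪a, F p⟫ • F p - ⟪a, N p⟫ • N p := by
  have hI := immV_rep hF p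
  have hpT : chartAt V p p ∈ (chartAt V p).target :=
    (chartAt V p).map_source (mem_chart_source _ p)
  have hFp : rep (V := V) F p (chartAt V p p) = F p := by
    unfold rep; rw [(chartAt V p).left_inv (mem_chart_source _ p)]
  have hNp : rep (V := V) N p (chartAt V p p) = N p := by
    unfold rep; rw [(chartAt V p).left_inv (mem_chart_source _ p)]
  obtain ⟨hn1, hn2, -⟩ := hN p
  have hff : ⟪F p, F p⟫ = 1 := by rw [real_inner_self_eq_norm_sq, hF.unit]; norm_num
  have hnn : ⟪N p, N p⟫ = 1 := by rw [real_inner_self_eq_norm_sq, hn1]; norm_num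
  have hnf : ⟪N p, F p⟫ = 0 := by rw [real_inner_comm]; exact hn2
  have hLF : ∀ v, ⟪fderiv ℝ (rep (V := V) F p) (chartAt V p p) v, F p⟫ = 0 := by
    intro v
    have := inner_rep_F_fderiv hI hpT v
    rwa [hFp] at this
  have hLN : ∀ v, ⟪fderiv ℝ (rep (V := V) F p) (chartAt V p p) v, N p⟫ = 0 := by
    intro v
    have := normal_rep hF hN p hpT v
    rwa [hNp] at this
  have ht : dl V F a F p = lT (rep (V := V) F p) a (chartAt V p p) := fderiv_vW _ _ _
  have htF : ⟪lT (rep (V := V) F p) a (chartAt V p p), F p⟫ = 0 := by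
    rw [← fderiv_vW]; exact hLF _
  have htN : ⟪lT (rep (V := V) F p) a (chartAt V p p), N p⟫ = 0 := by
    rw [← fderiv_vW]; exact hLN _
  rw [ht]
  set t := lT (rep (V := V) F p) a (chartAt V p p) with htdef
  have hz : a - t - ⟪a, F p⟫ • F p - ⟪a, N p⟫ • N p = 0 := by
    apply eq_zero_of_orth hW
      (fderiv ℝ (rep (V := V) F p) (chartAt V p p)).toLinearMap (hI.inj _ hpT)
      (hF.unit p) hn1 hn2 hLF hLN
    · intro v
      have h1 := inner_fderiv_sub_lT (hI.inj _ hpT) a v
      have h2 := hLF v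
      have h3 := hLN v
      simp only [ContinuousLinearMap.coe_coe]
      rw [inner_sub_right, inner_sub_right, inner_smul_right, inner_smul_right, h1, h2, h3]
      ring
    · rw [inner_sub_right, inner_sub_right, inner_sub_right, inner_smul_right, inner_smul_right,
        hff, hn2, real_inner_comm t, htF, real_inner_comm a]
      ring
    · rw [inner_sub_right, inner_sub_right, inner_sub_right, inner_smul_right, inner_smul_right,
        hnf, hnn, real_inner_comm t, htN, real_inner_comm a]
      ring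
  have : a - ⟪a, F p⟫ • F p - ⟪a, N p⟫ • N p - t = 0 := by
    rw [← hz]; abel
  rw [sub_eq_zero] at this
  exact this.symm

/-- symmetry of the second fundamental form -/
lemma dl_N_symm [IsManifold 𝓘(ℝ, V) ∞ M] (hW : finrank ℝ W = finrank ℝ V + 2) {F : M → W}
    (hF : SphImm V F) {N : M → W} (hNs : ContMDiff 𝓘(ℝ, V) 𝓘(ℝ, W) ∞ N)
    (hN : ∀ x, IsUnitNormal V F x (N x)) (a b : W) (p : M) :
    ⟪dl V F a N p, b⟫ = ⟪dl V F b N p, a⟫ := by
  have hI := immV_rep hF p
  have hpT : chartAt V p p ∈ (chartAt V p).target :=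
    (chartAt V p).map_source (mem_chart_source _ p)
  have hFp : rep (V := V) F p (chartAt V p p) = F p := by
    unfold rep; rw [(chartAt V p).left_inv (mem_chart_source _ p)]
  have hNp : rep (V := V) N p (chartAt V p p) = N p := by
    unfold rep; rw [(chartAt V p).left_inv (mem_chart_source _ p)]
  set f := rep (V := V) F p with hf
  set ν := rep (V := V) N p with hν
  set u := chartAt V p p with hu
  have hT := hI.isOpen.mem_nhds hpT
  have hfs : ContDiffAt ℝ 2 f u := (hI.smooth.contDiffAt hT).of_le (by norm_cast)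
  have hfd : DifferentiableAt ℝ f u := hfs.differentiableAt (by norm_num)
  have hνd : DifferentiableAt ℝ ν u := rep_diff_self hNs p
  -- derivative of nu is orthogonal to f and nu
  have h1 : ∀ w, ⟪fderiv ℝ ν u w, f u⟫ = 0 := by
    intro w
    have e1 : fderiv ℝ (fun v => ⟪ν v, f v⟫) u = fderiv ℝ (fun _ => (0 : ℝ)) u := by
      apply Filter.EventuallyEq.fderiv_eq
      filter_upwards with v
      rw [real_inner_comm]
      exact (hN _).2.1
    have h2 := congrArg (fun L => L w) e1
    simp only [fderiv_inner_apply ℝ hνd hfd, fderiv_fun_const] at h2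
    simp only [Pi.zero_apply, _root_.zero_apply] at h2
    rw [real_inner_comm _ (ν u), normal_rep hF hN p hpT w, zero_add] at h2
    exact h2
  have h2 : ∀ w, ⟪fderiv ℝ ν u w, ν u⟫ = 0 := by
    intro w
    have e1 : fderiv ℝ (fun v => ⟪ν v, ν v⟫) u = fderiv ℝ (fun _ => (1 : ℝ)) u := by
      apply Filter.EventuallyEq.fderiv_eq
      filter_upwards with v
      rw [real_inner_self_eq_norm_sq]
      have : ‖ν v‖ = 1 := (hN _).1
      rw [this]; norm_num
    have h2 := congrArg (fun L => L w) e1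
    simp only [fderiv_inner_apply ℝ hνd hνd, fderiv_fun_const] at h2
    simp only [Pi.zero_apply, _root_.zero_apply] at h2
    rw [real_inner_comm (fderiv ℝ ν u w) (ν u)] at h2
    linarith
  -- the second fundamental form
  have h3 : ∀ w w', ⟪fderiv ℝ ν u w, fderiv ℝ f u w'⟫
      = - ⟪ν u, fderiv ℝ (fderiv ℝ f) u w w'⟫ := by
    intro w w'
    have hfd2 : DifferentiableAt ℝ (fderiv ℝ f) u :=
      (hfs.fderiv_right (m := 1) (by norm_num)).differentiableAt (by norm_num)
    have hPd : HasFDerivAt (fun v => fderiv ℝ f v w')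
        ((ContinuousLinearMap.apply ℝ W w').comp (fderiv ℝ (fderiv ℝ f) u)) u :=
      (ContinuousLinearMap.apply ℝ W w').hasFDerivAt.comp u hfd2.hasFDerivAt
    have e1 : fderiv ℝ (fun v => ⟪ν v, fderiv ℝ f v w'⟫) u = fderiv ℝ (fun _ => (0 : ℝ)) u := by
      apply Filter.EventuallyEq.fderiv_eq
      filter_upwards [hT] with v hv
      rw [real_inner_comm]
      exact normal_rep hF hN p hv w'
    have h2 := congrArg (fun L => L w) e1
    simp only [fderiv_inner_apply ℝ hνd hPd.differentiableAt, fderiv_fun_const, hPd.fderiv] at h2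
    simp only [Pi.zero_apply, _root_.zero_apply, ContinuousLinearMap.comp_apply,
      ContinuousLinearMap.apply_apply] at h2
    linarith
  have hsymm : ∀ w w', fderiv ℝ (fderiv ℝ f) u w w' = fderiv ℝ (fderiv ℝ f) u w' w :=
    hfs.isSymmSndFDerivAt (by simp)
  -- decomposition
  have key : ∀ a b : W, ⟪dl V F a N p, b⟫
      = ⟪fderiv ℝ ν u (vW f a u), fderiv ℝ f u (vW f b u)⟫ := by
    intro a b
    have hb := dl_F hW hF hN b p
    have hb' : dl V F b F p = fderiv ℝ f u (vW f b u) := rfl
    have hb2 : b = fderiv ℝ f u (vW f b u) + ⟪b, F p⟫ • F p + ⟪b, N p⟫ • N p := by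
      rw [← hb', hb]; abel
    have ha : dl V F a N p = fderiv ℝ ν u (vW f a u) := rfl
    rw [ha]
    conv_lhs => rw [hb2]
    rw [inner_add_right, inner_add_right, inner_smul_right, inner_smul_right, ← hFp, ← hNp,
      h1, h2]
    ring
  rw [key a b, key b a, h3, h3, hsymm]

end

end Vale.Agent.P224.FV
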