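import Vale.Agent.P224.FV.Global

namespace Vale.Agent.P224.FV

open Matrix MeasureTheory Module Function Set
open scoped RealInnerProductSpace Topology ContDiff Manifold

set_option linter.unusedSectionVars false

section

variable {V W M : Type*} [NormedAddCommGroup V] [InnerProductSpace ℝ V] [FiniteDimensional ℝ V]
  [NormedAddCommGroup W] [InnerProductSpace ℝ W] [FiniteDimensional ℝ W]
  [TopologicalSpace M] [ChartedSpace V M]

lemma dl_mul [IsManifold 𝓘(ℝ, V) ∞ M] {F : M → W} (a : W) {h k : M → ℝ}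
    (hh : ContMDiff 𝓘(ℝ, V) 𝓘(ℝ, ℝ) ∞ h) (hk : ContMDiff 𝓘(ℝ, V) 𝓘(ℝ, ℝ) ∞ k) (p : M) :
    dl V F a (fun q => h q * k q) p = dl V F a h p * k p + h p * dl V F a k p := by
  unfold dl
  have e : rep (V := V) (fun q => h q * k q) p = fun u => rep (V := V) h p u * rep (V := V) k p u :=
    rfl
  have hp : ∀ g : M → ℝ, rep (V := V) g p (chartAt V p p) = g p := by
    intro g
    unfold rep; rw [(chartAt V p).left_inv (mem_chart_source _ p)]
  rw [e, fderiv_fun_mul (rep_diff_self hh p) (rep_diff_self hk p)]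
  simp only [_root_.add_apply, _root_.smul_apply, smul_eq_mul, hp]
  ring

lemma dl_inner [IsManifold 𝓘(ℝ, V) ∞ M] {F : M → W} (a : W) {h : M → W}
    (hh : ContMDiff 𝓘(ℝ, V) 𝓘(ℝ, W) ∞ h) (y : W) (p : M) :
    dl V F a (fun q => ⟪h q, y⟫) p = ⟪dl V F a h p, y⟫ := by
  unfold dl
  have e : rep (V := V) (fun q => ⟪h q, y⟫) p = fun u => ⟪rep (V := V) h p u, y⟫ := rfl
  rw [e, fderiv_inner_apply ℝ (rep_diff_self hh p) (differentiableAt_const y)]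
  simp

lemma dl_comp [IsManifold 𝓘(ℝ, V) ∞ M] {F : M → W} (a : W) {h : M → ℝ}
    (hh : ContMDiff 𝓘(ℝ, V) 𝓘(ℝ, ℝ) ∞ h) {w : ℝ → ℝ} {w' : ℝ} (p : M)
    (hw : HasDerivAt w w' (h p)) :
    dl V F a (fun q => w (h q)) p = w' * dl V F a h p := by
  unfold dl
  have hp : rep (V := V) h p (chartAt V p p) = h p := by
    unfold rep; rw [(chartAt V p).left_inv (mem_chart_source _ p)]
  have e : rep (V := V) (fun q => w (h q)) p = w ∘ rep (V := V) h p := rfl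
  have hw2 : HasDerivAt w w' (rep (V := V) h p (chartAt V p p)) := by rw [hp]; exact hw
  have := hw2.comp_hasFDerivAt (chartAt V p p) (rep_diff_self hh p).hasFDerivAt
  rw [e, this.fderiv]
  simp

lemma smooth_inner {h : M → W}
    (hh : ContMDiff 𝓘(ℝ, V) 𝓘(ℝ, W) ∞ h) (y : W) :
    ContMDiff 𝓘(ℝ, V) 𝓘(ℝ, ℝ) ∞ (fun q => ⟪h q, y⟫) := by
  have h1 : ContDiff ℝ ∞ (fun z : W => ⟪z, y⟫) := contDiff_id.inner ℝ contDiff_const
  exact h1.comp_contMDiff hh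

lemma smooth_comp {h : M → ℝ}
    (hh : ContMDiff 𝓘(ℝ, V) 𝓘(ℝ, ℝ) ∞ h) {w : ℝ → ℝ} (hw : ∀ p, ContDiffAt ℝ ∞ w (h p)) :
    ContMDiff 𝓘(ℝ, V) 𝓘(ℝ, ℝ) ∞ (fun q => w (h q)) := fun p =>
  (hw p).comp_contMDiffAt (hh p)

variable [MeasurableSpace V] [BorelSpace V] [MeasurableSpace M] [BorelSpace M]

/-- first identity, general kernel -/
theorem ident1 [IsManifold 𝓘(ℝ, V) ∞ M] [CompactSpace M] [T2Space M]
    (hW : finrank ℝ W = finrank ℝ V + 2) {F : M → W}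
    (hF : SphImm V F) (hmin : ∀ x n, IsUnitNormal V F x n → meanCurv V F x n = 0)
    (hV : VolChart V F) [IsFiniteMeasure (volM V F)] {N : M → W}
    (hN : ∀ x, IsUnitNormal V F x (N x)) {y : W} (hy : ‖y‖ = 1) {w : ℝ → ℝ}
    (hw : ∀ p, ContDiffAt ℝ ∞ w ⟪F p, y⟫) :
    ∫ p, deriv w ⟪F p, y⟫ * (1 - ⟪F p, y⟫ ^ 2 - ⟪N p, y⟫ ^ 2) ∂(volM V F)
      = (finrank ℝ V : ℝ) * ∫ p, ⟪F p, y⟫ * w ⟪F p, y⟫ ∂(volM V F) := by
  have hs := smooth_comp (smooth_inner hF.smooth y) hw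
  have h1 := first_variation hW hF hmin hV y hs
  have e1 : ∀ p, dl V F y (fun q => w ⟪F q, y⟫) p
      = deriv w ⟪F p, y⟫ * (1 - ⟪F p, y⟫ ^ 2 - ⟪N p, y⟫ ^ 2) := by
    intro p
    have hd : HasDerivAt w (deriv w ⟪F p, y⟫) ⟪F p, y⟫ :=
      ((hw p).differentiableAt (by norm_num)).hasDerivAt
    rw [dl_comp y (smooth_inner hF.smooth y) p hd, dl_inner y hF.smooth, dl_F hW hF hN]
    simp only [inner_sub_left, real_inner_smul_left, real_inner_self_eq_norm_sq, hy]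
    rw [real_inner_comm (F p) y, real_inner_comm (N p) y]
    ring
  simp only [e1] at h1
  rw [h1]
  congr 1
  refine integral_congr_ae ?_
  filter_upwards with p
  rw [real_inner_comm]

/-- second identity, general kernel -/
theorem ident2 [IsManifold 𝓘(ℝ, V) ∞ M] [CompactSpace M] [T2Space M]
    (hW : finrank ℝ W = finrank ℝ V + 2) {F : M → W}
    (hF : SphImm V F) (hmin : ∀ x n, IsUnitNormal V F x n → meanCurv V F x n = 0)
    (hV : VolChart V F) [IsFiniteMeasure (volM V F)] {N : M → W}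
    (hNs : ContMDiff 𝓘(ℝ, V) 𝓘(ℝ, W) ∞ N)
    (hN : ∀ x, IsUnitNormal V F x (N x)) {y b : W} (hy : ‖y‖ = 1) (hyb : ⟪y, b⟫ = 0) {w : ℝ → ℝ}
    (hw : ∀ p, ContDiffAt ℝ ∞ w ⟪F p, y⟫) :
    ∫ p, deriv w ⟪F p, y⟫ * (⟪N p, b⟫ * (1 - ⟪F p, y⟫ ^ 2)
        + ⟪N p, y⟫ * ⟪F p, b⟫ * ⟪F p, y⟫) ∂(volM V F)
      = (finrank ℝ V : ℝ) * ∫ p, (⟪F p, y⟫ * ⟪N p, b⟫ - ⟪N p, y⟫ * ⟪F p, b⟫)
          * w ⟪F p, y⟫ ∂(volM V F) := by
  have hs := smooth_comp (smooth_inner hF.smooth y) hw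
  have hsb := smooth_inner hNs b
  have hsy := smooth_inner hNs y
  have hm1 : ContMDiff 𝓘(ℝ, V) 𝓘(ℝ, ℝ) ∞ (fun q => ⟪N q, b⟫ * w ⟪F q, y⟫) := hsb.mul hs
  have hm2 : ContMDiff 𝓘(ℝ, V) 𝓘(ℝ, ℝ) ∞ (fun q => ⟪N q, y⟫ * w ⟪F q, y⟫) := hsy.mul hs
  have h1 := first_variation hW hF hmin hV y hm1
  have h2 := first_variation hW hF hmin hV b hm2
  have hd : ∀ p, HasDerivAt w (deriv w ⟪F p, y⟫) ⟪F p, y⟫ := fun p =>
    ((hw p).differentiableAt (by norm_num)).hasDerivAt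
  have e1 : ∀ p, dl V F y (fun q => ⟪N q, b⟫ * w ⟪F q, y⟫) p
      = ⟪dl V F y N p, b⟫ * w ⟪F p, y⟫ + ⟪N p, b⟫ * (deriv w ⟪F p, y⟫
        * (1 - ⟪F p, y⟫ ^ 2 - ⟪N p, y⟫ ^ 2)) := by
    intro p
    rw [dl_mul y hsb hs, dl_comp y (smooth_inner hF.smooth y) p (hd p), dl_inner y hF.smooth,
      dl_inner y hNs, dl_F hW hF hN]
    simp only [inner_sub_left, real_inner_smul_left, real_inner_self_eq_norm_sq, hy]
    rw [real_inner_comm (F p) y, real_inner_comm (N p) y]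
    ring
  have e2 : ∀ p, dl V F b (fun q => ⟪N q, y⟫ * w ⟪F q, y⟫) p
      = ⟪dl V F y N p, b⟫ * w ⟪F p, y⟫ + ⟪N p, y⟫ * (deriv w ⟪F p, y⟫
        * (- (⟪F p, b⟫ * ⟪F p, y⟫) - ⟪N p, b⟫ * ⟪N p, y⟫)) := by
    intro p
    rw [dl_mul b hsy hs, dl_comp b (smooth_inner hF.smooth y) p (hd p), dl_inner b hF.smooth,
      dl_inner b hNs, dl_F hW hF hN, dl_N_symm hW hF hNs hN b y]
    simp only [inner_sub_left, real_inner_smul_left]
    rw [real_inner_comm (F p) b, real_inner_comm (N p) b, real_inner_comm y b, hyb]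
    ring
  have hcF : Continuous F := hF.smooth.continuous
  have hcN : Continuous N := hNs.continuous
  have i1 := integrable_of_cont (volM V F) (continuous_dl hF y hm1)
  have i2 := integrable_of_cont (volM V F) (continuous_dl hF b hm2)
  have i3 := integrable_of_cont (volM V F) (g := fun p => ⟪y, F p⟫ * (⟪N p, b⟫ * w ⟪F p, y⟫))
    ((continuous_const.inner hcF).mul hm1.continuous)
  have i4 := integrable_of_cont (volM V F) (g := fun p => ⟪b, F p⟫ * (⟪N p, y⟫ * w ⟪F p, y⟫))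
    ((continuous_const.inner hcF).mul hm2.continuous)
  have h3 : ∫ p, (dl V F y (fun q => ⟪N q, b⟫ * w ⟪F q, y⟫) p
        - dl V F b (fun q => ⟪N q, y⟫ * w ⟪F q, y⟫) p) ∂(volM V F)
      = (finrank ℝ V : ℝ) * ∫ p, (⟪y, F p⟫ * (⟪N p, b⟫ * w ⟪F p, y⟫)
          - ⟪b, F p⟫ * (⟪N p, y⟫ * w ⟪F p, y⟫)) ∂(volM V F) := by
    rw [integral_sub i1 i2, integral_sub i3 i4, mul_sub]
    exact congrArg₂ (· - ·) h1 h2
  simp only [e1, e2] at h3
  refine Eq.trans ?_ (h3.trans ?_)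
  · refine integral_congr_ae ?_
    filter_upwards with p
    ring
  · congr 1
    refine integral_congr_ae ?_
    filter_upwards with p
    rw [real_inner_comm (F p) y, real_inner_comm (F p) b]
    ring

end

end Vale.Agent.P224.FV
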