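import Vale.Agent.P224.FV.LapSmooth
import Vale.Agent.P224.FV.Ident

namespace Vale.Agent.P224.FV

open Matrix MeasureTheory Module Function Set
open scoped RealInnerProductSpace Topology ContDiff Manifold

set_option linter.unusedSectionVars false

section

variable {V W M : Type*} [NormedAddCommGroup V] [InnerProductSpace ℝ V] [FiniteDimensional ℝ V]
  [NormedAddCommGroup W] [InnerProductSpace ℝ W] [FiniteDimensional ℝ W]
  {X : Type*} [NormedAddCommGroup X] [NormedSpace ℝ X]
  [TopologicalSpace M] [ChartedSpace V M]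

lemma vW_congr {f : V → W} {u : V} {a b : W} (h : ∀ j, ⟪a, lP f j u⟫ = ⟪b, lP f j u⟫) :
    vW f a u = vW f b u := by
  simp only [vW, lW, h]

lemma vW_sum {ι : Type*} (s : Finset ι) (c : ι → ℝ) (e : ι → W) (f : V → W) (u : V) :
    vW f (∑ k ∈ s, c k • e k) u = ∑ k ∈ s, c k • vW f (e k) u := by
  simp only [vW, lW, Finset.smul_sum, smul_smul]
  rw [Finset.sum_comm]
  refine Finset.sum_congr rfl fun i _ => ?_
  rw [← Finset.sum_smul]
  congr 1
  simp only [sum_inner, real_inner_smul_left, Finset.mul_sum]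
  rw [Finset.sum_comm]
  refine Finset.sum_congr rfl fun k _ => Finset.sum_congr rfl fun j _ => ?_
  ring

/-- expansion of the derivative in a basis of the ambient space -/
lemma dl_expand {F : M → W} (a : W) (h : M → X) (p : M) :
    dl V F a h p = ∑ i, ⟪stdOrthonormalBasis ℝ W i, a⟫ • dl V F (stdOrthonormalBasis ℝ W i) h p := by
  unfold dl
  conv_lhs => rw [← (stdOrthonormalBasis ℝ W).sum_repr' a]
  rw [vW_sum, map_sum]
  simp only [map_smul]

/-- the position vector has no tangential part -/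
lemma dl_pos [IsManifold 𝓘(ℝ, V) ∞ M] {F : M → W} (hF : SphImm V F) (h : M → X) (p : M) :
    dl V F (F p) h p = 0 := by
  have hI := immV_rep hF p
  have hpT : chartAt V p p ∈ (chartAt V p).target :=
    (chartAt V p).map_source (mem_chart_source _ p)
  have hFp : rep (V := V) F p (chartAt V p p) = F p := by
    unfold rep; rw [(chartAt V p).left_inv (mem_chart_source _ p)]
  unfold dl
  have : vW (rep (V := V) F p) (F p) (chartAt V p p) = 0 := by
    have h0 : vW (rep (V := V) F p) (0 : W) (chartAt V p p) = 0 := by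
      simp [vW, lW]
    rw [← h0]
    apply vW_congr
    intro j
    rw [inner_zero_left, real_inner_comm, ← hFp]
    exact inner_rep_F_fderiv hI hpT _
  rw [this, map_zero]

/-- derivative along the tangential part -/
lemma dl_proj [IsManifold 𝓘(ℝ, V) ∞ M] {F : M → W} (hF : SphImm V F) (y : W) (h : M → X) (p : M) :
    dl V F (dl V F y F p) h p = dl V F y h p := by
  have hI := immV_rep hF p
  have hpT : chartAt V p p ∈ (chartAt V p).target :=
    (chartAt V p).map_source (mem_chart_source _ p)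
  have e : dl V F y F p = lT (rep (V := V) F p) y (chartAt V p p) := fderiv_vW _ _ _
  rw [e]
  unfold dl
  congr 1
  apply vW_congr
  intro j
  rw [real_inner_comm]
  exact inner_lT (lG_det_pos (hI.inj _ hpT)).ne' y j

/-- the tangential projection is symmetric -/
lemma dl_F_symm {F : M → W} (a y : W) (p : M) :
    ⟪dl V F a F p, y⟫ = ⟪a, dl V F y F p⟫ := by
  have e : ∀ a : W, dl V F a F p = lT (rep (V := V) F p) a (chartAt V p p) := fun a =>
    fderiv_vW _ _ _
  rw [e, e]
  simp only [lT, lW, sum_inner, inner_sum, real_inner_smul_left, real_inner_smul_right,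
    Finset.sum_mul]
  rw [Finset.sum_comm]
  refine Finset.sum_congr rfl fun i _ => Finset.sum_congr rfl fun j _ => ?_
  rw [lGinv_symm, real_inner_comm y]
  ring

lemma sum_dl_F [IsManifold 𝓘(ℝ, V) ∞ M] {F : M → W} (hF : SphImm V F) (y : W) (h : M → ℝ)
    (p : M) :
    ∑ i, ⟪dl V F (stdOrthonormalBasis ℝ W i) F p, y⟫ * dl V F (stdOrthonormalBasis ℝ W i) h p
      = dl V F y h p := by
  rw [← dl_proj hF y h p, dl_expand (dl V F y F p)]
  refine Finset.sum_congr rfl fun i _ => ?_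
  rw [dl_F_symm, smul_eq_mul]

lemma sum_pos_dl [IsManifold 𝓘(ℝ, V) ∞ M] {F : M → W} (hF : SphImm V F) (h : M → ℝ)
    (p : M) :
    ∑ i, ⟪stdOrthonormalBasis ℝ W i, F p⟫ * dl V F (stdOrthonormalBasis ℝ W i) h p = 0 := by
  rw [← dl_pos hF h p, dl_expand (F p)]
  rfl

variable [MeasurableSpace V] [BorelSpace V] [MeasurableSpace M] [BorelSpace M]

/-- Green's formula with a function of the height -/
theorem green [IsManifold 𝓘(ℝ, V) ∞ M] [CompactSpace M] [T2Space M]
    (hW : finrank ℝ W = finrank ℝ V + 2) {F : M → W}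
    (hF : SphImm V F) (hmin : ∀ x n, IsUnitNormal V F x n → meanCurv V F x n = 0)
    (hV : VolChart V F) [IsFiniteMeasure (volM V F)] (y : W) {G : ℝ → ℝ}
    (hG : ∀ p, ContDiffAt ℝ ∞ G ⟪F p, y⟫) {g : M → ℝ}
    (hg : ContMDiff 𝓘(ℝ, V) 𝓘(ℝ, ℝ) ∞ g) :
    ∫ p, deriv G ⟪F p, y⟫ * dl V F y g p ∂(volM V F)
      = - ∫ p, G ⟪F p, y⟫ * Lap V F g p ∂(volM V F) := by
  set e := stdOrthonormalBasis ℝ W with he
  have hs := smooth_comp (smooth_inner hF.smooth y) hG
  have hd : ∀ a, ContMDiff 𝓘(ℝ, V) 𝓘(ℝ, ℝ) ∞ (dl V F a g) := fun a => contMDiff_dl hF a hg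
  have hdd : ∀ a, ContMDiff 𝓘(ℝ, V) 𝓘(ℝ, ℝ) ∞ (dl V F a (dl V F a g)) := fun a =>
    contMDiff_dl hF a (hd a)
  have hm : ∀ a, ContMDiff 𝓘(ℝ, V) 𝓘(ℝ, ℝ) ∞ (fun q => G ⟪F q, y⟫ * dl V F a g q) := fun a =>
    hs.mul (hd a)
  have hcF : Continuous F := hF.smooth.continuous
  have h1 : ∀ i, ∫ p, dl V F (e i) (fun q => G ⟪F q, y⟫ * dl V F (e i) g q) p ∂(volM V F)
      = (finrank ℝ V : ℝ) * ∫ p, ⟪e i, F p⟫ * (G ⟪F p, y⟫ * dl V F (e i) g p) ∂(volM V F) :=
    fun i => first_variation hW hF hmin hV (e i) (hm (e i))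
  have e1 : ∀ i p, dl V F (e i) (fun q => G ⟪F q, y⟫ * dl V F (e i) g q) p
      = deriv G ⟪F p, y⟫ * (⟪dl V F (e i) F p, y⟫ * dl V F (e i) g p)
        + G ⟪F p, y⟫ * dl V F (e i) (dl V F (e i) g) p := by
    intro i p
    have hdv : HasDerivAt G (deriv G ⟪F p, y⟫) ⟪F p, y⟫ :=
      ((hG p).differentiableAt (by norm_num)).hasDerivAt
    rw [dl_mul (e i) hs (hd (e i)), dl_comp (e i) (smooth_inner hF.smooth y) p hdv,
      dl_inner (e i) hF.smooth]
    ring
  have hsum := Finset.sum_congr rfl (fun i (_ : i ∈ Finset.univ) => h1 i)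
  have i1 : ∀ i, Integrable (fun p => dl V F (e i) (fun q => G ⟪F q, y⟫ * dl V F (e i) g q) p)
      (volM V F) := fun i => integrable_of_cont _ (contMDiff_dl hF (e i) (hm (e i))).continuous
  have i2 : ∀ i, Integrable (fun p => ⟪e i, F p⟫ * (G ⟪F p, y⟫ * dl V F (e i) g p))
      (volM V F) := fun i =>
    integrable_of_cont _ ((continuous_const.inner hcF).mul (hm (e i)).continuous)
  rw [← Finset.mul_sum, ← integral_finsetSum _ (fun i _ => i1 i),
    ← integral_finsetSum _ (fun i _ => i2 i)] at hsum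
  have e2 : ∀ p, ∑ i, ⟪e i, F p⟫ * (G ⟪F p, y⟫ * dl V F (e i) g p) = 0 := by
    intro p
    have := sum_pos_dl hF g p
    calc ∑ i, ⟪e i, F p⟫ * (G ⟪F p, y⟫ * dl V F (e i) g p)
        = G ⟪F p, y⟫ * ∑ i, ⟪e i, F p⟫ * dl V F (e i) g p := by
          rw [Finset.mul_sum]
          exact Finset.sum_congr rfl fun i _ => by ring
      _ = 0 := by rw [this, mul_zero]
  have e3 : ∀ p, ∑ i, dl V F (e i) (fun q => G ⟪F q, y⟫ * dl V F (e i) g q) p
      = deriv G ⟪F p, y⟫ * dl V F y g p + G ⟪F p, y⟫ * Lap V F g p := by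
    intro p
    simp only [e1]
    rw [Finset.sum_add_distrib, ← Finset.mul_sum, ← Finset.mul_sum, sum_dl_F hF]
    rfl
  simp only [e2, e3, integral_zero, mul_zero] at hsum
  have hcl : Continuous (Lap V F g) := by
    unfold Lap
    exact continuous_finsetSum _ fun i _ => (hdd _).continuous
  have hG' : ContMDiff 𝓘(ℝ, V) 𝓘(ℝ, ℝ) ∞ (fun q => deriv G ⟪F q, y⟫) := by
    refine smooth_comp (smooth_inner hF.smooth y) (w := deriv G) (fun p => ?_)
    have h1 : ContDiffAt ℝ ∞ (fun x => fderiv ℝ G x 1) ⟪F p, y⟫ :=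
      ((hG p).fderiv_right (m := ∞) (by simp)).clm_apply contDiffAt_const
    exact h1
  rw [integral_add] at hsum
  · linarith
  · exact integrable_of_cont _ (hG'.continuous.mul (hd y).continuous)
  · exact integrable_of_cont _ (hs.continuous.mul hcl)

end

end Vale.Agent.P224.FV
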