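import Vale.Agent.P224.FV.TwoPoint
import Vale.Agent.P224.DensityGlobal

namespace Vale.Agent.P224.FV

open MeasureTheory Set Real Filter
open scoped Topology RealInnerProductSpace Manifold ContDiff

section L1

variable {V W M : Type*} [NormedAddCommGroup V] [InnerProductSpace ℝ V] [FiniteDimensional ℝ V]
  [NormedAddCommGroup W] [InnerProductSpace ℝ W] [FiniteDimensional ℝ W]
  [TopologicalSpace M] [ChartedSpace V M] {F : M → W}
  [MeasurableSpace V] [BorelSpace V] [MeasurableSpace M] [BorelSpace M]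

/-- conformal density with q preimages -/
theorem limit_card [IsManifold 𝓘(ℝ, V) ∞ M] [CompactSpace M] [T2Space M]
    (hm : 0 < Module.finrank ℝ V) (hW : Module.finrank ℝ W = Module.finrank ℝ V + 2)
    (hF : SphImm V F) (q : Finset M) (y : W) (hq : ∀ p ∈ q, F p = y) (hy : ‖y‖ = 1)
    {ε : ℝ} (hε : 0 < ε) :
    ∀ᶠ φ in 𝓝[<] (π / 2), (q.card : ℝ) * sphereVol (Module.finrank ℝ V) - ε ≤
        ∫ x, cf φ ⟪F x, y⟫ ^ (Module.finrank ℝ V) ∂(volM V F) :=
  density_global hm hW hF q y hq hy hε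

/-- conformal density at one point of the image -/
theorem limit_one [IsManifold 𝓘(ℝ, V) ∞ M] [CompactSpace M] [T2Space M]
    (hm : 0 < Module.finrank ℝ V) (hW : Module.finrank ℝ W = Module.finrank ℝ V + 2)
    (hF : SphImm V F) (z : M) {ε : ℝ} (hε : 0 < ε) :
    ∀ᶠ φ in 𝓝[<] (π / 2), sphereVol (Module.finrank ℝ V) - ε ≤
        V1 (volM V F) (Module.finrank ℝ V) F z φ := by
  have h := limit_card hm hW hF {z} (F z) (by simp) (hF.unit z) hε
  simpa [V1] using h

/-- conformal density at a double point of the image -/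
theorem limit_two [IsManifold 𝓘(ℝ, V) ∞ M] [CompactSpace M] [T2Space M]
    (hm : 0 < Module.finrank ℝ V) (hW : Module.finrank ℝ W = Module.finrank ℝ V + 2)
    (hF : SphImm V F) {z z' : M} (hne : z' ≠ z) (hz : F z' = F z) {ε : ℝ} (hε : 0 < ε) :
    ∀ᶠ φ in 𝓝[<] (π / 2), 2 * sphereVol (Module.finrank ℝ V) - ε ≤
        V1 (volM V F) (Module.finrank ℝ V) F z φ := by
  classical
  have h := limit_card hm hW hF {z', z} (F z) (by simp [hz]) (hF.unit z) hε
  rw [Finset.card_pair hne] at h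
  simpa [V1] using h

end L1

section L2

variable {X : Type*} [TopologicalSpace X] [CompactSpace X] [MeasurableSpace X]
  {E : Type*} [NormedAddCommGroup E] [InnerProductSpace ℝ E] [MeasurableSpace E] [BorelSpace E]
  [SecondCountableTopology E]

lemma close_normals {p n : X → E} (hp : Continuous p) (hn : Continuous n)
    (hinj : Function.Injective p) (np : ∀ x, ‖p x‖ = 1) (nn : ∀ x, ‖n x‖ = 1) {η : ℝ}
    (hη : 0 < η) : ∃ δ, 0 < δ ∧ ∀ x y, 1 - δ < ⟪p x, p y⟫ → 1 - ⟪n x, n y⟫ < η := by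
  set K : Set (X × X) := {q | η ≤ 1 - ⟪n q.1, n q.2⟫} with hK
  have hKc : IsCompact K := by
    apply IsClosed.isCompact
    apply isClosed_le continuous_const
    exact continuous_const.sub ((hn.comp continuous_fst).inner (hn.comp continuous_snd))
  rcases K.eq_empty_or_nonempty with hE | hne
  · refine ⟨1, one_pos, fun x y _ => ?_⟩
    by_contra hcon
    have : (x, y) ∈ K := not_lt.mp hcon
    rw [hE] at this
    exact this
  · obtain ⟨q, hq, hmax⟩ := hKc.exists_isMaxOn hne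
      ((hp.comp continuous_fst).inner (𝕜 := ℝ) (hp.comp continuous_snd)).continuousOn
    have hlt : ⟪p q.1, p q.2⟫ < 1 := by
      rcases (real_inner_le_norm (p q.1) (p q.2)).lt_or_eq with h | h
      · rwa [np, np, mul_one] at h
      · exfalso
        rw [np, np, mul_one] at h
        have h1 : p q.1 = p q.2 := (inner_eq_one_iff_of_norm_eq_one (np _) (np _)).mp h
        have h2 := hinj h1
        have h3 : η ≤ 1 - ⟪n q.1, n q.2⟫ := hq
        rw [h2, real_inner_self_eq_norm_sq, nn] at h3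
        linarith
    refine ⟨1 - ⟪p q.1, p q.2⟫, by linarith, fun x y hxy => ?_⟩
    by_contra hcon
    have h4 : (x, y) ∈ K := not_lt.mp hcon
    have h5 := hmax h4
    simp only [Set.mem_ofPred_eq] at h5
    have h6 : ⟪p x, p y⟫ ≤ ⟪p q.1, p q.2⟫ := h5
    linarith

lemma tendsto_cf {s : ℝ} (hs : s < 1) : Tendsto (fun φ => cf φ s) (𝓝[<] (π / 2)) (𝓝 0) := by
  have h : ContinuousAt (fun φ => cf φ s) (π / 2) := by
    unfold cf
    apply ContinuousAt.div (by fun_prop) (by fun_prop)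
    rw [sin_pi_div_two]
    linarith
  have h2 := h.tendsto.mono_left (nhdsWithin_le_nhds (s := Iio (π / 2)))
  have h3 : cf (π / 2) s = 0 := by simp [cf]
  rwa [h3] at h2

theorem limit_JB {μ : Measure X} [IsFiniteMeasure μ] {m : ℕ} (hm : 0 < m) {p n : X → E}
    (hp : Continuous p) (hn : Continuous n) (hpm : Measurable p) (hnm : Measurable n)
    (hinj : Function.Injective p) (np : ∀ x, ‖p x‖ = 1) (nn : ∀ x, ‖n x‖ = 1) {C : ℝ}
    (hJ : ∀ φ ∈ Ico 0 (π / 2), JJ μ m p φ ≤ C) {ε : ℝ} (hε : 0 < ε) :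
    ∀ᶠ φ in 𝓝[<] (π / 2), |JJ μ m p φ - BB μ m p n φ| ≤ ε := by
  set C' : ℝ := max C 0 + 1 with hC'
  have hC'0 : 0 < C' := by have := le_max_right C 0; linarith
  obtain ⟨δ, hδ, hclose⟩ := close_normals hp hn hinj np nn (η := ε / (2 * C')) (by positivity)
  set A : ℝ := (μ.prod μ).real univ with hA
  have hA0 : 0 ≤ A := measureReal_nonneg
  -- the kernel is small away from the diagonal
  have hsmall : ∀ᶠ φ in 𝓝[<] (π / 2), cf φ (1 - δ) ^ m < ε / (4 * (A + 1)) := by
    have h1 := (tendsto_cf (s := 1 - δ) (by linarith)).pow m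
    rw [zero_pow hm.ne'] at h1
    exact h1.eventually_lt_const (by positivity)
  have h0 : ∀ᶠ φ in 𝓝[<] (π / 2), φ ∈ Ioo 0 (π / 2) := Ioo_mem_nhdsLT (by positivity)
  filter_upwards [hsmall, h0] with φ hφ hφ0
  have hφI : φ ∈ Ioo (-(π / 2)) (π / 2) := ⟨by linarith [hφ0.1, pi_pos], hφ0.2⟩
  have hcos := cos_pos_of_mem_Ioo hφI
  have hsin0 : 0 < sin φ := sin_pos_of_pos_of_lt_pi hφ0.1 (by linarith [hφ0.2, pi_pos])
  have hab : ∀ x y, |⟪p x, p y⟫| ≤ 1 := by
    intro x y
    have := abs_real_inner_le_norm (p x) (p y)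
    rwa [np, np, mul_one] at this
  have habn : ∀ x y, |⟪n x, n y⟫| ≤ 1 := by
    intro x y
    have := abs_real_inner_le_norm (n x) (n y)
    rwa [nn, nn, mul_one] at this
  have mp1 : Measurable (fun q : X × X => p q.1) := hpm.comp measurable_fst
  have mp2 : Measurable (fun q : X × X => p q.2) := hpm.comp measurable_snd
  have mn1 : Measurable (fun q : X × X => n q.1) := hnm.comp measurable_fst
  have mn2 : Measurable (fun q : X × X => n q.2) := hnm.comp measurable_snd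
  have hs : Measurable (fun q : X × X => ⟪p q.1, p q.2⟫) := mp1.inner mp2
  have hρ : Measurable (fun q : X × X => ⟪n q.1, n q.2⟫) := mn1.inner mn2
  have hkm : Measurable (fun q : X × X => cf φ ⟪p q.1, p q.2⟫ ^ m) := by
    unfold cf
    fun_prop
  have hcf1 : ∀ q : X × X, cf φ ⟪p q.1, p q.2⟫ ≤ 1 / (1 - |sin φ|) := by
    intro q
    unfold cf
    have h2 := den_ge (φ := φ) (hab q.1 q.2)
    have h3 : 0 < 1 - |sin φ| := by have := abs_sin_lt_one hφI; linarith
    gcongr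
    exact cos_le_one φ
  have ik : Integrable (fun q : X × X => cf φ ⟪p q.1, p q.2⟫ ^ m) (μ.prod μ) := by
    refine Integrable.of_bound hkm.aestronglyMeasurable ((1 / (1 - |sin φ|)) ^ m) ?_
    filter_upwards with q
    rw [Real.norm_eq_abs, abs_of_nonneg (pow_nonneg (cf_pos hφI (hab _ _)).le m)]
    exact pow_le_pow_left₀ (cf_pos hφI (hab _ _)).le (hcf1 q) m
  have ib : Integrable (fun q : X × X => ⟪n q.1, n q.2⟫ * cf φ ⟪p q.1, p q.2⟫ ^ m)
      (μ.prod μ) := by
    refine ik.mono (hρ.mul hkm).aestronglyMeasurable ?_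
    filter_upwards with q
    rw [norm_mul]
    calc ‖(⟪n q.1, n q.2⟫ : ℝ)‖ * ‖cf φ ⟪p q.1, p q.2⟫ ^ m‖
        ≤ 1 * ‖cf φ ⟪p q.1, p q.2⟫ ^ m‖ := by
          gcongr
          exact habn _ _
      _ = _ := one_mul _
  have hdiff : JJ μ m p φ - BB μ m p n φ =
      ∫ q, (1 - ⟪n q.1, n q.2⟫) * cf φ ⟪p q.1, p q.2⟫ ^ m ∂(μ.prod μ) := by
    unfold JJ BB
    rw [← integral_sub ik ib]
    refine integral_congr_ae ?_
    filter_upwards with q
    ring
  have hnn : 0 ≤ JJ μ m p φ - BB μ m p n φ := by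
    rw [hdiff]
    refine integral_nonneg fun q => ?_
    have h1 := (abs_le.mp (habn q.1 q.2)).2
    exact mul_nonneg (by simpa using h1) (pow_nonneg (cf_pos hφI (hab _ _)).le m)
  rw [abs_of_nonneg hnn, hdiff]
  have hpt : ∀ q : X × X, (1 - ⟪n q.1, n q.2⟫) * cf φ ⟪p q.1, p q.2⟫ ^ m ≤
      ε / (2 * C') * cf φ ⟪p q.1, p q.2⟫ ^ m + 2 * (ε / (4 * (A + 1))) := by
    intro q
    have hk0 : 0 ≤ cf φ ⟪p q.1, p q.2⟫ ^ m := pow_nonneg (cf_pos hφI (hab _ _)).le m
    by_cases hq : 1 - δ < ⟪p q.1, p q.2⟫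
    · have h1 := hclose q.1 q.2 hq
      have h2 : (1 - ⟪n q.1, n q.2⟫) * cf φ ⟪p q.1, p q.2⟫ ^ m ≤
          ε / (2 * C') * cf φ ⟪p q.1, p q.2⟫ ^ m := mul_le_mul_of_nonneg_right h1.le hk0
      have h3 : 0 ≤ 2 * (ε / (4 * (A + 1))) := by positivity
      linarith
    · have hq' : ⟪p q.1, p q.2⟫ ≤ 1 - δ := not_lt.mp hq
      have h1 : cf φ ⟪p q.1, p q.2⟫ ≤ cf φ (1 - δ) := by
        unfold cf
        have hs1 := abs_sin_lt_one hφI
        rw [abs_of_pos hsin0] at hs1
        have h2 : 0 < 1 - (1 - δ) * sin φ := by nlinarith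
        have h3 : 1 - (1 - δ) * sin φ ≤ 1 - ⟪p q.1, p q.2⟫ * sin φ := by
          have := mul_le_mul_of_nonneg_right hq' hsin0.le
          linarith
        exact div_le_div_of_nonneg_left hcos.le h2 h3
      have h4 : cf φ ⟪p q.1, p q.2⟫ ^ m ≤ ε / (4 * (A + 1)) :=
        (pow_le_pow_left₀ (cf_pos hφI (hab _ _)).le h1 m).trans hφ.le
      have h5 : 1 - ⟪n q.1, n q.2⟫ ≤ 2 := by
        have := (abs_le.mp (habn q.1 q.2)).1
        linarith
      have h6 : 0 ≤ ε / (2 * C') * cf φ ⟪p q.1, p q.2⟫ ^ m := by positivity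
      calc (1 - ⟪n q.1, n q.2⟫) * cf φ ⟪p q.1, p q.2⟫ ^ m
          ≤ 2 * (ε / (4 * (A + 1))) := mul_le_mul h5 h4 hk0 (by norm_num)
        _ ≤ _ := by linarith
  have hint1 : Integrable (fun q : X × X => (1 - ⟪n q.1, n q.2⟫) * cf φ ⟪p q.1, p q.2⟫ ^ m)
      (μ.prod μ) := by
    refine (ik.sub ib).congr ?_
    filter_upwards with q
    simp only [Pi.sub_apply]
    ring
  calc ∫ q, (1 - ⟪n q.1, n q.2⟫) * cf φ ⟪p q.1, p q.2⟫ ^ m ∂(μ.prod μ)
      ≤ ∫ q, (ε / (2 * C') * cf φ ⟪p q.1, p q.2⟫ ^ m + 2 * (ε / (4 * (A + 1)))) ∂(μ.prod μ) :=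
        integral_mono hint1 ((ik.const_mul _).add (integrable_const _)) hpt
    _ = ε / (2 * C') * JJ μ m p φ + A * (2 * (ε / (4 * (A + 1)))) := by
        rw [integral_add (ik.const_mul _) (integrable_const _), integral_const_mul,
          integral_const, smul_eq_mul]
        rfl
    _ ≤ ε / (2 * C') * C' + (A + 1) * (2 * (ε / (4 * (A + 1)))) := by
        have h1 := hJ φ ⟨hφ0.1.le, hφ0.2⟩
        have h2 : JJ μ m p φ ≤ C' := by have := le_max_left C 0; linarith
        gcongr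
        linarith
    _ = ε := by
        field_simp
        ring

end L2

end Vale.Agent.P224.FV
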