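import Vale.Agent.P224.FV.Kernel
import Vale.Agent.P224.FV.Limits

namespace Vale.Agent.P224.FV

open MeasureTheory Set Real Filter
open scoped RealInnerProductSpace Topology ContDiff Manifold

set_option linter.unusedSectionVars false

section

variable {V W M : Type*} [NormedAddCommGroup V] [InnerProductSpace ℝ V] [FiniteDimensional ℝ V]
  [NormedAddCommGroup W] [InnerProductSpace ℝ W] [FiniteDimensional ℝ W]
  [TopologicalSpace M] [ChartedSpace V M]
  [MeasurableSpace V] [BorelSpace V] [MeasurableSpace M] [BorelSpace M]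

lemma abs_FF_le {F : M → W} (hF : SphImm V F) (x z : M) : |⟪F x, F z⟫| ≤ 1 := by
  have := abs_real_inner_le_norm (F x) (F z)
  rwa [hF.unit, hF.unit, mul_one] at this

lemma cont_DD {F : M → W} (hF : SphImm V F) (z : M) (k : ℕ) {φ : ℝ}
    (hφ : φ ∈ Ioo (-(π / 2)) (π / 2)) : Continuous (fun x => DD k φ ⟪F x, F z⟫) := by
  unfold DD
  have hcF : Continuous F := hF.smooth.continuous
  refine Continuous.inv₀ ?_ fun x => pow_ne_zero k (den_pos hφ (abs_FF_le hF x z)).ne'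
  exact (continuous_const.sub ((hcF.inner continuous_const).mul continuous_const)).pow k

/-- the two point structure of a minimal immersion with normal field -/
theorem twoPt_of_min [MeasurableSpace W] [BorelSpace W] [IsManifold 𝓘(ℝ, V) ∞ M] [CompactSpace M]
    [T2Space M] (hm : 1 ≤ Module.finrank ℝ V)
    (hW : Module.finrank ℝ W = Module.finrank ℝ V + 2) {F : M → W}
    (hF : SphImm V F) (hmin : ∀ x n, IsUnitNormal V F x n → meanCurv V F x n = 0)
    {N : M → W} (hNs : ContMDiff 𝓘(ℝ, V) 𝓘(ℝ, W) ∞ N) (hN : ∀ x, IsUnitNormal V F x (N x)) :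
    TwoPt (volM V F) (Module.finrank ℝ V) F N := by
  have hV : VolChart V F := volChart_of_sphImm hF
  have hfin : IsFiniteMeasure (volM V F) := isFiniteMeasure_volM hF
  have hcF : Continuous F := hF.smooth.continuous
  have hcN : Continuous N := hNs.continuous
  set m := Module.finrank ℝ V with hmdef
  have hm0 : (m : ℝ) ≠ 0 := by
    have : (1 : ℝ) ≤ m := by exact_mod_cast hm
    positivity
  refine ⟨⟨hcF.measurable, hcN.measurable, hF.unit, fun x => (hN x).1⟩, ?_, ?_⟩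
  · intro z φ hφ
    have hd : ∀ x, 1 - ⟪F x, F z⟫ * sin φ ≠ 0 := fun x => (den_pos hφ (abs_FF_le hF x z)).ne'
    have key := ident1 hW hF hmin hV hN (hF.unit z) (w := DD m φ)
      (fun x => contDiffAt_DD (hd x))
    simp only [(hasDerivAt_DD (hd _)).deriv] at key
    have cs : Continuous (fun x => ⟪F x, F z⟫) := hcF.inner continuous_const
    have ct : Continuous (fun x => ⟪N x, F z⟫) := hcN.inner continuous_const
    have cD : Continuous (fun x => DD (m + 1) φ ⟪F x, F z⟫) := cont_DD hF z (m + 1) hφ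
    have i1 : Integrable (fun x => ⟪F x, F z⟫ * DD m φ ⟪F x, F z⟫) (volM V F) :=
      integrable_of_cont _ (cs.mul (cont_DD hF z m hφ))
    have i2 : Integrable (fun x => DD (m + 1) φ ⟪F x, F z⟫ * (1 - ⟪F x, F z⟫ ^ 2))
        (volM V F) := integrable_of_cont _ (cD.mul (continuous_const.sub (cs.pow 2)))
    have i3 : Integrable (fun x => ⟪N x, F z⟫ ^ 2 * DD (m + 1) φ ⟪F x, F z⟫) (volM V F) :=
      integrable_of_cont _ ((ct.pow 2).mul cD)
    have e1 : ∫ x, (m : ℝ) * sin φ * DD (m + 1) φ ⟪F x, F z⟫ *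
        (1 - ⟪F x, F z⟫ ^ 2 - ⟪N x, F z⟫ ^ 2) ∂(volM V F)
        = m * (sin φ * ∫ x, DD (m + 1) φ ⟪F x, F z⟫ * (1 - ⟪F x, F z⟫ ^ 2) ∂(volM V F)
          - sin φ * ∫ x, ⟪N x, F z⟫ ^ 2 * DD (m + 1) φ ⟪F x, F z⟫ ∂(volM V F)) := by
      rw [← mul_sub, ← integral_sub i2 i3, ← integral_const_mul, ← integral_const_mul]
      refine integral_congr_ae ?_
      filter_upwards with x
      ring
    rw [e1] at key
    have key2 := mul_left_cancel₀ hm0 key
    have e2 : ∫ x, (⟪F x, F z⟫ - sin φ) / (1 - ⟪F x, F z⟫ * sin φ) ^ (m + 1) ∂(volM V F)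
        = ∫ x, ⟪F x, F z⟫ * DD m φ ⟪F x, F z⟫ ∂(volM V F)
          - sin φ * ∫ x, DD (m + 1) φ ⟪F x, F z⟫ * (1 - ⟪F x, F z⟫ ^ 2) ∂(volM V F) := by
      rw [← integral_const_mul, ← integral_sub i1 (i2.const_mul _)]
      refine integral_congr_ae ?_
      filter_upwards with x
      rw [DD_succ (k := m) (hd x)]
      unfold DD
      ring
    have e3 : ∫ x, ⟪N x, F z⟫ ^ 2 / (1 - ⟪F x, F z⟫ * sin φ) ^ (m + 1) ∂(volM V F)
        = ∫ x, ⟪N x, F z⟫ ^ 2 * DD (m + 1) φ ⟪F x, F z⟫ ∂(volM V F) := rfl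
    rw [e2, e3]
    linarith
  · intro z φ hφ
    have hd : ∀ x, 1 - ⟪F x, F z⟫ * sin φ ≠ 0 := fun x => (den_pos hφ (abs_FF_le hF x z)).ne'
    have key := ident2 hW hF hmin hV hNs hN (hF.unit z) (hN z).2.1 (w := DD m φ)
      (fun x => contDiffAt_DD (hd x))
    simp only [(hasDerivAt_DD (hd _)).deriv] at key
    have cs : Continuous (fun x => ⟪F x, F z⟫) := hcF.inner continuous_const
    have ct : Continuous (fun x => ⟪N x, F z⟫) := hcN.inner continuous_const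
    have cf' : Continuous (fun x => ⟪N x, N z⟫) := hcN.inner continuous_const
    have ch : Continuous (fun x => ⟪F x, N z⟫) := hcF.inner continuous_const
    have cD : Continuous (fun x => DD (m + 1) φ ⟪F x, F z⟫) := cont_DD hF z (m + 1) hφ
    have i1 : Integrable (fun x => DD (m + 1) φ ⟪F x, F z⟫ *
        (⟪N x, N z⟫ * (1 - ⟪F x, F z⟫ ^ 2) + ⟪N x, F z⟫ * ⟪F x, N z⟫ * ⟪F x, F z⟫))
        (volM V F) := integrable_of_cont _ (cD.mul ((cf'.mul (continuous_const.sub (cs.pow 2))).add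
          ((ct.mul ch).mul cs)))
    have i2 : Integrable (fun x => (⟪F x, F z⟫ * ⟪N x, N z⟫ - ⟪N x, F z⟫ * ⟪F x, N z⟫) *
        DD m φ ⟪F x, F z⟫) (volM V F) :=
      integrable_of_cont _ (((cs.mul cf').sub (ct.mul ch)).mul (cont_DD hF z m hφ))
    have e1 : ∫ x, (m : ℝ) * sin φ * DD (m + 1) φ ⟪F x, F z⟫ *
        (⟪N x, N z⟫ * (1 - ⟪F x, F z⟫ ^ 2) + ⟪N x, F z⟫ * ⟪F x, N z⟫ * ⟪F x, F z⟫) ∂(volM V F)
        = m * (sin φ * ∫ x, DD (m + 1) φ ⟪F x, F z⟫ *
        (⟪N x, N z⟫ * (1 - ⟪F x, F z⟫ ^ 2) + ⟪N x, F z⟫ * ⟪F x, N z⟫ * ⟪F x, F z⟫)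
          ∂(volM V F)) := by
      rw [← integral_const_mul, ← integral_const_mul]
      refine integral_congr_ae ?_
      filter_upwards with x
      ring
    rw [e1] at key
    have key2 := mul_left_cancel₀ hm0 key
    have e2 : ∫ x, ⟪N x, N z⟫ * ((⟪F x, F z⟫ - sin φ) /
        (1 - ⟪F x, F z⟫ * sin φ) ^ (m + 1)) ∂(volM V F)
        - ∫ x, ⟪N x, F z⟫ * ⟪F x, N z⟫ / (1 - ⟪F x, F z⟫ * sin φ) ^ (m + 1) ∂(volM V F)
        = ∫ x, (⟪F x, F z⟫ * ⟪N x, N z⟫ - ⟪N x, F z⟫ * ⟪F x, N z⟫) *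
        DD m φ ⟪F x, F z⟫ ∂(volM V F)
          - sin φ * ∫ x, DD (m + 1) φ ⟪F x, F z⟫ *
        (⟪N x, N z⟫ * (1 - ⟪F x, F z⟫ ^ 2) + ⟪N x, F z⟫ * ⟪F x, N z⟫ * ⟪F x, F z⟫)
          ∂(volM V F) := by
      have i3 : Integrable (fun x => ⟪N x, N z⟫ * ((⟪F x, F z⟫ - sin φ) /
        (1 - ⟪F x, F z⟫ * sin φ) ^ (m + 1))) (volM V F) :=
        integrable_of_cont _ (cf'.mul ((cs.sub continuous_const).mul cD))
      have i4 : Integrable (fun x => ⟪N x, F z⟫ * ⟪F x, N z⟫ /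
        (1 - ⟪F x, F z⟫ * sin φ) ^ (m + 1)) (volM V F) :=
        integrable_of_cont _ ((ct.mul ch).mul cD)
      rw [← integral_const_mul, ← integral_sub i2 (i1.const_mul _), ← integral_sub i3 i4]
      refine integral_congr_ae ?_
      filter_upwards with x
      rw [DD_succ (k := m) (hd x)]
      unfold DD
      ring
    linarith

/-- the conformal volume is at least the volume of the unit sphere -/
theorem V1_ge [MeasurableSpace W] [BorelSpace W] [IsManifold 𝓘(ℝ, V) ∞ M] [CompactSpace M]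
    [T2Space M] (hm : 1 ≤ Module.finrank ℝ V) {F : M → W}
    (hF : SphImm V F) {N : M → W} (hT : TwoPt (volM V F) (Module.finrank ℝ V) F N)
    (z : M) {c : ℝ}
    (hc : ∀ ε > 0, ∀ᶠ φ in 𝓝[<] (π / 2), c - ε ≤ V1 (volM V F) (Module.finrank ℝ V) F z φ)
    {φ : ℝ} (hφ : φ ∈ Ico 0 (π / 2)) :
    c ≤ V1 (volM V F) (Module.finrank ℝ V) F z φ := by
  have hfin : IsFiniteMeasure (volM V F) := isFiniteMeasure_volM hF
  have hpi := pi_pos
  have hanti : AntitoneOn (V1 (volM V F) (Module.finrank ℝ V) F z) (Ico 0 (π / 2)) := by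
    have hder : ∀ ψ ∈ Ico 0 (π / 2), HasDerivAt (V1 (volM V F) (Module.finrank ℝ V) F z) _ ψ :=
      fun ψ hψ => hT.hasDerivAt_V1 z ⟨by linarith [hψ.1], hψ.2⟩
    refine antitoneOn_of_deriv_nonpos (convex_Ico 0 (π / 2)) ?_ ?_ ?_
    · exact fun ψ hψ => (hder ψ hψ).continuousAt.continuousWithinAt
    · intro ψ hψ
      rw [interior_Ico] at hψ
      exact (hder ψ ⟨hψ.1.le, hψ.2⟩).differentiableAt.differentiableWithinAt
    · intro ψ hψ
      rw [interior_Ico] at hψ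
      rw [(hder ψ ⟨hψ.1.le, hψ.2⟩).deriv]
      have h1 : 0 ≤ sin ψ := sin_nonneg_of_nonneg_of_le_pi hψ.1.le (by linarith [hψ.2])
      have h2 : 0 ≤ cos ψ := cos_nonneg_of_neg_pi_div_two_le_of_le (by linarith [hψ.1]) hψ.2.le
      have h3 : 0 ≤ ∫ x, ⟪N x, F z⟫ ^ 2 /
          (1 - ⟪F x, F z⟫ * sin ψ) ^ (Module.finrank ℝ V + 1) ∂(volM V F) := by
        apply integral_nonneg
        intro x
        have := den_pos (φ := ψ) ⟨by linarith [hψ.1], hψ.2⟩ (abs_FF_le hF x z)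
        positivity
      have : 0 ≤ sin ψ * ((Module.finrank ℝ V : ℝ) * cos ψ ^ (Module.finrank ℝ V - 1) *
          ∫ x, ⟪N x, F z⟫ ^ 2 /
          (1 - ⟪F x, F z⟫ * sin ψ) ^ (Module.finrank ℝ V + 1) ∂(volM V F)) := by positivity
      linarith
  refine le_of_forall_pos_le_add fun ε hε => ?_
  have h1 : ∀ᶠ ψ in 𝓝[<] (π / 2), ψ ∈ Ioo φ (π / 2) := Ioo_mem_nhdsLT hφ.2
  obtain ⟨ψ, hψ1, hψ2⟩ := ((hc ε hε).and h1).exists
  have h2 := hanti hφ ⟨by linarith [hφ.1, hψ2.1], hψ2.2⟩ hψ2.1.le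
  linarith

end

end Vale.Agent.P224.FV
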