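import Vale.Agent.P224.FV.Bounds

/-!
A lower bound for the two point conformal volume and the resulting bound for balanced data.
-/

namespace Vale.Agent.P224.FV

open Real Set Filter MeasureTheory
open scoped Topology RealInnerProductSpace

set_option linter.unusedSectionVars false

/-- the one dimensional argument with a lower bound for J -/
theorem one_dim2 {J B a b f P q : ℝ → ℝ} {L φ₁ : ℝ}
    (hJ : ∀ φ ∈ Ioo (-(π / 2)) (π / 2), HasDerivAt J (-(sin φ * a φ)) φ)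
    (hB : ∀ φ ∈ Ioo (-(π / 2)) (π / 2), HasDerivAt B (b φ) φ)
    (hab : ∀ φ ∈ Ioo (-(π / 2)) (π / 2), |b φ| ≤ a φ)
    (h1 : φ₁ ∈ Ioo 0 (π / 2))
    (hf0 : f 0 = 1) (hP0 : P 0 = 0) (hf : ∀ φ, HasDerivAt f (-(sin φ * q φ)) φ)
    (hP : ∀ φ, HasDerivAt P (q φ) φ)
    (hlow : ∀ φ ∈ Ioc 0 φ₁, J 0 * f φ ≤ J φ)
    (hL : ∀ ε > 0, ∀ᶠ φ in 𝓝[<] (π / 2), L - ε ≤ J φ)
    (hJB : ∀ ε > 0, ∀ᶠ φ in 𝓝[<] (π / 2), |J φ - B φ| ≤ ε) :
    (1 + sin φ₁) * L ≤ (P φ₁ * sin φ₁ + f φ₁) * J 0 + sin φ₁ * B 0 := by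
  have hpi := pi_pos
  have hsub : ∀ φ, φ ∈ Icc 0 φ₁ → φ ∈ Ioo (-(π / 2)) (π / 2) := fun φ hφ =>
    ⟨by have := hφ.1; linarith, by have := hφ.2; have := h1.2; linarith⟩
  have hsub2 : ∀ φ, φ ∈ Ico φ₁ (π / 2) → φ ∈ Ioo (-(π / 2)) (π / 2) := fun φ hφ =>
    ⟨by have := hφ.1; have := h1.1; linarith, hφ.2⟩
  have hS0 : 0 < sin φ₁ := sin_pos_of_pos_of_lt_pi h1.1 (by have := h1.2; linarith)
  have hS1 : sin φ₁ ≤ 1 := sin_le_one _
  have h00 : (0 : ℝ) ∈ Ioo (-(π / 2)) (π / 2) := ⟨by linarith, by linarith⟩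
  -- first interval
  set H : ℝ → ℝ := fun φ => B φ - J 0 * P φ + (J φ - J 0 * f φ) / sin φ with hH
  have hHd : ∀ φ ∈ Ioc 0 φ₁, ∃ D, HasDerivAt H D φ ∧ D ≤ 0 := by
    intro φ hφ
    have hφ' := hsub φ ⟨hφ.1.le, hφ.2⟩
    have hs : 0 < sin φ := sin_pos_of_pos_of_lt_pi hφ.1 (by linarith [hφ'.2])
    have hc : 0 < cos φ := cos_pos_of_mem_Ioo hφ'
    have hd := ((hB φ hφ').fun_sub ((hP φ).const_mul (J 0))).fun_add
      (((hJ φ hφ').fun_sub ((hf φ).const_mul (J 0))).fun_div (hasDerivAt_sin φ) hs.ne')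
    refine ⟨_, hd, ?_⟩
    have hE := hlow φ hφ
    have hba : b φ ≤ a φ := (le_abs_self _).trans (hab φ hφ')
    have e : b φ - J 0 * q φ + ((-(sin φ * a φ) - J 0 * -(sin φ * q φ)) * sin φ
        - (J φ - J 0 * f φ) * cos φ) / sin φ ^ 2
        = b φ - a φ - (J φ - J 0 * f φ) * cos φ / sin φ ^ 2 := by
      field_simp
      ring
    rw [e]
    have : 0 ≤ (J φ - J 0 * f φ) * cos φ / sin φ ^ 2 := by
      have : 0 ≤ J φ - J 0 * f φ := by linarith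
      positivity
    linarith
  have hHanti : AntitoneOn H (Ioc 0 φ₁) := by
    apply antitoneOn_of_deriv_nonpos (convex_Ioc 0 φ₁)
    · intro φ hφ
      obtain ⟨D, hD, -⟩ := hHd φ hφ
      exact hD.continuousAt.continuousWithinAt
    · intro φ hφ
      rw [interior_Ioc] at hφ
      obtain ⟨D, hD, -⟩ := hHd φ ⟨hφ.1, hφ.2.le⟩
      exact hD.differentiableAt.differentiableWithinAt
    · intro φ hφ
      rw [interior_Ioc] at hφ
      obtain ⟨D, hD, hD0⟩ := hHd φ ⟨hφ.1, hφ.2.le⟩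
      rw [hD.deriv]; exact hD0
  have hHlim : Tendsto H (𝓝[>] 0) (𝓝 (B 0)) := by
    have t1 : Tendsto (fun φ => B φ - J 0 * P φ) (𝓝[>] 0) (𝓝 (B 0 - J 0 * P 0)) :=
      ((hB 0 h00).continuousAt.tendsto.sub
        ((hP 0).continuousAt.tendsto.const_mul (J 0))).mono_left nhdsWithin_le_nhds
    have d1 : HasDerivAt (fun φ => J φ - J 0 * f φ) 0 0 := by
      refine ((hJ 0 h00).fun_sub ((hf 0).const_mul (J 0))).congr_deriv ?_
      simp
    have d2 : HasDerivAt sin 1 0 := by simpa using hasDerivAt_sin 0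
    have s1 := (hasDerivAt_iff_tendsto_slope.mp d1).mono_left
      (nhdsWithin_mono 0 (fun x (hx : x ∈ Ioi (0 : ℝ)) => (ne_of_gt hx : x ∈ ({0} : Set ℝ)ᶜ)))
    have s2 := (hasDerivAt_iff_tendsto_slope.mp d2).mono_left
      (nhdsWithin_mono 0 (fun x (hx : x ∈ Ioi (0 : ℝ)) => (ne_of_gt hx : x ∈ ({0} : Set ℝ)ᶜ)))
    have s3 := s1.div s2 one_ne_zero
    have s4 : Tendsto (fun φ => (J φ - J 0 * f φ) / sin φ) (𝓝[>] 0) (𝓝 (0 / 1)) := by
      refine s3.congr' ?_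
      filter_upwards [self_mem_nhdsWithin] with φ hφ
      have hφ0 : (φ : ℝ) ≠ 0 := ne_of_gt hφ
      simp only [Pi.div_apply, slope, hf0, sin_zero, sub_zero, mul_one, sub_self, vsub_eq_sub,
        smul_eq_mul]
      field_simp
    have := t1.add s4
    simpa [hP0] using this
  have hH1 : H φ₁ ≤ B 0 := by
    apply ge_of_tendsto hHlim
    filter_upwards [Ioo_mem_nhdsGT h1.1] with φ hφ
    exact hHanti ⟨hφ.1, hφ.2.le⟩ (right_mem_Ioc.mpr h1.1) hφ.2.le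
  -- second interval
  have hG : AntitoneOn (fun φ => sin φ₁ * B φ + J φ) (Ico φ₁ (π / 2)) := by
    apply antitoneOn_of_deriv_nonpos (convex_Ico φ₁ (π / 2))
    · exact fun φ hφ => (((hB φ (hsub2 φ hφ)).continuousAt.const_mul _).add
        (hJ φ (hsub2 φ hφ)).continuousAt).continuousWithinAt
    · intro φ hφ
      rw [interior_Ico] at hφ
      have hφ' := hsub2 φ (Ioo_subset_Ico_self hφ)
      exact (((hB φ hφ').const_mul _).add (hJ φ hφ')).differentiableAt.differentiableWithinAt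
    · intro φ hφ
      rw [interior_Ico] at hφ
      have hφ' := hsub2 φ (Ioo_subset_Ico_self hφ)
      have hd := ((hB φ hφ').const_mul (sin φ₁)).fun_add (hJ φ hφ')
      rw [hd.deriv]
      have h3 : sin φ₁ ≤ sin φ := sin_le_sin_of_le_of_le_pi_div_two (by linarith [h1.1])
        hφ.2.le hφ.1.le
      have h4 : b φ ≤ a φ := (le_abs_self _).trans (hab φ hφ')
      have h5 : 0 ≤ a φ := (abs_nonneg _).trans (hab φ hφ')
      have h6 : sin φ₁ * b φ ≤ sin φ₁ * a φ := mul_le_mul_of_nonneg_left h4 hS0.le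
      have h7 : sin φ₁ * a φ ≤ sin φ * a φ := mul_le_mul_of_nonneg_right h3 h5
      linarith
  have hH2 : sin φ₁ * B φ₁ + J φ₁ ≤ (P φ₁ * sin φ₁ + f φ₁) * J 0 + sin φ₁ * B 0 := by
    have h2 := mul_le_mul_of_nonneg_left hH1 hS0.le
    simp only [hH] at h2
    have e : sin φ₁ * (B φ₁ - J 0 * P φ₁ + (J φ₁ - J 0 * f φ₁) / sin φ₁)
        = sin φ₁ * B φ₁ - J 0 * P φ₁ * sin φ₁ + (J φ₁ - J 0 * f φ₁) := by
      field_simp
    rw [e] at h2
    linarith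
  apply le_of_forall_pos_le_add
  intro ε hε
  have e1 := hL (ε / 3) (by positivity)
  have e2 := hJB (ε / 3) (by positivity)
  have e3 : ∀ᶠ φ in 𝓝[<] (π / 2), φ ∈ Ioo φ₁ (π / 2) := Ioo_mem_nhdsLT h1.2
  obtain ⟨φ, k1, k2, k3⟩ := (e1.and (e2.and e3)).exists
  have h5 := hG (left_mem_Ico.mpr h1.2) (Ioo_subset_Ico_self k3) k3.1.le
  simp only at h5
  have k4 : L - 2 * (ε / 3) ≤ B φ := by
    have := (abs_le.mp k2).2
    linarith
  have k5 : sin φ₁ * (L - 2 * (ε / 3)) ≤ sin φ₁ * B φ := mul_le_mul_of_nonneg_left k4 hS0.le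
  have k6 : sin φ₁ * (2 * (ε / 3)) ≤ 1 * (2 * (ε / 3)) :=
    mul_le_mul_of_nonneg_right hS1 (by positivity)
  linarith

section

variable {X : Type*} [MeasurableSpace X] {E : Type*} [NormedAddCommGroup E]
  [InnerProductSpace ℝ E] [FiniteDimensional ℝ E] [MeasurableSpace E] [BorelSpace E]
  {μ : Measure X} [IsFiniteMeasure μ] {m : ℕ} {p n : X → E}

/-- the lower bound for the two point conformal volume -/
theorem Pts.JJ_ge (h : Pts p n) (hm : 1 ≤ m) (hE : Module.finrank ℝ E = m + 2) {φ : ℝ}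
    (hφ : φ ∈ Ioo 0 (π / 2)) :
    μ.real univ ^ 2 * (cos φ * (1 + 1 / (m + 2) * sin φ ^ 2)) ≤ JJ μ m p φ := by
  have hpi := pi_pos
  rcases isEmpty_or_nonempty X with hX | ⟨⟨x₀⟩⟩
  · have : μ = 0 := Subsingleton.elim _ _
    subst this
    unfold JJ
    simp
  set α : ℝ := 1 / (m + 2) with hα
  have hα0 : 0 < α := by rw [hα]; positivity
  have hαm : α * (m + 2) = 1 := by rw [hα]; field_simp
  -- the constant field
  have h' : Pts p (fun _ => p x₀) := ⟨h.mp, measurable_const, h.np, fun _ => h.np x₀⟩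
  have hJB : ∀ ψ, BB μ m p (fun _ => p x₀) ψ = JJ μ m p ψ := by
    intro ψ
    unfold BB JJ
    simp only [real_inner_self_eq_norm_sq, h.np, one_pow, one_mul]
  have hsub : ∀ ψ ∈ Icc 0 φ, ψ ∈ Ioo (-(π / 2)) (π / 2) := fun ψ hψ =>
    ⟨by linarith [hψ.1], by linarith [hψ.2, hφ.2]⟩
  have hfp : ∀ ψ ∈ Icc 0 φ, 0 < cos ψ * (1 + α * sin ψ ^ 2) := fun ψ hψ =>
    mul_pos (cos_pos_of_mem_Ioo (hsub ψ hψ)) (by positivity)
  have hcmp := h'.cmp (μ := μ) hm (c := 0) hφ (by simp)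
    (by
      rw [sub_zero]
      exact mul_nonneg (by positivity) (h'.bb_nonneg 1))
    (fun j => h'.bb_rec0 hm hE j)
    (f := fun φ => cos φ * (1 + α * sin φ ^ 2))
    (f1 := fun φ => -sin φ * (1 + α * sin φ ^ 2) + cos φ * (α * (2 * sin φ * cos φ)))
    (f2 := fun φ => -cos φ * (1 + α * sin φ ^ 2) + -sin φ * (α * (2 * sin φ * cos φ))
      + (-sin φ * (α * (2 * sin φ * cos φ))
        + cos φ * (α * (2 * cos φ * cos φ + 2 * sin φ * -sin φ))))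
    (fun φ => ((Real.hasDerivAt_cos φ).fun_mul ((((Real.hasDerivAt_sin φ).fun_pow 2).const_mul
      α).const_add 1)).congr_deriv (by
        simp only [Nat.add_one_sub_one, pow_one]; push_cast; ring))
    (fun φ => (((Real.hasDerivAt_sin φ).fun_neg.fun_mul
      ((((Real.hasDerivAt_sin φ).fun_pow 2).const_mul α).const_add 1)).fun_add
      ((Real.hasDerivAt_cos φ).fun_mul ((((Real.hasDerivAt_sin φ).const_mul 2).fun_mul
        (Real.hasDerivAt_cos φ)).const_mul α))).congr_deriv (by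
        simp only [Nat.add_one_sub_one, pow_one]; push_cast; ring))
    (fun ψ hψ => hfp ψ ⟨hψ.1.le, hψ.2⟩)
    (by
      intro ψ hψ
      have hc := cos_pos_of_mem_Ioo (hsub ψ (Ioo_subset_Icc_self hψ))
      have e : cos ψ ^ 2 * sin ψ ^ 2 * (-cos ψ * (1 + α * sin ψ ^ 2)
          + -sin ψ * (α * (2 * sin ψ * cos ψ)) + (-sin ψ * (α * (2 * sin ψ * cos ψ))
            + cos ψ * (α * (2 * cos ψ * cos ψ + 2 * sin ψ * -sin ψ))))
          + cos ψ * sin ψ * (m + cos ψ ^ 2) * (-sin ψ * (1 + α * sin ψ ^ 2)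
            + cos ψ * (α * (2 * sin ψ * cos ψ)))
          + (m * sin ψ ^ 2 - 0 * cos ψ ^ 2) * (cos ψ * (1 + α * sin ψ ^ 2))
          = -(12 * α * (cos ψ ^ 3 * sin ψ ^ 4)) := by
        linear_combination (4 * α * cos ψ ^ 3 * sin ψ ^ 2) * sin_sq_add_cos_sq ψ
          + (2 * cos ψ ^ 3 * sin ψ ^ 2) * hαm
      rw [e]
      have : 0 ≤ 12 * α * (cos ψ ^ 3 * sin ψ ^ 4) := by positivity
      linarith)
  have hmono := hcmp.ratio
  have heq : ∀ ψ ∈ Icc 0 φ, cos ψ ^ m * ps (bb μ m p fun _ => p x₀) (sin ψ) = JJ μ m p ψ := by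
    intro ψ hψ
    rw [← h'.BB_eq hm (hsub ψ hψ), hJB]
  have hcont : ContinuousOn (fun ψ => cos ψ ^ m * ps (bb μ m p fun _ => p x₀) (sin ψ) /
      (cos ψ * (1 + α * sin ψ ^ 2))) (Icc 0 φ) :=
    (((continuous_cos.pow m).continuousOn).mul hcmp.T0c).div hcmp.fc fun ψ hψ => (hfp ψ hψ).ne'
  have h0 : μ.real univ ^ 2 = cos 0 ^ m * ps (bb μ m p fun _ => p x₀) (sin 0) /
      (cos 0 * (1 + α * sin 0 ^ 2)) := by
    rw [heq 0 (left_mem_Icc.mpr hφ.1.le), JJ_zero, cos_zero, sin_zero]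
    norm_num
  have hlim : Tendsto (fun ψ => cos ψ ^ m * ps (bb μ m p fun _ => p x₀) (sin ψ) /
      (cos ψ * (1 + α * sin ψ ^ 2))) (𝓝[>] 0) (𝓝 (μ.real univ ^ 2)) := by
    rw [h0]
    have h1 := (hcont 0 (left_mem_Icc.mpr hφ.1.le)).tendsto
    refine h1.mono_left ?_
    rw [nhdsWithin_le_iff]
    filter_upwards [Ioo_mem_nhdsGT hφ.1] with ψ hψ
    exact ⟨hψ.1.le, hψ.2.le⟩
  have key : μ.real univ ^ 2 ≤ JJ μ m p φ / (cos φ * (1 + α * sin φ ^ 2)) := by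
    apply le_of_tendsto hlim
    filter_upwards [Ioo_mem_nhdsGT hφ.1] with ψ hψ
    have := hmono ⟨hψ.1, hψ.2.le⟩ (right_mem_Ioc.mpr hφ.1) hψ.2.le
    simp only at this
    rwa [heq φ (right_mem_Icc.mpr hφ.1.le)] at this
  rwa [le_div_iff₀ (hfp φ (right_mem_Icc.mpr hφ.1.le))] at key

/-- the vanishing zeroth moment -/
theorem TwoPt.bound_low (h : TwoPt μ m p n) (hm : 1 ≤ m) (hE : Module.finrank ℝ E = m + 2)
    (h0 : RR μ p n 0 = 0) {φ₁ : ℝ} (hφ₁ : φ₁ ∈ Ioo 0 (π / 2)) {L : ℝ}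
    (hL : ∀ ε > 0, ∀ᶠ φ in 𝓝[<] (π / 2), L - ε ≤ JJ μ m p φ)
    (hJB : ∀ ε > 0, ∀ᶠ φ in 𝓝[<] (π / 2), |JJ μ m p φ - BB μ m p n φ| ≤ ε) :
    (1 + sin φ₁) * L ≤ (((1 - 1 / (m + 2) / 2) * φ₁ - 3 / 2 * (1 / (m + 2)) * (sin φ₁ * cos φ₁))
      * sin φ₁ + cos φ₁ * (1 + 1 / (m + 2) * sin φ₁ ^ 2)) * μ.real univ ^ 2 := by
  set α : ℝ := 1 / (m + 2) with hα
  obtain ⟨a, b, hab⟩ := h.main
  have key := one_dim2 (f := fun φ => cos φ * (1 + α * sin φ ^ 2))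
    (P := fun φ => (1 - α / 2) * φ - 3 / 2 * α * (sin φ * cos φ))
    (q := fun φ => 1 - 2 * α + 3 * α * sin φ ^ 2)
    (fun φ hφ => (hab φ hφ).1) (fun φ hφ => (hab φ hφ).2.1)
    (fun φ hφ => (hab φ hφ).2.2) hφ₁ (by simp) (by simp)
    (fun φ => ((Real.hasDerivAt_cos φ).fun_mul ((((Real.hasDerivAt_sin φ).fun_pow 2).const_mul
      α).const_add 1)).congr_deriv (by
        have hS : cos φ ^ 2 = 1 - sin φ ^ 2 := by have := sin_sq_add_cos_sq φ; linarith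
        simp only [Nat.add_one_sub_one, pow_one]
        push_cast
        linear_combination (2 * α * sin φ) * hS))
    (fun φ => (((hasDerivAt_id' φ).const_mul (1 - α / 2)).fun_sub
      (((Real.hasDerivAt_sin φ).fun_mul (Real.hasDerivAt_cos φ)).const_mul
        (3 / 2 * α))).congr_deriv (by
        have hS : cos φ ^ 2 = 1 - sin φ ^ 2 := by have := sin_sq_add_cos_sq φ; linarith
        linear_combination (-(3 / 2) * α) * hS))
    (by
      intro φ hφ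
      rw [JJ_zero]
      exact h.JJ_ge hm hE ⟨hφ.1, hφ.2.trans_lt hφ₁.2⟩) hL hJB
  have hB0 : BB μ m p n 0 = 0 := by
    have : BB μ m p n 0 = RR μ p n 0 := by
      rw [RR_eq]
      unfold BB cf
      simp
    rw [this, h0]
  rw [JJ_zero, hB0, mul_zero, add_zero] at key
  exact key

end

end Vale.Agent.P224.FV
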