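import Mathlib

namespace Vale.Agent.P224.FV

open Matrix

/-- determinant as a smooth function of the entries -/
lemma contDiff_detPi (m : ℕ) {n : WithTop ℕ∞} :
    ContDiff ℝ n (fun g : Fin m → Fin m → ℝ => (Matrix.of g).det) := by
  simp_rw [Matrix.det_apply']
  apply ContDiff.sum
  intro σ _
  apply ContDiff.mul contDiff_const
  apply contDiff_prod
  intro i _
  simp only [Matrix.of_apply]
  exact (contDiff_apply_apply (𝕜 := ℝ) (E := ℝ) (σ i) i)

lemma fderiv_detPi (m : ℕ) (g h : Fin m → Fin m → ℝ) (hg : (Matrix.of g).det ≠ 0) :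
    fderiv ℝ (fun g : Fin m → Fin m → ℝ => (Matrix.of g).det) g h
      = (Matrix.of g).det * ((Matrix.of g)⁻¹ * Matrix.of h).trace := by
  have hd : HasFDerivAt (fun g : Fin m → Fin m → ℝ => (Matrix.of g).det)
      (fderiv ℝ (fun g : Fin m → Fin m → ℝ => (Matrix.of g).det) g) g :=
    ((contDiff_detPi m (n := 1)).differentiable (by norm_num) g).hasFDerivAt
  have h1 : HasDerivAt (fun t : ℝ => (Matrix.of (g + t • h)).det)
      (fderiv ℝ (fun g : Fin m → Fin m → ℝ => (Matrix.of g).det) g h) 0 := by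
    have hl : HasDerivAt (fun t : ℝ => g + t • h) h 0 := by
      simpa using ((hasDerivAt_id (0 : ℝ)).smul_const h).const_add g
    have hd' : HasFDerivAt (fun g : Fin m → Fin m → ℝ => (Matrix.of g).det)
      (fderiv ℝ (fun g : Fin m → Fin m → ℝ => (Matrix.of g).det) g) (g + (0 : ℝ) • h) := by
      simpa using hd
    exact hd'.comp_hasDerivAt (0 : ℝ) hl
  set A : Matrix (Fin m) (Fin m) ℝ := (Matrix.of g)⁻¹ * Matrix.of h with hA
  obtain ⟨q, hq⟩ : ∃ q : Polynomial ℝ, ∀ t : ℝ, (1 + t • A).det = 1 + A.trace * t + q.eval t * t ^ 2 := by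
    exact ⟨_, fun t => Matrix.det_one_add_smul t A⟩
  have h2 : HasDerivAt (fun t : ℝ => (Matrix.of (g + t • h)).det)
      ((Matrix.of g).det * A.trace) 0 := by
    have heq : (fun t : ℝ => (Matrix.of (g + t • h)).det)
        = fun t => (Matrix.of g).det * (1 + A.trace * t + q.eval t * t ^ 2) := by
      funext t
      rw [← hq, ← Matrix.det_mul]
      congr 1
      rw [Matrix.mul_add, Matrix.mul_one, Matrix.mul_smul, hA, ← Matrix.mul_assoc,
        Matrix.mul_nonsing_inv _ (isUnit_iff_ne_zero.mpr hg), Matrix.one_mul]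
      rfl
    rw [heq]
    have : HasDerivAt (fun t : ℝ => 1 + A.trace * t + q.eval t * t ^ 2) A.trace 0 := by
      have e1 : HasDerivAt (fun t : ℝ => A.trace * t) A.trace 0 := by
        simpa using (hasDerivAt_id (0 : ℝ)).const_mul A.trace
      have e2 : HasDerivAt (fun t : ℝ => q.eval t * t ^ 2) 0 0 := by
        have e3 : HasDerivAt (fun t : ℝ => t ^ 2) 0 0 := by
          simpa using hasDerivAt_pow 2 (0 : ℝ)
        have := (q.hasDerivAt (0 : ℝ)).fun_mul e3
        simpa using this
      simpa using (e1.const_add 1).fun_add e2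
    exact this.const_mul _
  exact h1.unique h2

end Vale.Agent.P224.FV
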