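import Mathlib

namespace Vale.Agent.P224.FV

open MeasureTheory Set Real
open scoped Topology RealInnerProductSpace

/-- the conformal factor -/
noncomputable def cf (φ s : ℝ) : ℝ := cos φ / (1 - s * sin φ)

lemma abs_sin_lt_one {φ : ℝ} (hφ : φ ∈ Ioo (-(π / 2)) (π / 2)) : |sin φ| < 1 := by
  have hc := cos_pos_of_mem_Ioo hφ
  have := sin_sq_add_cos_sq φ
  rw [← sq_lt_one_iff_abs_lt_one]
  nlinarith

lemma den_pos {φ s : ℝ} (hφ : φ ∈ Ioo (-(π / 2)) (π / 2)) (hs : |s| ≤ 1) :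
    0 < 1 - s * sin φ := by
  have h1 := abs_sin_lt_one hφ
  have h2 : |s * sin φ| < 1 := by
    rw [abs_mul]
    calc |s| * |sin φ| ≤ 1 * |sin φ| := by gcongr
      _ < 1 := by linarith
  have := (abs_lt.mp h2).2
  linarith

lemma den_ge {φ s : ℝ} (hs : |s| ≤ 1) : 1 - |sin φ| ≤ 1 - s * sin φ := by
  have : s * sin φ ≤ |sin φ| := by
    calc s * sin φ ≤ |s * sin φ| := le_abs_self _
      _ = |s| * |sin φ| := abs_mul _ _
      _ ≤ 1 * |sin φ| := by gcongr
      _ = |sin φ| := one_mul _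
  linarith

lemma cf_pos {φ s : ℝ} (hφ : φ ∈ Ioo (-(π / 2)) (π / 2)) (hs : |s| ≤ 1) : 0 < cf φ s :=
  div_pos (cos_pos_of_mem_Ioo hφ) (den_pos hφ hs)

lemma hasDerivAt_cf {φ s : ℝ} (hφ : φ ∈ Ioo (-(π / 2)) (π / 2)) (hs : |s| ≤ 1) :
    HasDerivAt (fun φ => cf φ s) ((s - sin φ) / (1 - s * sin φ) ^ 2) φ := by
  have hd := den_pos hφ hs
  have h1 : HasDerivAt (fun φ => 1 - s * sin φ) (-(s * cos φ)) φ := by
    simpa using ((hasDerivAt_sin φ).const_mul s).const_sub 1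
  have h2 := (hasDerivAt_cos φ).fun_div h1 hd.ne'
  unfold cf
  refine h2.congr_deriv ?_
  congr 1
  have : cos φ ^ 2 = 1 - sin φ ^ 2 := by have := sin_sq_add_cos_sq φ; linarith
  linear_combination s * this

lemma hasDerivAt_cf_pow {φ s : ℝ} (m : ℕ) (hφ : φ ∈ Ioo (-(π / 2)) (π / 2)) (hs : |s| ≤ 1) :
    HasDerivAt (fun φ => cf φ s ^ m)
      (m * cos φ ^ (m - 1) * ((s - sin φ) / (1 - s * sin φ) ^ (m + 1))) φ := by
  have h := (hasDerivAt_cf hφ hs).fun_pow m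
  refine h.congr_deriv ?_
  have hd := (den_pos hφ hs).ne'
  unfold cf
  rcases m with _ | m
  · simp
  · simp only [Nat.add_sub_cancel]
    rw [div_pow]
    field_simp
    ring

/-- differentiation under the integral sign -/
lemma hasDerivAt_integral_cf {Y : Type*} [MeasurableSpace Y] (ν : Measure Y) [IsFiniteMeasure ν]
    (m : ℕ) {s g : Y → ℝ} (hs : Measurable s) (hg : Measurable g) (hs1 : ∀ y, |s y| ≤ 1)
    (hg1 : ∀ y, |g y| ≤ 1) {φ : ℝ} (hφ : φ ∈ Ioo (-(π / 2)) (π / 2)) :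
    HasDerivAt (fun φ => ∫ y, g y * cf φ (s y) ^ m ∂ν)
      (m * cos φ ^ (m - 1) * ∫ y, g y * ((s y - sin φ) / (1 - s y * sin φ) ^ (m + 1)) ∂ν) φ := by
  -- a compact neighbourhood
  obtain ⟨a, ha0, haφ, haπ⟩ : ∃ a, 0 < a ∧ |φ| < a ∧ a < π / 2 := by
    have h1 : |φ| < π / 2 := abs_lt.mpr hφ
    refine ⟨(|φ| + π / 2) / 2, ?_, ?_, ?_⟩
    · have := abs_nonneg φ; have := pi_pos; positivity
    · linarith
    · linarith
  set S := Ioo (-a) a with hS
  have hSn : S ∈ 𝓝 φ := isOpen_Ioo.mem_nhds (abs_lt.mp haφ)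
  have hSsub : ∀ x ∈ S, x ∈ Ioo (-(π / 2)) (π / 2) := fun x hx =>
    ⟨by have := hx.1; linarith, by have := hx.2; linarith⟩
  have hsin : ∀ x ∈ S, |sin x| ≤ sin a := by
    intro x hx
    rw [abs_le]
    constructor
    · rw [← sin_neg]
      apply sin_le_sin_of_le_of_le_pi_div_two
      · linarith
      · have := hx.2; linarith
      · have := hx.1; linarith
    · apply sin_le_sin_of_le_of_le_pi_div_two
      · have := hx.1; linarith
      · linarith
      · have := hx.2; linarith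
  have hsa : sin a < 1 := by
    have := abs_sin_lt_one (φ := a) ⟨by linarith, haπ⟩
    exact (abs_lt.mp this).2
  set C : ℝ := m * (2 / (1 - sin a) ^ (m + 1)) with hC
  have hmeas : ∀ x, Measurable fun y => g y * cf x (s y) ^ m := by
    intro x
    unfold cf
    fun_prop
  have hmeas' : Measurable fun y => g y * (m * cos φ ^ (m - 1) *
      ((s y - sin φ) / (1 - s y * sin φ) ^ (m + 1))) := by
    fun_prop
  have hint : Integrable (fun y => g y * cf φ (s y) ^ m) ν := by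
    refine Integrable.of_bound (hmeas φ).aestronglyMeasurable ((1 / (1 - |sin φ|)) ^ m) ?_
    filter_upwards with y
    rw [norm_mul, Real.norm_eq_abs, Real.norm_eq_abs, abs_of_nonneg (pow_nonneg (cf_pos hφ (hs1 y)).le m)]
    have h1 : cf φ (s y) ≤ 1 / (1 - |sin φ|) := by
      unfold cf
      have h2 := den_ge (φ := φ) (hs1 y)
      have h3 : 0 < 1 - |sin φ| := by have := abs_sin_lt_one hφ; linarith
      gcongr
      exact cos_le_one φ
    calc |g y| * cf φ (s y) ^ m ≤ 1 * cf φ (s y) ^ m := by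
          gcongr
          · exact pow_nonneg (cf_pos hφ (hs1 y)).le m
          · exact hg1 y
      _ = cf φ (s y) ^ m := one_mul _
      _ ≤ _ := pow_le_pow_left₀ (cf_pos hφ (hs1 y)).le h1 m
  have key := hasDerivAt_integral_of_dominated_loc_of_deriv_le (μ := ν) (s := S) (x₀ := φ)
    (F := fun x y => g y * cf x (s y) ^ m)
    (F' := fun x y => g y * (m * cos x ^ (m - 1) *
      ((s y - sin x) / (1 - s y * sin x) ^ (m + 1))))
    (bound := fun _ => C) hSn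
    (Filter.Eventually.of_forall fun x => (hmeas x).aestronglyMeasurable) hint
    hmeas'.aestronglyMeasurable
    (by
      filter_upwards with y
      intro x hx
      have hd : (1 - sin a) ≤ 1 - s y * sin x := by
        have h1 := den_ge (φ := x) (hs1 y)
        have h2 := hsin x hx
        linarith
      have h1a : 0 < 1 - sin a := by linarith
      have hdp : (1 - sin a) ^ (m + 1) ≤ (1 - s y * sin x) ^ (m + 1) :=
        pow_le_pow_left₀ h1a.le hd _
      rw [norm_mul, norm_mul, norm_mul, norm_div]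
      simp only [Real.norm_eq_abs]
      have e1 : |cos x ^ (m - 1)| ≤ 1 := by
        rw [abs_pow]
        exact pow_le_one₀ (abs_nonneg _) (abs_cos_le_one x)
      have e2 : |s y - sin x| ≤ 2 := by
        calc |s y - sin x| ≤ |s y| + |sin x| := abs_sub _ _
          _ ≤ 1 + 1 := add_le_add (hs1 y) (abs_sin_le_one x)
          _ = 2 := by norm_num
      have e3 : |(1 - s y * sin x) ^ (m + 1)| = (1 - s y * sin x) ^ (m + 1) :=
        abs_of_pos (pow_pos (h1a.trans_le hd) _)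
      rw [e3, Nat.abs_cast]
      calc |g y| * ((m : ℝ) * |cos x ^ (m - 1)| * (|s y - sin x| / (1 - s y * sin x) ^ (m + 1)))
          ≤ 1 * ((m : ℝ) * 1 * (2 / (1 - sin a) ^ (m + 1))) := by
            have hpp : 0 < (1 - s y * sin x) ^ (m + 1) := pow_pos (h1a.trans_le hd) _
            refine mul_le_mul (hg1 y) ?_ (by positivity) zero_le_one
            gcongr
        _ = C := by rw [hC]; ring)
    (integrable_const C)
    (by
      filter_upwards with y
      intro x hx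
      have := (hasDerivAt_cf_pow m (hSsub x hx) (hs1 y)).const_mul (g y)
      exact this)
  have h2 := key.2
  refine h2.congr_deriv ?_
  rw [← integral_const_mul]
  refine integral_congr_ae ?_
  filter_upwards with y
  ring

set_option linter.unusedSectionVars false

section

variable {X : Type*} [MeasurableSpace X] {E : Type*} [NormedAddCommGroup E]
  [InnerProductSpace ℝ E] [MeasurableSpace E] [BorelSpace E] [SecondCountableTopology E]

/-- measurable unit vectors -/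
structure Pts (p n : X → E) : Prop where
  mp : Measurable p
  mn : Measurable n
  np : ∀ x, ‖p x‖ = 1
  nn : ∀ x, ‖n x‖ = 1

/-- the data of the two point method -/
structure TwoPt (μ : Measure X) (m : ℕ) (p n : X → E) : Prop extends Pts p n where
  id1 : ∀ z : X, ∀ φ ∈ Ioo (-(π / 2)) (π / 2),
    ∫ x, (⟪p x, p z⟫ - sin φ) / (1 - ⟪p x, p z⟫ * sin φ) ^ (m + 1) ∂μ
      = - sin φ * ∫ x, ⟪n x, p z⟫ ^ 2 / (1 - ⟪p x, p z⟫ * sin φ) ^ (m + 1) ∂μ
  id2 : ∀ z : X, ∀ φ ∈ Ioo (-(π / 2)) (π / 2),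
    ∫ x, ⟪n x, n z⟫ * ((⟪p x, p z⟫ - sin φ) / (1 - ⟪p x, p z⟫ * sin φ) ^ (m + 1)) ∂μ
      = ∫ x, ⟪n x, p z⟫ * ⟪p x, n z⟫ / (1 - ⟪p x, p z⟫ * sin φ) ^ (m + 1) ∂μ

variable {μ : Measure X} [IsFiniteMeasure μ] {m : ℕ} {p n : X → E}

lemma Pts.abs_pp (h : Pts p n) (x y : X) : |⟪p x, p y⟫| ≤ 1 := by
  have := abs_real_inner_le_norm (p x) (p y)
  rwa [h.np, h.np, mul_one] at this

lemma Pts.abs_nn (h : Pts p n) (x y : X) : |⟪n x, n y⟫| ≤ 1 := by
  have := abs_real_inner_le_norm (n x) (n y)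
  rwa [h.nn, h.nn, mul_one] at this

lemma TwoPt.abs_np (h : TwoPt μ m p n) (x y : X) : |⟪n x, p y⟫| ≤ 1 := by
  have := abs_real_inner_le_norm (n x) (p y)
  rwa [h.nn, h.np, mul_one] at this

/-- the conformal volume based at z -/
noncomputable def V1 (μ : Measure X) (m : ℕ) (p : X → E) (z : X) (φ : ℝ) : ℝ :=
  ∫ x, cf φ ⟪p x, p z⟫ ^ m ∂μ

/-- the two point conformal volume -/
noncomputable def JJ (μ : Measure X) (m : ℕ) (p : X → E) (φ : ℝ) : ℝ :=
  ∫ q, cf φ ⟪p q.1, p q.2⟫ ^ m ∂(μ.prod μ)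

/-- the two point normal correlation -/
noncomputable def BB (μ : Measure X) (m : ℕ) (p n : X → E) (φ : ℝ) : ℝ :=
  ∫ q, ⟪n q.1, n q.2⟫ * cf φ ⟪p q.1, p q.2⟫ ^ m ∂(μ.prod μ)

/-- derivative of the conformal volume based at z -/
theorem TwoPt.hasDerivAt_V1 (h : TwoPt μ m p n) (z : X) {φ : ℝ}
    (hφ : φ ∈ Ioo (-(π / 2)) (π / 2)) :
    HasDerivAt (V1 μ m p z) (-(sin φ * (m * cos φ ^ (m - 1) *
      ∫ x, ⟪n x, p z⟫ ^ 2 / (1 - ⟪p x, p z⟫ * sin φ) ^ (m + 1) ∂μ))) φ := by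
  have hs : Measurable (fun x => ⟪p x, p z⟫) := h.mp.inner measurable_const
  have h1 := hasDerivAt_integral_cf μ m (g := fun _ => 1) hs measurable_const
    (fun x => h.abs_pp x z) (by simp) hφ
  simp only [one_mul] at h1
  rw [h.id1 z φ hφ] at h1
  unfold V1
  refine h1.congr_deriv ?_
  ring

lemma TwoPt.integrable_ker (h : TwoPt μ m p n) {g : X × X → ℝ} (hg : Measurable g)
    (hg1 : ∀ q, |g q| ≤ 2) {φ : ℝ} (hφ : φ ∈ Ioo (-(π / 2)) (π / 2)) (k : ℕ) :
    Integrable (fun q => g q / (1 - ⟪p q.1, p q.2⟫ * sin φ) ^ k) (μ.prod μ) := by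
  have hs : Measurable (fun q : X × X => ⟪p q.1, p q.2⟫) :=
    (h.mp.comp measurable_fst).inner (h.mp.comp measurable_snd)
  have hm : Measurable (fun q : X × X => g q / (1 - ⟪p q.1, p q.2⟫ * sin φ) ^ k) := by
    fun_prop
  refine Integrable.of_bound hm.aestronglyMeasurable (2 / (1 - |sin φ|) ^ k) ?_
  filter_upwards with q
  have h1 := den_ge (φ := φ) (h.abs_pp q.1 q.2)
  have h2 : 0 < 1 - |sin φ| := by have := abs_sin_lt_one hφ; linarith
  have h3 : (1 - |sin φ|) ^ k ≤ (1 - ⟪p q.1, p q.2⟫ * sin φ) ^ k := pow_le_pow_left₀ h2.le h1 _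
  rw [norm_div, Real.norm_eq_abs, Real.norm_eq_abs,
    abs_of_pos (pow_pos (h2.trans_le h1) k)]
  gcongr
  exact hg1 q

/-- derivatives of the two point functions, and the basic inequality -/
theorem TwoPt.main (h : TwoPt μ m p n) : ∃ a b : ℝ → ℝ, ∀ φ ∈ Ioo (-(π / 2)) (π / 2),
    HasDerivAt (JJ μ m p) (-(sin φ * a φ)) φ ∧ HasDerivAt (BB μ m p n) (b φ) φ ∧
      |b φ| ≤ a φ := by
  refine ⟨fun φ => m * cos φ ^ (m - 1) *
      ∫ q, ⟪n q.1, p q.2⟫ ^ 2 / (1 - ⟪p q.1, p q.2⟫ * sin φ) ^ (m + 1) ∂(μ.prod μ),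
    fun φ => m * cos φ ^ (m - 1) *
      ∫ q, ⟪n q.1, p q.2⟫ * ⟪p q.1, n q.2⟫ / (1 - ⟪p q.1, p q.2⟫ * sin φ) ^ (m + 1)
        ∂(μ.prod μ), ?_⟩
  intro φ hφ
  have mp1 : Measurable (fun q : X × X => p q.1) := h.mp.comp measurable_fst
  have mp2 : Measurable (fun q : X × X => p q.2) := h.mp.comp measurable_snd
  have mn1 : Measurable (fun q : X × X => n q.1) := h.mn.comp measurable_fst
  have mn2 : Measurable (fun q : X × X => n q.2) := h.mn.comp measurable_snd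
  have hs : Measurable (fun q : X × X => ⟪p q.1, p q.2⟫) := mp1.inner mp2
  have hρ : Measurable (fun q : X × X => ⟪n q.1, n q.2⟫) := mn1.inner mn2
  have ht : Measurable (fun q : X × X => ⟪n q.1, p q.2⟫) := mn1.inner mp2
  have ht' : Measurable (fun q : X × X => ⟪p q.1, n q.2⟫) := mp1.inner mn2
  have abs_pn : ∀ x y, |⟪p x, n y⟫| ≤ 1 := by
    intro x y; rw [real_inner_comm]; exact h.abs_np y x
  have hcos : 0 < cos φ := cos_pos_of_mem_Ioo hφ
  -- integrability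
  have i1 : Integrable (fun q : X × X => (⟪p q.1, p q.2⟫ - sin φ) /
      (1 - ⟪p q.1, p q.2⟫ * sin φ) ^ (m + 1)) (μ.prod μ) :=
    h.integrable_ker (g := fun q => ⟪p q.1, p q.2⟫ - sin φ) (hs.sub_const _) (fun q => by
      calc |⟪p q.1, p q.2⟫ - sin φ| ≤ |⟪p q.1, p q.2⟫| + |sin φ| := abs_sub _ _
        _ ≤ 1 + 1 := add_le_add (h.abs_pp _ _) (abs_sin_le_one φ)
        _ = 2 := by norm_num) hφ (m + 1)
  have i2 : Integrable (fun q : X × X => ⟪n q.1, p q.2⟫ ^ 2 /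
      (1 - ⟪p q.1, p q.2⟫ * sin φ) ^ (m + 1)) (μ.prod μ) :=
    h.integrable_ker (g := fun q => ⟪n q.1, p q.2⟫ ^ 2) (ht.pow_const 2) (fun q => by
      rw [abs_pow]
      calc |⟪n q.1, p q.2⟫| ^ 2 ≤ 1 ^ 2 := by gcongr; exact h.abs_np _ _
        _ ≤ 2 := by norm_num) hφ (m + 1)
  have i2' : Integrable (fun q : X × X => ⟪p q.1, n q.2⟫ ^ 2 /
      (1 - ⟪p q.1, p q.2⟫ * sin φ) ^ (m + 1)) (μ.prod μ) :=
    h.integrable_ker (g := fun q => ⟪p q.1, n q.2⟫ ^ 2) (ht'.pow_const 2) (fun q => by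
      rw [abs_pow]
      calc |⟪p q.1, n q.2⟫| ^ 2 ≤ 1 ^ 2 := by gcongr; exact abs_pn _ _
        _ ≤ 2 := by norm_num) hφ (m + 1)
  have i3 : Integrable (fun q : X × X => ⟪n q.1, p q.2⟫ * ⟪p q.1, n q.2⟫ /
      (1 - ⟪p q.1, p q.2⟫ * sin φ) ^ (m + 1)) (μ.prod μ) :=
    h.integrable_ker (g := fun q => ⟪n q.1, p q.2⟫ * ⟪p q.1, n q.2⟫) (ht.mul ht') (fun q => by
      rw [abs_mul]
      calc |⟪n q.1, p q.2⟫| * |⟪p q.1, n q.2⟫| ≤ 1 * 1 :=
            mul_le_mul (h.abs_np _ _) (abs_pn _ _) (abs_nonneg _) (by norm_num)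
        _ ≤ 2 := by norm_num) hφ (m + 1)
  have i4 : Integrable (fun q : X × X => ⟪n q.1, n q.2⟫ * ((⟪p q.1, p q.2⟫ - sin φ) /
      (1 - ⟪p q.1, p q.2⟫ * sin φ) ^ (m + 1))) (μ.prod μ) := by
    have := h.integrable_ker (g := fun q => ⟪n q.1, n q.2⟫ * (⟪p q.1, p q.2⟫ - sin φ))
      (hρ.mul (hs.sub_const _)) (fun q => by
      rw [abs_mul]
      calc |⟪n q.1, n q.2⟫| * |⟪p q.1, p q.2⟫ - sin φ| ≤ 1 * 2 := by
            refine mul_le_mul (h.abs_nn _ _) ?_ (abs_nonneg _) (by norm_num)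
            calc |⟪p q.1, p q.2⟫ - sin φ| ≤ |⟪p q.1, p q.2⟫| + |sin φ| := abs_sub _ _
              _ ≤ 1 + 1 := add_le_add (h.abs_pp _ _) (abs_sin_le_one φ)
              _ = 2 := by norm_num
        _ = 2 := by norm_num) hφ (m + 1)
    refine this.congr ?_
    filter_upwards with q
    rw [mul_div_assoc]
  -- Fubini
  have f1 : ∫ q, (⟪p q.1, p q.2⟫ - sin φ) / (1 - ⟪p q.1, p q.2⟫ * sin φ) ^ (m + 1) ∂(μ.prod μ)
      = - sin φ * ∫ q, ⟪n q.1, p q.2⟫ ^ 2 / (1 - ⟪p q.1, p q.2⟫ * sin φ) ^ (m + 1)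
        ∂(μ.prod μ) := by
    rw [integral_prod_symm _ i1, integral_prod_symm _ i2, ← integral_const_mul]
    refine integral_congr_ae ?_
    filter_upwards with z
    exact h.id1 z φ hφ
  have f2 : ∫ q, ⟪n q.1, n q.2⟫ * ((⟪p q.1, p q.2⟫ - sin φ) /
        (1 - ⟪p q.1, p q.2⟫ * sin φ) ^ (m + 1)) ∂(μ.prod μ)
      = ∫ q, ⟪n q.1, p q.2⟫ * ⟪p q.1, n q.2⟫ / (1 - ⟪p q.1, p q.2⟫ * sin φ) ^ (m + 1)
        ∂(μ.prod μ) := by
    rw [integral_prod_symm _ i4, integral_prod_symm _ i3]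
    refine integral_congr_ae ?_
    filter_upwards with z
    exact h.id2 z φ hφ
  -- symmetry
  have f3 : ∫ q, ⟪p q.1, n q.2⟫ ^ 2 / (1 - ⟪p q.1, p q.2⟫ * sin φ) ^ (m + 1) ∂(μ.prod μ)
      = ∫ q, ⟪n q.1, p q.2⟫ ^ 2 / (1 - ⟪p q.1, p q.2⟫ * sin φ) ^ (m + 1) ∂(μ.prod μ) := by
    rw [← integral_prod_swap]
    refine integral_congr_ae ?_
    filter_upwards with q
    simp only [Prod.fst_swap, Prod.snd_swap]
    rw [real_inner_comm (n q.1) (p q.2), real_inner_comm (p q.1) (p q.2)]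
  refine ⟨?_, ?_, ?_⟩
  · have h1 := hasDerivAt_integral_cf (μ.prod μ) m (g := fun _ => 1) hs measurable_const
      (fun q => h.abs_pp q.1 q.2) (by simp) hφ
    simp only [one_mul] at h1
    rw [f1] at h1
    unfold JJ
    refine h1.congr_deriv ?_
    ring
  · have h1 := hasDerivAt_integral_cf (μ.prod μ) m (g := fun q => ⟪n q.1, n q.2⟫) hs hρ
      (fun q => h.abs_pp q.1 q.2) (fun q => h.abs_nn q.1 q.2) hφ
    rw [f2] at h1
    exact h1
  · have hc : (0 : ℝ) ≤ m * cos φ ^ (m - 1) := by positivity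
    simp only
    rw [abs_mul, abs_of_nonneg hc]
    refine mul_le_mul_of_nonneg_left ?_ hc
    have hpos : ∀ q : X × X, 0 < (1 - ⟪p q.1, p q.2⟫ * sin φ) ^ (m + 1) := fun q =>
      pow_pos (den_pos hφ (h.abs_pp q.1 q.2)) _
    calc |∫ q, ⟪n q.1, p q.2⟫ * ⟪p q.1, n q.2⟫ / (1 - ⟪p q.1, p q.2⟫ * sin φ) ^ (m + 1)
          ∂(μ.prod μ)|
        ≤ ∫ q, (⟪n q.1, p q.2⟫ ^ 2 / (1 - ⟪p q.1, p q.2⟫ * sin φ) ^ (m + 1)
          + ⟪p q.1, n q.2⟫ ^ 2 / (1 - ⟪p q.1, p q.2⟫ * sin φ) ^ (m + 1)) / 2 ∂(μ.prod μ) := by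
          rw [abs_le]
          have iabs := (i2.add i2').div_const 2
          constructor
          · rw [← integral_neg]
            refine integral_mono iabs.neg i3 fun q => ?_
            have := hpos q
            simp only
            rw [← add_div, div_div, ← neg_div, div_le_div_iff₀ (by positivity) (by positivity)]
            nlinarith [sq_nonneg (⟪n q.1, p q.2⟫ + ⟪p q.1, n q.2⟫)]
          · refine integral_mono i3 iabs fun q => ?_
            have := hpos q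
            simp only
            rw [← add_div, div_div, div_le_div_iff₀ (by positivity) (by positivity)]
            nlinarith [sq_nonneg (⟪n q.1, p q.2⟫ - ⟪p q.1, n q.2⟫)]
      _ = _ := by
          rw [integral_div, integral_add i2 i2', f3]
          ring

end

end Vale.Agent.P224.FV
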