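import Vale.Agent.P224.FV.Ident
import Vale.Agent.P224.FV.TwoPoint

namespace Vale.Agent.P224.FV

open MeasureTheory Set Real
open scoped RealInnerProductSpace Topology ContDiff Manifold

set_option linter.unusedSectionVars false

/-- the kernels -/
noncomputable def DD (k : ℕ) (φ s : ℝ) : ℝ := ((1 - s * sin φ) ^ k)⁻¹

lemma DD_pos {k : ℕ} {φ s : ℝ} (hd : 0 < 1 - s * sin φ) : 0 < DD k φ s :=
  inv_pos.2 (pow_pos hd k)

lemma DD_succ {k : ℕ} {φ s : ℝ} (hd : 1 - s * sin φ ≠ 0) :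
    DD k φ s = (1 - s * sin φ) * DD (k + 1) φ s := by
  unfold DD
  rw [pow_succ]
  field_simp

lemma DD_zero (φ s : ℝ) : DD 0 φ s = 1 := by simp [DD]

lemma hasDerivAt_DD {k : ℕ} {φ s : ℝ} (hd : 1 - s * sin φ ≠ 0) :
    HasDerivAt (DD k φ) (k * sin φ * DD (k + 1) φ s) s := by
  have h1 : HasDerivAt (fun s => 1 - s * sin φ) (-(sin φ)) s := by
    simpa using ((hasDerivAt_id s).mul_const (sin φ)).const_sub 1
  have h2 := (h1.fun_pow k).fun_inv (pow_ne_zero k hd)
  refine h2.congr_deriv ?_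
  unfold DD
  rcases k with _ | k
  · simp
  · simp only [Nat.add_sub_cancel]
    field_simp
    ring

lemma contDiffAt_DD {k : ℕ} {φ s : ℝ} (hd : 1 - s * sin φ ≠ 0) :
    ContDiffAt ℝ ∞ (DD k φ) s := by
  have h1 : ContDiffAt ℝ ∞ (fun s : ℝ => (1 - s * sin φ) ^ k) s :=
    (contDiffAt_const.sub (contDiffAt_id.mul contDiffAt_const)).pow k
  exact h1.inv (pow_ne_zero k hd)

lemma hasDerivAt_DD_phi {k : ℕ} {φ s : ℝ} (hd : 1 - s * sin φ ≠ 0) :
    HasDerivAt (fun φ => DD k φ s) (k * (s * cos φ) * DD (k + 1) φ s) φ := by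
  have h1 : HasDerivAt (fun φ => 1 - s * sin φ) (-(s * cos φ)) φ := by
    simpa using ((hasDerivAt_sin φ).const_mul s).const_sub 1
  have h2 := (h1.fun_pow k).fun_inv (pow_ne_zero k hd)
  refine h2.congr_deriv ?_
  unfold DD
  rcases k with _ | k
  · simp
  · simp only [Nat.add_sub_cancel]
    field_simp
    ring

end Vale.Agent.P224.FV
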