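import Vale.Agent.P224.FV.Global

namespace Vale.Agent.P224.FV

open Matrix MeasureTheory Module Function Set
open scoped RealInnerProductSpace Topology ContDiff Manifold

set_option linter.unusedSectionVars false

section

variable {V W M : Type*} [NormedAddCommGroup V] [InnerProductSpace ℝ V] [FiniteDimensional ℝ V]
  [NormedAddCommGroup W] [InnerProductSpace ℝ W] [FiniteDimensional ℝ W]
  {X : Type*} [NormedAddCommGroup X] [NormedSpace ℝ X]
  [TopologicalSpace M] [ChartedSpace V M]

variable (V) in
/-- the Laplacian of the induced metric, written with the operators dl -/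
noncomputable def Lap (F : M → W) (g : M → ℝ) (p : M) : ℝ :=
  ∑ i, dl V F (stdOrthonormalBasis ℝ W i) (dl V F (stdOrthonormalBasis ℝ W i) g) p

end

end Vale.Agent.P224.FV
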