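import Vale.Agent.P224.FV.LapDef

namespace Vale.Agent.P224.FV

open Matrix MeasureTheory Module Function Set
open scoped RealInnerProductSpace Topology ContDiff Manifold

set_option linter.unusedSectionVars false

section

variable {V W M : Type*} [NormedAddCommGroup V] [InnerProductSpace ℝ V] [FiniteDimensional ℝ V]
  [NormedAddCommGroup W] [InnerProductSpace ℝ W] [FiniteDimensional ℝ W]
  {X : Type*} [NormedAddCommGroup X] [NormedSpace ℝ X]
  [TopologicalSpace M] [ChartedSpace V M]

/-- the derivative field is smooth -/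
lemma contMDiff_dl [IsManifold 𝓘(ℝ, V) ∞ M] {F : M → W} (hF : SphImm V F) (a : W) {h : M → X}
    (hh : ContMDiff 𝓘(ℝ, V) 𝓘(ℝ, X) ∞ h) : ContMDiff 𝓘(ℝ, V) 𝓘(ℝ, X) ∞ (dl V F a h) := by
  intro x
  have hI := immV_rep hF x
  have hxs : x ∈ (chartAt V x).source := mem_chart_source _ x
  have hxT : chartAt V x x ∈ (chartAt V x).target := (chartAt V x).map_source hxs
  have h1 : dl V F a h =ᶠ[𝓝 x] fun p => fderiv ℝ (rep (V := V) h x) (chartAt V x p)
      (vW (rep (V := V) F x) a (chartAt V x p)) := by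
    filter_upwards [(chartAt V x).open_source.mem_nhds hxs] with p hp
    exact dl_eq hF a hp (rep_differentiableAt hh x ((chartAt V x).map_source hp))
  refine ContMDiffAt.congr_of_eventuallyEq ?_ h1
  have hsm : ContDiffAt ℝ (∞ + 1) (rep (V := V) F x) (chartAt V x x) :=
    (hI.smooth.contDiffAt (hI.isOpen.mem_nhds hxT)).of_le (by simp)
  have hhm : ContDiffAt ℝ (∞ + 1) (rep (V := V) h x) (chartAt V x x) :=
    ((rep_contDiffOn hh x).contDiffAt ((chartAt V x).open_target.mem_nhds hxT)).of_le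
      (by simp)
  have hc1 : ContDiffAt ℝ ∞ (fderiv ℝ (rep (V := V) h x)) (chartAt V x x) :=
    hhm.fderiv_right (m := ∞) (by simp)
  have hc2 : ContDiffAt ℝ ∞ (vW (rep (V := V) F x) a) (chartAt V x x) := by
    unfold vW
    exact ContDiffAt.sum fun i _ =>
      (contDiffAt_lW (n := ∞) hsm (lG_det_pos (hI.inj _ hxT)).ne' a i).smul contDiffAt_const
  have hc3 : ContDiffAt ℝ ∞ (fun u => fderiv ℝ (rep (V := V) h x) u
      (vW (rep (V := V) F x) a u)) (chartAt V x x) := hc1.clm_apply hc2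
  have hφ : ContMDiffAt 𝓘(ℝ, V) 𝓘(ℝ, V) ∞ (chartAt V x) x := by
    have := contMDiffAt_extChartAt (I := 𝓘(ℝ, V)) (x := x) (n := ∞)
    simpa using this
  exact hc3.contMDiffAt.comp x hφ

end

end Vale.Agent.P224.FV
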