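import Vale.Agent.P224.FV.Jacobi
import Vale.Agent.P224.Defs

namespace Vale.Agent.P224.FV

open Matrix MeasureTheory Module
open scoped RealInnerProductSpace Topology

section Local

variable {V : Type*} [NormedAddCommGroup V] [InnerProductSpace ℝ V] [FiniteDimensional ℝ V]
  {E : Type*} [NormedAddCommGroup E] [InnerProductSpace ℝ E]

/-- the i-th partial derivative -/
noncomputable def lP (f : V → E) (i : Fin (finrank ℝ V))
    (u : V) : E :=
  fderiv ℝ f u (stdOrthonormalBasis ℝ V i)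

/-- the second partial derivative, first j then i -/
noncomputable def lQ (f : V → E) (i j : Fin (finrank ℝ V))
    (u : V) : E :=
  fderiv ℝ (lP f j) u (stdOrthonormalBasis ℝ V i)

/-- the Gram matrix -/
noncomputable def lG (f : V → E)
    (u : V) : Matrix (Fin (finrank ℝ V)) (Fin (finrank ℝ V)) ℝ :=
  Matrix.of fun i j => ⟪lP f i u, lP f j u⟫

/-- the coordinates of the tangential part of a -/
noncomputable def lW (f : V → E) (a : E) (i : Fin (finrank ℝ V))
    (u : V) : ℝ :=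
  ∑ j, (lG f u)⁻¹ i j * ⟪a, lP f j u⟫

variable {f : V → E} {u : V}

lemma hasFDerivAt_lP (hf : ContDiffAt ℝ 2 f u) (i : Fin (finrank ℝ V)) :
    HasFDerivAt (lP f i)
      ((ContinuousLinearMap.apply ℝ E (stdOrthonormalBasis ℝ V i)).comp
        (fderiv ℝ (fderiv ℝ f) u)) u := by
  have h1 : DifferentiableAt ℝ (fderiv ℝ f) u :=
    (hf.fderiv_right (m := 1) (by norm_num)).differentiableAt (by norm_num)
  exact (ContinuousLinearMap.apply ℝ E (stdOrthonormalBasis ℝ V i)).hasFDerivAt.comp u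
    h1.hasFDerivAt

lemma lQ_eq (hf : ContDiffAt ℝ 2 f u) (i j : Fin (finrank ℝ V)) :
    lQ f i j u = fderiv ℝ (fderiv ℝ f) u (stdOrthonormalBasis ℝ V i)
      (stdOrthonormalBasis ℝ V j) := by
  rw [lQ, (hasFDerivAt_lP hf j).fderiv]
  rfl

lemma lQ_symm (hf : ContDiffAt ℝ 2 f u) (i j : Fin (finrank ℝ V)) : lQ f i j u = lQ f j i u := by
  rw [lQ_eq hf, lQ_eq hf]
  exact (hf.isSymmSndFDerivAt (by simp)) _ _

lemma lG_symm (i j : Fin (finrank ℝ V)) : lG f u i j = lG f u j i := by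
  simp [lG, real_inner_comm]

lemma lG_transpose : (lG f u)ᵀ = lG f u := by
  ext i j; exact lG_symm j i

lemma lGinv_symm (i j : Fin (finrank ℝ V)) : (lG f u)⁻¹ i j = (lG f u)⁻¹ j i := by
  have : ((lG f u)⁻¹)ᵀ = (lG f u)⁻¹ := by
    rw [Matrix.transpose_nonsing_inv, lG_transpose]
  rw [← Matrix.transpose_apply (lG f u)⁻¹ j i, this]

/-- the derivative of the Gram matrix -/
lemma hasFDerivAt_lG (hf : ContDiffAt ℝ 2 f u) (i j : Fin (finrank ℝ V)) :
    HasFDerivAt (fun v => lG f v i j)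
      ((innerSL ℝ (lP f i u)).comp (fderiv ℝ (lP f j) u)
        + (innerSL ℝ (lP f j u)).comp (fderiv ℝ (lP f i) u)) u := by
  have h1 := (hasFDerivAt_lP hf i)
  have h2 := (hasFDerivAt_lP hf j)
  have := h1.inner ℝ h2
  rw [h1.fderiv, h2.fderiv]
  refine this.congr_fderiv ?_
  ext v
  simp [fderivInnerCLM_apply, real_inner_comm]

lemma lG_deriv (hf : ContDiffAt ℝ 2 f u) (i j k : Fin (finrank ℝ V)) :
    fderiv ℝ (fun v => lG f v j k) u (stdOrthonormalBasis ℝ V i)
      = ⟪lQ f i j u, lP f k u⟫ + ⟪lQ f i k u, lP f j u⟫ := by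
  rw [(hasFDerivAt_lG hf j k).fderiv]
  simp [lQ, real_inner_comm]
  ring

lemma contDiffAt_lP {n : WithTop ℕ∞} (hf : ContDiffAt ℝ (n + 1) f u) (i : Fin (finrank ℝ V)) :
    ContDiffAt ℝ n (lP f i) u :=
  (hf.fderiv_right (m := n) le_rfl).clm_apply contDiffAt_const

lemma contDiffAt_lG {n : WithTop ℕ∞} (hf : ContDiffAt ℝ (n + 1) f u) (i j : Fin (finrank ℝ V)) :
    ContDiffAt ℝ n (fun v => lG f v i j) u :=
  (contDiffAt_lP hf i).inner ℝ (contDiffAt_lP hf j)

lemma contDiffAt_lGpi {n : WithTop ℕ∞} (hf : ContDiffAt ℝ (n + 1) f u) :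
    ContDiffAt ℝ n (fun v => (fun i j => lG f v i j : Fin (finrank ℝ V) → Fin (finrank ℝ V) → ℝ)) u := by
  rw [contDiffAt_pi]
  intro i
  rw [contDiffAt_pi]
  intro j
  exact contDiffAt_lG hf i j

lemma contDiffAt_det {n : WithTop ℕ∞} (hf : ContDiffAt ℝ (n + 1) f u) :
    ContDiffAt ℝ n (fun v => (lG f v).det) u :=
  (contDiff_detPi (finrank ℝ V)).contDiffAt.comp u (contDiffAt_lGpi hf)

lemma contDiffAt_inv {n : WithTop ℕ∞} (hf : ContDiffAt ℝ (n + 1) f u)
    (hG : (lG f u).det ≠ 0) (i j : Fin (finrank ℝ V)) :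
    ContDiffAt ℝ n (fun v => (lG f v)⁻¹ i j) u := by
  have h1 : (fun v => (lG f v)⁻¹ i j) = fun v => ((lG f v).det)⁻¹ *
      (Matrix.of (Function.update (fun i j => lG f v i j : Fin (finrank ℝ V) → Fin (finrank ℝ V) → ℝ) j
        (Pi.single i 1))).det := by
    funext v
    rw [Matrix.inv_def, Matrix.smul_apply, Ring.inverse_eq_inv', Matrix.adjugate_apply,
      smul_eq_mul]
    rfl
  rw [h1]
  refine ((contDiffAt_det hf).inv hG).mul ?_
  refine (contDiff_detPi (finrank ℝ V)).contDiffAt.comp u ?_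
  rw [contDiffAt_pi]
  intro k
  by_cases hk : k = j
  · subst hk
    simpa using contDiffAt_const
  · simp only [Function.update_of_ne hk]
    rw [contDiffAt_pi]
    intro l
    exact contDiffAt_lG hf k l

lemma contDiffAt_lW {n : WithTop ℕ∞} (hf : ContDiffAt ℝ (n + 1) f u)
    (hG : (lG f u).det ≠ 0) (a : E) (i : Fin (finrank ℝ V)) :
    ContDiffAt ℝ n (lW f a i) u := by
  unfold lW
  refine ContDiffAt.sum fun j _ => (contDiffAt_inv hf hG i j).mul ?_
  exact contDiffAt_const.inner ℝ (contDiffAt_lP hf j)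

lemma contDiffAt_sqrt {n : WithTop ℕ∞} (hf : ContDiffAt ℝ (n + 1) f u)
    (hG : (lG f u).det ≠ 0) :
    ContDiffAt ℝ n (fun v => Real.sqrt (lG f v).det) u :=
  (contDiffAt_det hf).sqrt hG

lemma eventually_det (hf : ContDiffAt ℝ 1 f u) (hG : (lG f u).det ≠ 0) :
    ∀ᶠ v in 𝓝 u, (lG f v).det ≠ 0 := by
  have : ContinuousAt (fun v => (lG f v).det) u :=
    (contDiffAt_det (n := 0) (by simpa using hf)).continuousAt
  exact this.eventually_ne hG

/-- the defining equation of the tangential part -/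
lemma lG_lW (hG : (lG f u).det ≠ 0) (a : E) (j : Fin (finrank ℝ V)) :
    ∑ k, lG f u j k * lW f a k u = ⟪a, lP f j u⟫ := by
  have h : lG f u *ᵥ ((lG f u)⁻¹ *ᵥ fun j => ⟪a, lP f j u⟫) = fun j => ⟪a, lP f j u⟫ := by
    rw [Matrix.mulVec_mulVec, Matrix.mul_nonsing_inv _ (isUnit_iff_ne_zero.mpr hG),
      Matrix.one_mulVec]
  exact congrFun h j

lemma lW_deriv (hf : ContDiffAt ℝ 2 f u) (hG : (lG f u).det ≠ 0) (a : E) (i l : Fin (finrank ℝ V)) :
    fderiv ℝ (lW f a l) u (stdOrthonormalBasis ℝ V i)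
      = ∑ j, (lG f u)⁻¹ l j * (⟪a, lQ f i j u⟫
          - ∑ k, (⟪lQ f i j u, lP f k u⟫ + ⟪lQ f i k u, lP f j u⟫) * lW f a k u) := by
  have hW : ∀ k, DifferentiableAt ℝ (lW f a k) u := fun k =>
    (contDiffAt_lW (n := 1) hf hG a k).differentiableAt (by norm_num)
  have hGd : ∀ j k, DifferentiableAt ℝ (fun v => lG f v j k) u := fun j k =>
    (hasFDerivAt_lG hf j k).differentiableAt
  -- differentiate the defining equation
  have key : ∀ j, ∑ k, lG f u j k * fderiv ℝ (lW f a k) u (stdOrthonormalBasis ℝ V i)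
      = ⟪a, lQ f i j u⟫
        - ∑ k, (⟪lQ f i j u, lP f k u⟫ + ⟪lQ f i k u, lP f j u⟫) * lW f a k u := by
    intro j
    have e1 : fderiv ℝ (fun v => ∑ k, lG f v j k * lW f a k v) u (stdOrthonormalBasis ℝ V i)
        = fderiv ℝ (fun v => ⟪a, lP f j v⟫) u (stdOrthonormalBasis ℝ V i) := by
      congr 1
      apply Filter.EventuallyEq.fderiv_eq
      filter_upwards [eventually_det (hf.of_le (by norm_num)) hG] with v hv
      exact lG_lW hv a j
    have e2 : fderiv ℝ (fun v => ⟪a, lP f j v⟫) u (stdOrthonormalBasis ℝ V i)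
        = ⟪a, lQ f i j u⟫ := by
      have : HasFDerivAt (fun v => ⟪a, lP f j v⟫) ((innerSL ℝ a).comp (fderiv ℝ (lP f j) u)) u :=
        (innerSL ℝ a).hasFDerivAt.comp u (hasFDerivAt_lP hf j).differentiableAt.hasFDerivAt
      rw [this.fderiv]
      rfl
    have e3 : fderiv ℝ (fun v => ∑ k, lG f v j k * lW f a k v) u (stdOrthonormalBasis ℝ V i)
        = ∑ k, (lG f u j k * fderiv ℝ (lW f a k) u (stdOrthonormalBasis ℝ V i)
          + (⟪lQ f i j u, lP f k u⟫ + ⟪lQ f i k u, lP f j u⟫) * lW f a k u) := by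
      rw [fderiv_fun_sum (fun k _ => (hGd j k).fun_mul (hW k))]
      rw [_root_.sum_apply]
      refine Finset.sum_congr rfl fun k _ => ?_
      rw [fderiv_fun_mul (hGd j k) (hW k)]
      simp only [_root_.add_apply, _root_.smul_apply, smul_eq_mul]
      rw [lG_deriv hf]
      ring
    rw [e2, e3, Finset.sum_add_distrib] at e1
    linarith
  have h : (lG f u)⁻¹ *ᵥ (lG f u *ᵥ fun k => fderiv ℝ (lW f a k) u (stdOrthonormalBasis ℝ V i))
      = fun k => fderiv ℝ (lW f a k) u (stdOrthonormalBasis ℝ V i) := by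
    rw [Matrix.mulVec_mulVec, Matrix.nonsing_inv_mul _ (isUnit_iff_ne_zero.mpr hG),
      Matrix.one_mulVec]
  have h2 := congrFun h l
  simp only [Matrix.mulVec, dotProduct] at h2
  rw [← h2]
  refine Finset.sum_congr rfl fun j _ => ?_
  rw [key j]

lemma sqrt_deriv (hf : ContDiffAt ℝ 2 f u) (hG : 0 < (lG f u).det) (i : Fin (finrank ℝ V)) :
    fderiv ℝ (fun v => Real.sqrt (lG f v).det) u (stdOrthonormalBasis ℝ V i)
      = Real.sqrt (lG f u).det * ∑ j, ∑ k, (lG f u)⁻¹ j k * ⟪lQ f i j u, lP f k u⟫ := by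
  have hd : DifferentiableAt ℝ (fun v => (lG f v).det) u :=
    (contDiffAt_det (n := 1) hf).differentiableAt (by norm_num)
  have hpi : DifferentiableAt ℝ (fun v => (fun i j => lG f v i j : Fin (finrank ℝ V) → Fin (finrank ℝ V) → ℝ)) u :=
    (contDiffAt_lGpi (n := 1) hf).differentiableAt (by norm_num)
  have e1 : fderiv ℝ (fun v => (lG f v).det) u (stdOrthonormalBasis ℝ V i)
      = (lG f u).det * (2 * ∑ j, ∑ k, (lG f u)⁻¹ j k * ⟪lQ f i j u, lP f k u⟫) := by
    have hc : HasFDerivAt (fun v => (lG f v).det)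
        ((fderiv ℝ (fun g : Fin (finrank ℝ V) → Fin (finrank ℝ V) → ℝ => (Matrix.of g).det) (fun i j => lG f u i j)).comp
          (fderiv ℝ (fun v => (fun i j => lG f v i j : Fin (finrank ℝ V) → Fin (finrank ℝ V) → ℝ)) u)) u :=
      (((contDiff_detPi (finrank ℝ V) (n := 1)).differentiable (by norm_num)
        (fun i j => lG f u i j)).hasFDerivAt).comp u hpi.hasFDerivAt
    rw [hc.fderiv, ContinuousLinearMap.comp_apply,
      fderiv_detPi (finrank ℝ V) (fun i j => lG f u i j) _ hG.ne']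
    have hh : ∀ j k, fderiv ℝ (fun v => (fun i j => lG f v i j : Fin (finrank ℝ V) → Fin (finrank ℝ V) → ℝ)) u
        (stdOrthonormalBasis ℝ V i) j k = ⟪lQ f i j u, lP f k u⟫ + ⟪lQ f i k u, lP f j u⟫ := by
      intro j k
      rw [← lG_deriv hf i j k]
      rw [fderiv_pi (fun j => differentiableAt_pi.mp hpi j), ContinuousLinearMap.pi_apply,
        fderiv_pi (fun k => differentiableAt_pi.mp (differentiableAt_pi.mp hpi j) k),
        ContinuousLinearMap.pi_apply]
    have hof : (Matrix.of fun i j => lG f u i j) = lG f u := rfl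
    rw [hof]
    congr 1
    rw [Matrix.trace]
    simp only [Matrix.diag_apply, Matrix.mul_apply, Matrix.of_apply, hh, mul_add,
      Finset.sum_add_distrib]
    rw [two_mul]
    congr 1
    · rw [Finset.sum_comm]
      refine Finset.sum_congr rfl fun j _ => Finset.sum_congr rfl fun k _ => ?_
      rw [lGinv_symm]
  rw [fderiv_sqrt hd hG.ne', _root_.smul_apply, e1, smul_eq_mul]
  have hs : Real.sqrt (lG f u).det * Real.sqrt (lG f u).det = (lG f u).det :=
    Real.mul_self_sqrt hG.le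
  have hs0 : Real.sqrt (lG f u).det ≠ 0 := (Real.sqrt_pos.mpr hG).ne'
  generalize (∑ j, ∑ k, (lG f u)⁻¹ j k * ⟪lQ f i j u, lP f k u⟫) = S
  generalize Real.sqrt (lG f u).det = r at hs hs0
  rw [← hs]
  field_simp

/-- the tangential part -/
noncomputable def lT (f : V → E) (a : E)
    (u : V) : E := ∑ k, lW f a k u • lP f k u

lemma inner_lT (hG : (lG f u).det ≠ 0) (a : E) (j : Fin (finrank ℝ V)) :
    ⟪lP f j u, lT f a u⟫ = ⟪a, lP f j u⟫ := by
  rw [lT, inner_sum, ← lG_lW hG a j]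
  refine Finset.sum_congr rfl fun k _ => ?_
  rw [inner_smul_right, mul_comm]
  rfl

lemma inner_f_lP (hf : ContDiffAt ℝ 2 f u) (hn : ∀ᶠ v in 𝓝 u, ‖f v‖ = 1) (i : Fin (finrank ℝ V)) :
    ⟪f u, lP f i u⟫ = 0 := by
  have hd : DifferentiableAt ℝ f u := hf.differentiableAt (by norm_num)
  have h1 : fderiv ℝ (fun v => ⟪f v, f v⟫) u = fderiv ℝ (fun _ => (1 : ℝ)) u := by
    apply Filter.EventuallyEq.fderiv_eq
    filter_upwards [hn] with v hv
    rw [real_inner_self_eq_norm_sq, hv]; norm_num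
  have h2 := congrArg (fun L => L (stdOrthonormalBasis ℝ V i)) h1
  simp only [fderiv_inner_apply ℝ hd hd, fderiv_fun_const] at h2
  simp only [Pi.zero_apply, _root_.zero_apply] at h2
  have h3 : ⟪fderiv ℝ f u (stdOrthonormalBasis ℝ V i), f u⟫
      = ⟪f u, fderiv ℝ f u (stdOrthonormalBasis ℝ V i)⟫ := real_inner_comm _ _
  rw [h3] at h2
  change ⟪f u, fderiv ℝ f u (stdOrthonormalBasis ℝ V i)⟫ = 0
  linarith

lemma inner_f_lQ (hf : ContDiffAt ℝ 3 f u) (hn : ∀ᶠ v in 𝓝 u, ‖f v‖ = 1) (i j : Fin (finrank ℝ V)) :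
    ⟪lQ f i j u, f u⟫ = - lG f u i j := by
  have hf2 : ContDiffAt ℝ 2 f u := hf.of_le (by norm_num)
  have hd : DifferentiableAt ℝ f u := hf.differentiableAt (by norm_num)
  have hPd : DifferentiableAt ℝ (lP f j) u := (hasFDerivAt_lP hf2 j).differentiableAt
  have h1 : fderiv ℝ (fun v => ⟪f v, lP f j v⟫) u = fderiv ℝ (fun _ => (0 : ℝ)) u := by
    apply Filter.EventuallyEq.fderiv_eq
    have hev : ∀ᶠ v in 𝓝 u, ContDiffAt ℝ 3 f v := hf.eventually (by norm_num)
    filter_upwards [hn.eventually_nhds, hev] with v hv hv2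
    exact inner_f_lP (hv2.of_le (by norm_num)) hv j
  have h2 := congrArg (fun L => L (stdOrthonormalBasis ℝ V i)) h1
  simp only [fderiv_inner_apply ℝ hd hPd, fderiv_fun_const] at h2
  simp only [Pi.zero_apply, _root_.zero_apply] at h2
  have h3 : ⟪lQ f i j u, f u⟫ = ⟪f u, fderiv ℝ (lP f j) u (stdOrthonormalBasis ℝ V i)⟫ :=
    real_inner_comm _ _
  have h4 : lG f u i j = ⟪fderiv ℝ f u (stdOrthonormalBasis ℝ V i), lP f j u⟫ := rfl
  rw [h3, h4]
  linarith

/-- the local form of the first variation formula -/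
theorem div_formula (hf : ContDiffAt ℝ 3 f u) (hG : 0 < (lG f u).det)
    (hn : ∀ᶠ v in 𝓝 u, ‖f v‖ = 1)
    (hmin : ∀ n : E, ‖n‖ = 1 → ⟪f u, n⟫ = 0 → (∀ i, ⟪lP f i u, n⟫ = 0) →
      ∑ i, ∑ j, (lG f u)⁻¹ i j * ⟪lQ f i j u, n⟫ = 0) (a : E) :
    ∑ i, fderiv ℝ (fun v => Real.sqrt (lG f v).det * lW f a i v) u (stdOrthonormalBasis ℝ V i)
      = - ((finrank ℝ V : ℝ) * (Real.sqrt (lG f u).det * ⟪a, f u⟫)) := by
  have hf2 : ContDiffAt ℝ 2 f u := hf.of_le (by norm_num)
  have hW : ∀ k, DifferentiableAt ℝ (lW f a k) u := fun k =>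
    (contDiffAt_lW (n := 1) hf2 hG.ne' a k).differentiableAt (by norm_num)
  have hS : DifferentiableAt ℝ (fun v => Real.sqrt (lG f v).det) u :=
    (contDiffAt_sqrt (n := 1) hf2 hG.ne').differentiableAt (by norm_num)
  -- the normal part
  set w : E := a - lT f a u with hw
  have hwP : ∀ i, ⟪lP f i u, w⟫ = 0 := by
    intro i
    rw [hw, inner_sub_right, inner_lT hG.ne', real_inner_comm, sub_self]
  have hfP : ∀ i, ⟪f u, lP f i u⟫ = 0 := inner_f_lP hf2 hn
  have hfu : ⟪f u, f u⟫ = 1 := by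
    rw [real_inner_self_eq_norm_sq, hn.self_of_nhds]; norm_num
  have hfT : ⟪f u, lT f a u⟫ = 0 := by
    rw [lT, inner_sum]
    refine Finset.sum_eq_zero fun k _ => ?_
    rw [inner_smul_right, hfP, mul_zero]
  have hsum : ∑ i, ∑ j, (lG f u)⁻¹ i j * ⟪lQ f i j u, w⟫ = - ((finrank ℝ V : ℝ) * ⟪a, f u⟫) := by
    set z : E := w - ⟪a, f u⟫ • f u with hz
    have hzP : ∀ i, ⟪lP f i u, z⟫ = 0 := by
      intro i
      rw [hz, inner_sub_right, hwP, inner_smul_right, real_inner_comm (f u) (lP f i u), hfP]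
      simp
    have hzf : ⟪f u, z⟫ = 0 := by
      rw [hz, inner_sub_right, hw, inner_sub_right, hfT, inner_smul_right, hfu,
        real_inner_comm (f u) a]
      ring
    have hzsum : ∑ i, ∑ j, (lG f u)⁻¹ i j * ⟪lQ f i j u, z⟫ = 0 := by
      by_cases hz0 : z = 0
      · simp [hz0]
      · have hzn : ‖z‖ ≠ 0 := norm_ne_zero_iff.mpr hz0
        have := hmin (‖z‖⁻¹ • z) (by rw [norm_smul, norm_inv, norm_norm, inv_mul_cancel₀ hzn])
          (by rw [inner_smul_right, hzf, mul_zero])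
          (fun i => by rw [inner_smul_right, hzP, mul_zero])
        have h2 : ∑ i, ∑ j, (lG f u)⁻¹ i j * ⟪lQ f i j u, z⟫
            = ‖z‖ * ∑ i, ∑ j, (lG f u)⁻¹ i j * ⟪lQ f i j u, ‖z‖⁻¹ • z⟫ := by
          rw [Finset.mul_sum]
          refine Finset.sum_congr rfl fun i _ => ?_
          rw [Finset.mul_sum]
          refine Finset.sum_congr rfl fun j _ => ?_
          rw [inner_smul_right]
          field_simp
        rw [h2, this, mul_zero]
    have hwz : w = z + ⟪a, f u⟫ • f u := by rw [hz]; abel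
    have hfs : ∑ i, ∑ j, (lG f u)⁻¹ i j * lG f u i j = finrank ℝ V := by
      have : ∀ i, ∑ j, (lG f u)⁻¹ i j * lG f u i j = 1 := by
        intro i
        have h1 : ((lG f u)⁻¹ * lG f u) i i = 1 := by
          rw [Matrix.nonsing_inv_mul _ (isUnit_iff_ne_zero.mpr hG.ne')]; simp
        rw [Matrix.mul_apply] at h1
        rw [← h1]
        exact Finset.sum_congr rfl fun j _ => by rw [lG_symm i j]
      simp [this]
    rw [hwz]
    have h3 : ∀ i j, (lG f u)⁻¹ i j * ⟪lQ f i j u, z + ⟪a, f u⟫ • f u⟫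
        = (lG f u)⁻¹ i j * ⟪lQ f i j u, z⟫
          - ⟪a, f u⟫ * ((lG f u)⁻¹ i j * lG f u i j) := by
      intro i j
      rw [inner_add_right, inner_smul_right, inner_f_lQ hf hn]
      ring
    simp only [h3, Finset.sum_sub_distrib, ← Finset.mul_sum, hfs, hzsum]
    ring
  -- the computation
  have e0 : ∀ i, fderiv ℝ (fun v => Real.sqrt (lG f v).det * lW f a i v) u
      (stdOrthonormalBasis ℝ V i)
      = Real.sqrt (lG f u).det * (
        (∑ j, (lG f u)⁻¹ i j * ⟪lQ f i j u, w⟫)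
        + (lW f a i u * (∑ j, ∑ k, (lG f u)⁻¹ j k * ⟪lQ f i j u, lP f k u⟫)
        - ∑ j, ∑ k, (lG f u)⁻¹ i j * (⟪lQ f i k u, lP f j u⟫ * lW f a k u))) := by
    intro i
    rw [fderiv_fun_mul hS (hW i)]
    simp only [_root_.add_apply, _root_.smul_apply, smul_eq_mul]
    rw [sqrt_deriv hf2 hG, lW_deriv hf2 hG.ne']
    have e1 : ∀ j, ⟪lQ f i j u, w⟫ = ⟪a, lQ f i j u⟫
        - ∑ k, ⟪lQ f i j u, lP f k u⟫ * lW f a k u := by
      intro j
      rw [hw, inner_sub_right, real_inner_comm a, lT, inner_sum]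
      congr 1
      refine Finset.sum_congr rfl fun k _ => ?_
      rw [inner_smul_right, mul_comm]
    simp only [e1, add_mul, Finset.sum_add_distrib, mul_sub, mul_add, Finset.sum_sub_distrib,
      Finset.mul_sum]
    ring_nf
  simp only [e0]
  rw [← Finset.mul_sum, Finset.sum_add_distrib, hsum, Finset.sum_sub_distrib]
  have e2 : ∑ i, lW f a i u * (∑ j, ∑ k, (lG f u)⁻¹ j k * ⟪lQ f i j u, lP f k u⟫)
      = ∑ i, ∑ j, ∑ k, (lG f u)⁻¹ i j * (⟪lQ f i k u, lP f j u⟫ * lW f a k u) := by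
    have c1 : ∑ i, ∑ j, ∑ k, (lG f u)⁻¹ i j * (⟪lQ f i k u, lP f j u⟫ * lW f a k u)
        = ∑ i, ∑ k, ∑ j, (lG f u)⁻¹ i j * (⟪lQ f i k u, lP f j u⟫ * lW f a k u) :=
      Finset.sum_congr rfl fun i _ => Finset.sum_comm
    rw [c1, Finset.sum_comm]
    refine Finset.sum_congr rfl fun i _ => ?_
    rw [Finset.mul_sum]
    refine Finset.sum_congr rfl fun j _ => ?_
    rw [Finset.mul_sum]
    refine Finset.sum_congr rfl fun k _ => ?_
    rw [lQ_symm hf2 i j]
    ring
  rw [e2]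
  ring

end Local

end Vale.Agent.P224.FV
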