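import Vale.Agent.P224.FV.JLow
import Vale.Agent.P224.Numerics

/-!
Balanced data have at least 95 percent of the least Clifford volume.
-/

namespace Vale.Agent.P224.FV

open Real Set Filter MeasureTheory
open scoped Topology RealInnerProductSpace

set_option linter.unusedSectionVars false

lemma evenRatio_mono (k j : ℕ) : evenRatio (k + 2 * j) ≤ evenRatio k := by
  induction j with
  | zero => simp
  | succ j ih =>
    rw [show k + 2 * (j + 1) = (k + 2 * j) + 2 by ring]
    exact (evenRatio_anti _).trans ih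

lemma even_group {k k0 : ℕ} (hk0 : 1 ≤ k0) (h : k0 ≤ k) (hpar : k % 2 = k0 % 2) {ρ : ℝ}
    (hρ : evenRatio k0 ≤ ρ) : leastClifford (2 * k) ≤ ρ * sphereVol (2 * k) := by
  obtain ⟨j, rfl⟩ : ∃ j, k = k0 + 2 * j := ⟨(k - k0) / 2, by omega⟩
  exact even_bound (by omega) ((evenRatio_mono k0 j).trans hρ)

lemma evenRatio_eight' : evenRatio 8 ≤ 1.43639 := by
  rw [show (8 : ℕ) = 6 + 2 by norm_num, evenRatio_rec, evenRatio_six]
  norm_num

lemma evenRatio_zero : evenRatio 0 = 2 := by
  have h := evenRatio_rec 0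
  rw [show 0 + 2 = 2 by norm_num, evenRatio_two] at h
  norm_num at h
  linarith

lemma evenRatio_twenty : evenRatio 20 ≤ 1.42308 := by
  rw [show (20 : ℕ) = 6 + 2 + 2 + 2 + 2 + 2 + 2 + 2 by norm_num]
  simp only [evenRatio_rec, evenRatio_zero]
  norm_num

lemma evenRatio_nine : evenRatio 9 ≤ 1.43393 := by
  rw [show (9 : ℕ) = 5 + 2 + 2 by norm_num]
  simp only [evenRatio_rec, evenRatio_one]
  have := Real.pi_lt_d6
  norm_num
  linarith

lemma evenRatio_twentyone : evenRatio 21 ≤ 1.42266 := by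
  rw [show (21 : ℕ) = 5 + 2 + 2 + 2 + 2 + 2 + 2 + 2 + 2 by norm_num]
  simp only [evenRatio_rec, evenRatio_one]
  have := Real.pi_lt_d6
  norm_num
  linarith

lemma odd_group {k K : ℕ} (hK : K ≤ k) (hk : 1 ≤ k) {B C : ℝ} (hB : 0 ≤ B)
    (hC : Real.exp (1 / (2 * (K : ℝ) + 1) + 1 / (2 * (K : ℝ) + 1) ^ 2) ≤ C)
    (h : 4 * C ≤ B ^ 4) : leastClifford (2 * k + 1) ≤ B * sphereVol (2 * k + 1) :=
  odd_bound hk (oddRatio_le hB hK (by linarith))

lemma kap_le {m M : ℕ} (h : m ≤ M) : 1.7854 - 0.64269 / ((m : ℝ) + 2)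
    ≤ 1.7854 - 0.64269 / ((M : ℝ) + 2) := by
  have : (m : ℝ) ≤ M := by exact_mod_cast h
  gcongr

lemma kap_le' (m : ℕ) : 1.7854 - 0.64269 / ((m : ℝ) + 2) ≤ 1.7854 := by
  have : (0 : ℝ) ≤ 0.64269 / ((m : ℝ) + 2) := by positivity
  linarith

lemma group_fin {m M : ℕ} {ρ : ℝ} (hρ : 0 ≤ ρ) (h1 : leastClifford m ≤ ρ * sphereVol m)
    (h : m ≤ M) (h2 : ρ * (1.7854 - 0.64269 / ((M : ℝ) + 2)) ≤ 2.54127) :
    ∃ ρ : ℝ, 0 ≤ ρ ∧ leastClifford m ≤ ρ * sphereVol m ∧
      ρ * (1.7854 - 0.64269 / ((m : ℝ) + 2)) ≤ 2.54127 :=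
  ⟨ρ, hρ, h1, (mul_le_mul_of_nonneg_left (kap_le h) hρ).trans h2⟩

lemma group_inf {m : ℕ} {ρ : ℝ} (hρ : 0 ≤ ρ) (h1 : leastClifford m ≤ ρ * sphereVol m)
    (h2 : ρ * 1.7854 ≤ 2.54127) :
    ∃ ρ : ℝ, 0 ≤ ρ ∧ leastClifford m ≤ ρ * sphereVol m ∧
      ρ * (1.7854 - 0.64269 / ((m : ℝ) + 2)) ≤ 2.54127 :=
  ⟨ρ, hρ, h1, (mul_le_mul_of_nonneg_left (kap_le' m) hρ).trans h2⟩

/-- upper bounds for the least Clifford volume -/
theorem exists_ratio (m : ℕ) (hm : 4 ≤ m) : ∃ ρ : ℝ, 0 ≤ ρ ∧
    leastClifford m ≤ ρ * sphereVol m ∧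
      ρ * (1.7854 - 0.64269 / ((m : ℝ) + 2)) ≤ 2.54127 := by
  have hp := Real.pi_lt_d6
  rcases Nat.even_or_odd' m with ⟨k, rfl | rfl⟩
  · rcases Nat.mod_two_eq_zero_or_one k with hk | hk
    · rcases Nat.lt_or_ge k 4 with h | h
      · obtain rfl : k = 2 := by omega
        exact group_fin (M := 4) (by norm_num)
          (even_bound (k := 2) (B := 1.5) (by norm_num) (by rw [evenRatio_two]; norm_num)) le_rfl
          (by norm_num)
      rcases Nat.lt_or_ge k 8 with h8 | h8
      · exact group_fin (M := 12) (by norm_num)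
          (even_group (k0 := 4) (by norm_num) h hk evenRatio_four.le) (by omega) (by norm_num)
      rcases Nat.lt_or_ge k 20 with h20 | h20
      · exact group_fin (M := 36) (by norm_num)
          (even_group (k0 := 8) (by norm_num) h8 hk evenRatio_eight') (by omega) (by norm_num)
      · exact group_inf (by norm_num)
          (even_group (k0 := 20) (by norm_num) h20 hk evenRatio_twenty) (by norm_num)
    · rcases Nat.lt_or_ge k 5 with h | h
      · obtain rfl : k = 3 := by omega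
        exact group_fin (M := 6) (ρ := 1.473) (by norm_num)
          (even_bound (k := 3) (by norm_num) (by rw [evenRatio_three]; linarith)) le_rfl
          (by norm_num)
      rcases Nat.lt_or_ge k 9 with h9 | h9
      · exact group_fin (M := 14) (ρ := 1.4497) (by norm_num)
          (even_group (k0 := 5) (by norm_num) h hk (by rw [evenRatio_five]; linarith)) (by omega)
          (by norm_num)
      rcases Nat.lt_or_ge k 21 with h21 | h21
      · exact group_fin (M := 38) (by norm_num)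
          (even_group (k0 := 9) (by norm_num) h9 hk evenRatio_nine) (by omega) (by norm_num)
      · exact group_inf (by norm_num)
          (even_group (k0 := 21) (by norm_num) h21 hk evenRatio_twentyone) (by norm_num)
  · rcases Nat.lt_or_ge k 3 with h | h
    · obtain rfl : k = 2 := by omega
      refine group_fin (M := 5) (ρ := 1.49) (by norm_num)
        (odd_bound (k := 2) (by norm_num) ?_) le_rfl (by norm_num)
      have h4 := oddRatio_pow_four 2
      have h5 : oddRatio 2 ^ 4 ≤ 1.49 ^ 4 := by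
        rw [h4]
        norm_num
      exact le_of_pow_le_pow_left₀ (by norm_num) (by norm_num) h5
    rcases Nat.lt_or_ge k 4 with h4 | h4
    · exact group_fin (M := 7) (ρ := 1.474) (by norm_num)
        (odd_group (K := 3) (C := 1.1785) h (by omega) (by norm_num)
          (exp_le_of 16 (by positivity) (by norm_num) (by norm_num) (by norm_num) (by norm_num))
          (by norm_num)) (by omega) (by norm_num)
    rcases Nat.lt_or_ge k 6 with h6 | h6
    · exact group_fin (M := 11) (ρ := 1.459) (by norm_num)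
        (odd_group (K := 4) (C := 1.1325) h4 (by omega) (by norm_num)
          (exp_le_of 16 (by positivity) (by norm_num) (by norm_num) (by norm_num) (by norm_num))
          (by norm_num)) (by omega) (by norm_num)
    rcases Nat.lt_or_ge k 11 with h11 | h11
    · exact group_fin (M := 21) (ρ := 1.4443) (by norm_num)
        (odd_group (K := 6) (C := 1.0875) h6 (by omega) (by norm_num)
          (exp_le_of 8 (by positivity) (by norm_num) (by norm_num) (by norm_num) (by norm_num))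
          (by norm_num)) (by omega) (by norm_num)
    rcases Nat.lt_or_ge k 35 with h35 | h35
    · exact group_fin (M := 69) (ρ := 1.4306) (by norm_num)
        (odd_group (K := 11) (C := 1.047) h11 (by omega) (by norm_num)
          (exp_le_of 4 (by positivity) (by norm_num) (by norm_num) (by norm_num) (by norm_num))
          (by norm_num)) (by omega) (by norm_num)
    · exact group_inf (ρ := 1.4205) (by norm_num)
        (odd_group (K := 35) (C := 1.017) h35 (by omega) (by norm_num)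
          (exp_le_of 2 (by positivity) (by norm_num) (by norm_num) (by norm_num) (by norm_num))
          (by norm_num)) (by norm_num)

/-- the constant for the angle pi / 4 -/
lemma const_four {m : ℕ} {S v : ℝ} (hv : 0 < v)
    (h : (1 + sin (π / 4)) * (S * v) ≤ (((1 - 1 / ((m : ℝ) + 2) / 2) * (π / 4)
      - 3 / 2 * (1 / ((m : ℝ) + 2)) * (sin (π / 4) * cos (π / 4)))
      * sin (π / 4) + cos (π / 4) * (1 + 1 / ((m : ℝ) + 2) * sin (π / 4) ^ 2)) * v ^ 2) :
    (1 + √2) * S ≤ (1.7854 - 0.64269 / ((m : ℝ) + 2)) * v := by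
  have hp1 := Real.pi_gt_d6
  have hp2 := Real.pi_lt_d6
  rw [sin_pi_div_four, cos_pi_div_four] at h
  have hs2 : √2 * √2 = 2 := mul_self_sqrt (by norm_num)
  have hs2p : 0 < √2 := by positivity
  set α : ℝ := 1 / ((m : ℝ) + 2) with hα
  have hα0 : 0 ≤ α := by rw [hα]; positivity
  have e0 : (0.64269 : ℝ) / ((m : ℝ) + 2) = 0.64269 * α := by rw [hα]; ring
  have e1 : ((1 - α / 2) * (π / 4) - 3 / 2 * α * (√2 / 2 * (√2 / 2))) * (√2 / 2)
      + √2 / 2 * (1 + α * (√2 / 2) ^ 2)
      = √2 / 2 * (1 + π / 4 - α * (π / 8 + 1 / 4)) := by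
    have : √2 / 2 * (√2 / 2) = 1 / 2 := by linarith
    have h2 : (√2 / 2) ^ 2 = 1 / 2 := by rw [sq]; exact this
    rw [this, h2]; ring
  rw [e1] at h
  have h3 : √2 * ((1 + √2 / 2) * (S * v)) ≤ √2 * (√2 / 2 * (1 + π / 4 - α * (π / 8 + 1 / 4)) * v ^ 2) :=
    mul_le_mul_of_nonneg_left h hs2p.le
  have e2 : √2 * ((1 + √2 / 2) * (S * v)) = (1 + √2) * S * v := by
    calc √2 * ((1 + √2 / 2) * (S * v)) = (√2 + √2 * √2 / 2) * S * v := by ring
      _ = _ := by rw [hs2]; ring
  have e3 : √2 * (√2 / 2 * (1 + π / 4 - α * (π / 8 + 1 / 4)) * v ^ 2)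
      = (1 + π / 4 - α * (π / 8 + 1 / 4)) * v * v := by
    calc √2 * (√2 / 2 * (1 + π / 4 - α * (π / 8 + 1 / 4)) * v ^ 2)
        = (√2 * √2) / 2 * (1 + π / 4 - α * (π / 8 + 1 / 4)) * v * v := by ring
      _ = _ := by rw [hs2]; ring
  rw [e2, e3] at h3
  have h4 := le_of_mul_le_mul_right h3 hv
  refine h4.trans (mul_le_mul_of_nonneg_right ?_ hv.le)
  rw [e0]
  have : α * 0.64269 ≤ α * (π / 8 + 1 / 4) := mul_le_mul_of_nonneg_left (by linarith) hα0
  linarith

/-- trigonometric values at 3 pi / 10 -/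
lemma trig54 : sin (3 * π / 10) = (1 + √5) / 4 ∧ cos (3 * π / 10) ≤ 0.58779 ∧
    0.58778 ≤ cos (3 * π / 10) := by
  have h1 : sin (3 * π / 10) = (1 + √5) / 4 := by
    rw [← cos_pi_div_five, ← cos_pi_div_two_sub]
    congr 1
    ring
  have hc : 0 ≤ cos (3 * π / 10) := cos_nonneg_of_mem_Icc ⟨by linarith [pi_pos], by linarith [pi_pos]⟩
  have h2 : cos (3 * π / 10) ^ 2 = 1 - ((1 + √5) / 4) ^ 2 := by
    rw [← h1]
    have := sin_sq_add_cos_sq (3 * π / 10)
    linarith
  have h5 : √5 * √5 = 5 := mul_self_sqrt (by norm_num)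
  have h5a : √5 ≤ 2.2360680 := by
    rw [sqrt_le_left (by norm_num)]; norm_num
  have h5b : 2.2360679 ≤ √5 := by
    apply le_sqrt_of_sq_le; norm_num
  have h3 : cos (3 * π / 10) ^ 2 = (5 - √5) / 8 := by
    rw [h2]
    linear_combination (-1 / 16) * h5
  refine ⟨h1, ?_, ?_⟩
  · refine le_of_sq_le_sq ?_ (by norm_num)
    rw [h3]; norm_num; linarith
  · refine le_of_sq_le_sq ?_ hc
    rw [h3]; norm_num; linarith

/-- the constant for the angle 3 pi / 10 -/
lemma const_54 {α K0 : ℝ} (hα0 : 0 ≤ α) (hα1 : α ≤ 1 / 4)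
    (hK : ((1 - α / 2) * 0.942478 - 3 / 2 * α * 0.47551) * 0.809018
      + 0.58779 * (1 + α * 0.654511) ≤ K0) :
    ((1 - α / 2) * (3 * π / 10) - 3 / 2 * α * (sin (3 * π / 10) * cos (3 * π / 10)))
      * sin (3 * π / 10) + cos (3 * π / 10) * (1 + α * sin (3 * π / 10) ^ 2) ≤ K0 := by
  obtain ⟨h1, h2, h3⟩ := trig54
  have hp2 := Real.pi_lt_d6
  have h5a : √5 ≤ 2.2360680 := by
    rw [sqrt_le_left (by norm_num)]; norm_num
  have h5b : 2.2360679 ≤ √5 := by
    apply le_sqrt_of_sq_le; norm_num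
  set s := sin (3 * π / 10)
  set c := cos (3 * π / 10)
  have s1 : s ≤ 0.809018 := by rw [h1]; linarith
  have s2 : 0.809016 ≤ s := by rw [h1]; linarith
  have sc : 0.47551 ≤ s * c := by
    calc (0.47551 : ℝ) ≤ 0.809016 * 0.58778 := by norm_num
      _ ≤ s * c := by gcongr
  have ss : s ^ 2 ≤ 0.654511 := by
    calc s ^ 2 ≤ 0.809018 ^ 2 := by gcongr
      _ ≤ _ := by norm_num
  have a1 : (1 - α / 2) * (3 * π / 10) - 3 / 2 * α * (s * c)
      ≤ (1 - α / 2) * 0.942478 - 3 / 2 * α * 0.47551 := by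
    have k1 : (1 - α / 2) * (3 * π / 10) ≤ (1 - α / 2) * 0.942478 :=
      mul_le_mul_of_nonneg_left (by linarith) (by linarith)
    have k2 : 3 / 2 * α * 0.47551 ≤ 3 / 2 * α * (s * c) :=
      mul_le_mul_of_nonneg_left sc (by positivity)
    linarith
  have a0 : 0 ≤ (1 - α / 2) * 0.942478 - 3 / 2 * α * 0.47551 := by
    linarith
  have a2 : ((1 - α / 2) * (3 * π / 10) - 3 / 2 * α * (s * c)) * s
      ≤ ((1 - α / 2) * 0.942478 - 3 / 2 * α * 0.47551) * 0.809018 :=
    (mul_le_mul_of_nonneg_right a1 (by linarith)).trans (mul_le_mul_of_nonneg_left s1 a0)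
  have a3 : c * (1 + α * s ^ 2) ≤ 0.58779 * (1 + α * 0.654511) := by
    have : α * s ^ 2 ≤ α * 0.654511 := mul_le_mul_of_nonneg_left ss hα0
    refine mul_le_mul h2 (by linarith) (by positivity) (by norm_num)
  linarith

section

variable {X : Type*} [MeasurableSpace X] {E : Type*} [NormedAddCommGroup E]
  [InnerProductSpace ℝ E] [FiniteDimensional ℝ E] [MeasurableSpace E] [BorelSpace E]
  {μ : Measure X} [IsFiniteMeasure μ] {m : ℕ} {p n : X → E}

lemma fin54 {a K ρ S v s : ℝ} (hS : 0 ≤ S) (hv : 0 < v) (hs : 0.809 ≤ s)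
    (ha : a ≤ ρ * S) (h : (1 + s) * (S * v) ≤ K * v ^ 2) (hK : 0.95 * ρ * K ≤ 1.809)
    (hK0 : 0 < K) : 0.95 * a ≤ v := by
  have h1 : (1 + s) * S * v ≤ K * v * v := by
    calc _ = (1 + s) * (S * v) := by ring
      _ ≤ _ := h
      _ = _ := by ring
  have h2 := le_of_mul_le_mul_right h1 hv
  have h3 : 1.809 * S ≤ (1 + s) * S := mul_le_mul_of_nonneg_right (by linarith) hS
  have h4 : K * (0.95 * (ρ * S)) ≤ K * v := by
    calc K * (0.95 * (ρ * S)) = 0.95 * ρ * K * S := by ring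
      _ ≤ 1.809 * S := mul_le_mul_of_nonneg_right hK hS
      _ ≤ _ := h3.trans h2
  have h5 := le_of_mul_le_mul_left h4 hK0
  linarith

/-- balanced data: at least 95 percent of the least Clifford volume -/
theorem TwoPt.bound_near (h : TwoPt μ m p n) (hm : 2 ≤ m) (hE : Module.finrank ℝ E = m + 2)
    (h0 : RR μ p n 0 = 0)
    (hL : ∀ ε > 0, ∀ᶠ φ in 𝓝[<] (π / 2), sphereVol m * μ.real univ - ε ≤ JJ μ m p φ)
    (hJB : ∀ ε > 0, ∀ᶠ φ in 𝓝[<] (π / 2), |JJ μ m p φ - BB μ m p n φ| ≤ ε)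
    (hμ : 0 < μ.real univ) :
    0.95 * leastClifford m ≤ μ.real univ := by
  have hpi := pi_pos
  have hS := (sphereVol_pos' m).le
  have hp2 := Real.pi_lt_d6
  have h5a : √5 ≤ 2.2360680 := by
    rw [sqrt_le_left (by norm_num)]; norm_num
  have h5b : 2.2360679 ≤ √5 := by
    apply le_sqrt_of_sq_le; norm_num
  rcases Nat.lt_or_ge m 4 with h4 | h4
  · have hφ : 3 * π / 10 ∈ Ioo 0 (π / 2) := ⟨by positivity, by linarith⟩
    have key := h.bound_low (by omega) hE h0 hφ hL hJB
    have hs : 0.809 ≤ sin (3 * π / 10) := by rw [trig54.1]; linarith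
    rcases Nat.lt_or_ge m 3 with h3 | h3
    · obtain rfl : m = 2 := by omega
      have hK := const_54 (α := 1 / ((2 : ℕ) + 2)) (K0 := 1.20690) (by norm_num) (by norm_num)
        (by norm_num)
      have hr : leastClifford 2 ≤ 1.5708 * sphereVol 2 :=
        even_bound (k := 1) (by norm_num) (by rw [evenRatio_one]; linarith)
      refine fin54 (K := 1.20690) hS hμ hs hr (key.trans ?_) (by norm_num) (by norm_num)
      exact mul_le_mul_of_nonneg_right hK (by positivity)
    · obtain rfl : m = 3 := by omega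
      have hK := const_54 (α := 1 / ((3 : ℕ) + 2)) (K0 := 1.23560) (by norm_num) (by norm_num)
        (by norm_num)
      have hr : leastClifford 3 ≤ 1.54 * sphereVol 3 := by
        refine odd_bound (k := 1) (by norm_num) ?_
        have h4 := oddRatio_pow_four 1
        have h5 : oddRatio 1 ^ 4 ≤ 1.54 ^ 4 := by
          rw [h4]
          norm_num
        exact le_of_pow_le_pow_left₀ (by norm_num) (by norm_num) h5
      refine fin54 (K := 1.23560) hS hμ hs hr (key.trans ?_) (by norm_num) (by norm_num)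
      exact mul_le_mul_of_nonneg_right hK (by positivity)
  · have hφ : π / 4 ∈ Ioo 0 (π / 2) := ⟨by positivity, by linarith⟩
    have key := const_four hμ (h.bound_low (by omega) hE h0 hφ hL hJB)
    obtain ⟨ρ, hρ0, hρ1, hρ2⟩ := exists_ratio m h4
    have hs2 : 1.41421356 ≤ √2 := by
      apply le_sqrt_of_sq_le; norm_num
    set κ : ℝ := 1.7854 - 0.64269 / ((m : ℝ) + 2) with hκ
    have hκ0 : 0 < κ := by
      have : (0.64269 : ℝ) / ((m : ℝ) + 2) ≤ 0.64269 / 2 := by
        gcongr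
        linarith [Nat.cast_nonneg (α := ℝ) m]
      rw [hκ]; linarith
    have h1 : κ * (0.95 * (ρ * sphereVol m)) ≤ κ * μ.real univ := by
      calc κ * (0.95 * (ρ * sphereVol m)) = 0.95 * (ρ * κ) * sphereVol m := by ring
        _ ≤ 0.95 * 2.54127 * sphereVol m := by gcongr
        _ ≤ (1 + √2) * sphereVol m := by gcongr; linarith
        _ ≤ _ := key
    have h2 := le_of_mul_le_mul_left h1 hκ0
    linarith

end

end Vale.Agent.P224.FV
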