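import Vale.Agent.P224.FV.Inst
import Vale.Agent.P224.FV.Bounds3
import Vale.Agent.P224.FV.Near

namespace Vale.Agent.P224.FV

open MeasureTheory Set Real Filter Module
open scoped RealInnerProductSpace Topology ContDiff Manifold

set_option linter.unusedSectionVars false

section

variable {V W M : Type*} [NormedAddCommGroup V] [InnerProductSpace ℝ V] [FiniteDimensional ℝ V]
  [NormedAddCommGroup W] [InnerProductSpace ℝ W] [FiniteDimensional ℝ W]
  [TopologicalSpace M] [ChartedSpace V M]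
  [MeasurableSpace V] [BorelSpace V] [MeasurableSpace M] [BorelSpace M]

lemma V1_zero {F : M → W} (z : M) (m : ℕ) : V1 (volM V F) m F z 0 = (volM V F).real univ := by
  unfold V1 cf
  simp

/-- a point of the image with two preimages -/
theorem two_le_of_double [MeasurableSpace W] [BorelSpace W] [IsManifold 𝓘(ℝ, V) ∞ M]
    [CompactSpace M] [T2Space M] (hm : 1 ≤ finrank ℝ V)
    (hW : finrank ℝ W = finrank ℝ V + 2) {F : M → W}
    (hF : SphImm V F) {N : M → W} (hT : TwoPt (volM V F) (finrank ℝ V) F N)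
    {z z' : M} (hne : z' ≠ z) (hz : F z' = F z) :
    2 * sphereVol (finrank ℝ V) ≤ (volM V F).real univ := by
  have h := V1_ge hm hF hT z (fun ε hε => limit_two hm hW hF hne hz hε) (φ := 0)
    ⟨le_rfl, by positivity⟩
  rwa [V1_zero] at h

lemma one_le [MeasurableSpace W] [BorelSpace W] [IsManifold 𝓘(ℝ, V) ∞ M]
    [CompactSpace M] [T2Space M] [Nonempty M] (hm : 1 ≤ finrank ℝ V)
    (hW : finrank ℝ W = finrank ℝ V + 2) {F : M → W}
    (hF : SphImm V F) {N : M → W} (hT : TwoPt (volM V F) (finrank ℝ V) F N) :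
    sphereVol (finrank ℝ V) ≤ (volM V F).real univ := by
  obtain ⟨z⟩ := ‹Nonempty M›
  have h := V1_ge hm hF hT z (fun ε hε => limit_one hm hW hF z hε) (φ := 0)
    ⟨le_rfl, by positivity⟩
  rwa [V1_zero] at h

lemma JJ_fubini [MeasurableSpace W] [BorelSpace W] [IsManifold 𝓘(ℝ, V) ∞ M]
    [CompactSpace M] {F : M → W} (hF : SphImm V F) {N : M → W}
    (hT : TwoPt (volM V F) (finrank ℝ V) F N) {φ : ℝ} (hφ : φ ∈ Ioo (-(π / 2)) (π / 2)) :
    Integrable (fun z => V1 (volM V F) (finrank ℝ V) F z φ) (volM V F) ∧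
    JJ (volM V F) (finrank ℝ V) F φ = ∫ z, V1 (volM V F) (finrank ℝ V) F z φ ∂(volM V F) := by
  have hfin : IsFiniteMeasure (volM V F) := isFiniteMeasure_volM hF
  have i1 := hT.integrable_ker (g := fun _ => cos φ ^ finrank ℝ V) measurable_const
    (fun q => by
      rw [abs_pow]
      exact (pow_le_one₀ (abs_nonneg _) (abs_cos_le_one φ)).trans (by norm_num)) hφ
    (finrank ℝ V)
  have e : (fun q : M × M => cos φ ^ finrank ℝ V / (1 - ⟪F q.1, F q.2⟫ * sin φ) ^ finrank ℝ V)
      = fun q : M × M => cf φ ⟪F q.1, F q.2⟫ ^ finrank ℝ V := by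
    funext q
    unfold cf
    rw [div_pow]
  rw [e] at i1
  constructor
  · exact i1.integral_prod_right
  · unfold JJ
    rw [integral_prod_symm _ i1]
    rfl

/-- the limits of the two point functions -/
theorem limits [MeasurableSpace W] [BorelSpace W] [IsManifold 𝓘(ℝ, V) ∞ M]
    [CompactSpace M] [T2Space M] (hm : 1 ≤ finrank ℝ V)
    (hW : finrank ℝ W = finrank ℝ V + 2) {F : M → W}
    (hF : SphImm V F) {N : M → W} (hNc : Continuous N)
    (hT : TwoPt (volM V F) (finrank ℝ V) F N) (hinj : Function.Injective F) :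
    (∀ ε > 0, ∀ᶠ φ in 𝓝[<] (π / 2), sphereVol (finrank ℝ V) * (volM V F).real univ - ε ≤
      JJ (volM V F) (finrank ℝ V) F φ) ∧
    (∀ ε > 0, ∀ᶠ φ in 𝓝[<] (π / 2), |JJ (volM V F) (finrank ℝ V) F φ -
      BB (volM V F) (finrank ℝ V) F N φ| ≤ ε) := by
  have hfin : IsFiniteMeasure (volM V F) := isFiniteMeasure_volM hF
  have hcF : Continuous F := hF.smooth.continuous
  have hpi := pi_pos
  have h0 : ∀ᶠ φ in 𝓝[<] (π / 2), φ ∈ Ioo 0 (π / 2) := Ioo_mem_nhdsLT (by positivity)
  constructor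
  · intro ε hε
    filter_upwards [h0] with φ hφ
    obtain ⟨i1, e1⟩ := JJ_fubini hF hT (φ := φ) ⟨by linarith [hφ.1], hφ.2⟩
    rw [e1]
    have h1 : ∫ _z : M, sphereVol (finrank ℝ V) ∂(volM V F) ≤
        ∫ z, V1 (volM V F) (finrank ℝ V) F z φ ∂(volM V F) := by
      refine integral_mono (integrable_const _) i1 fun z => ?_
      exact V1_ge hm hF hT z (fun ε hε => limit_one hm hW hF z hε) ⟨hφ.1.le, hφ.2⟩
    rw [integral_const, smul_eq_mul] at h1
    linarith
  · intro ε hε
    refine limit_JB (C := (volM V F).real univ ^ 2) hm hcF hNc hcF.measurable hNc.measurable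
      hinj hF.unit hT.nn ?_ hε
    intro φ hφ
    obtain ⟨a, b, hab⟩ := hT.main
    rw [← JJ_zero (m := finrank ℝ V) (p := F)]
    have hsub : ∀ ψ ∈ Ico 0 (π / 2), ψ ∈ Ioo (-(π / 2)) (π / 2) := fun ψ hψ =>
      ⟨by linarith [hψ.1], hψ.2⟩
    have hanti : AntitoneOn (JJ (volM V F) (finrank ℝ V) F) (Ico 0 (π / 2)) := by
      refine antitoneOn_of_deriv_nonpos (convex_Ico 0 (π / 2)) ?_ ?_ ?_
      · exact fun ψ hψ => (hab ψ (hsub ψ hψ)).1.continuousAt.continuousWithinAt
      · intro ψ hψ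
        rw [interior_Ico] at hψ
        exact (hab ψ (hsub ψ ⟨hψ.1.le, hψ.2⟩)).1.differentiableAt.differentiableWithinAt
      · intro ψ hψ
        rw [interior_Ico] at hψ
        have hψ' := hsub ψ ⟨hψ.1.le, hψ.2⟩
        rw [(hab ψ hψ').1.deriv]
        have h1 : 0 ≤ sin ψ := sin_nonneg_of_nonneg_of_le_pi hψ.1.le (by linarith [hψ.2])
        have h2 : 0 ≤ a ψ := (abs_nonneg _).trans (hab ψ hψ').2.2
        have := mul_nonneg h1 h2
        linarith
    exact hanti ⟨le_rfl, by positivity⟩ hφ hφ.1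

lemma integral_eq_zero_of_inner {μ : Measure M} {N : M → W} (hN : Integrable N μ)
    (h : ∀ a, ∫ x, ⟪N x, a⟫ ∂μ = 0) : ∫ x, N x ∂μ = 0 := by
  have h1 : ⟪∫ x, N x ∂μ, ∫ x, N x ∂μ⟫ = 0 := by
    rw [real_inner_comm, ← integral_inner hN, ← h (∫ x, N x ∂μ)]
    refine integral_congr_ae ?_
    filter_upwards with x
    rw [real_inner_comm]
  exact inner_self_eq_zero.mp h1

lemma RR_zero_of [MeasurableSpace W] [BorelSpace W] {m : ℕ} {F N : M → W}
    (hT : TwoPt (volM V F) m F N) [IsFiniteMeasure (volM V F)]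
    (h : ∀ a, ∫ x, ⟪N x, a⟫ ∂(volM V F) = 0) : RR (volM V F) F N 0 = 0 := by
  rw [RR_eq]
  have i1 := hT.integrable_RR (μ := volM V F) 0
  simp only [pow_zero, one_mul] at i1 ⊢
  rw [integral_prod_symm _ i1]
  simp only [h, integral_zero]

lemma RR_one_of [MeasurableSpace W] [BorelSpace W] {m : ℕ} {F N : M → W}
    (hT : TwoPt (volM V F) m F N) [IsFiniteMeasure (volM V F)]
    (h : ∀ a b, ∫ x, ⟪F x, a⟫ * ⟪N x, b⟫ ∂(volM V F) = 0) : RR (volM V F) F N 1 = 0 := by
  rw [RR_eq]
  have i1 := hT.integrable_RR (μ := volM V F) 1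
  simp only [pow_one] at i1 ⊢
  rw [integral_prod_symm _ i1]
  simp only [h, integral_zero]

lemma leastClifford_nonneg (m : ℕ) : 0 ≤ leastClifford m :=
  Real.iInf_nonneg fun k => cliffordVol_nonneg' m k

lemma leastClifford_lt_two {m : ℕ} (hm : 2 ≤ m) : leastClifford m ≤ 2 * sphereVol m := by
  have hs := sphereVol_pos' m
  have key : ∃ C : ℝ, C ≤ 2 ∧ leastClifford m ≤ C * sphereVol m := by
    rcases Nat.lt_or_ge m 3 with h3 | h3
    · obtain rfl : m = 2 := by omega
      exact ⟨_, by norm_num, ratio2⟩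
    rcases Nat.lt_or_ge m 4 with h4 | h4
    · obtain rfl : m = 3 := by omega
      exact ⟨_, by norm_num, ratio3⟩
    rcases Nat.lt_or_ge m 9 with h9 | h9
    · exact ⟨_, by norm_num, ratio4to8 m h4 (by omega)⟩
    rcases Nat.lt_or_ge m 13 with h13 | h13
    · exact ⟨_, by norm_num, ratio9to12 m h9 (by omega)⟩
    · exact ⟨_, by norm_num, ratio12 m (by omega)⟩
  obtain ⟨C, h1, h2⟩ := key
  exact h2.trans (by gcongr)

/-- the balanced class -/
theorem main_C [IsManifold 𝓘(ℝ, V) ∞ M] [CompactSpace M] [T2Space M] [Nonempty M]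
    (hm : 2 ≤ finrank ℝ V) (hW : finrank ℝ W = finrank ℝ V + 2) {F : M → W}
    (hF : SphImm V F) (hmin : ∀ x n, IsUnitNormal V F x n → meanCurv V F x n = 0)
    {N : M → W} (hNs : ContMDiff 𝓘(ℝ, V) 𝓘(ℝ, W) ∞ N) (hN : ∀ x, IsUnitNormal V F x (N x))
    (h0 : ∀ a, ∫ x, ⟪N x, a⟫ ∂(volM V F) = 0) :
    ENNReal.ofReal (0.95 * leastClifford (finrank ℝ V)) ≤ volM V F univ ∧
    ((∀ a b, ∫ x, ⟪F x, a⟫ * ⟪N x, b⟫ ∂(volM V F) = 0) →
      ENNReal.ofReal (leastClifford (finrank ℝ V)) ≤ volM V F univ) := by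
  borelize W
  have hm1 : 1 ≤ finrank ℝ V := by omega
  have hfin : IsFiniteMeasure (volM V F) := isFiniteMeasure_volM hF
  have hT := twoPt_of_min hm1 hW hF hmin hNs hN
  have hs := sphereVol_pos' (finrank ℝ V)
  have h1 := one_le hm1 hW hF hT
  have hpos : 0 < (volM V F).real univ := hs.trans_le h1
  have hconv : ∀ c : ℝ, c ≤ (volM V F).real univ → ENNReal.ofReal c ≤ volM V F univ := by
    intro c hc
    exact ENNReal.ofReal_le_of_le_toReal hc
  by_cases hinj : Function.Injective F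
  · obtain ⟨hL, hJB⟩ := limits hm1 hW hF hNs.continuous hT hinj
    have hR0 := RR_zero_of hT h0
    constructor
    · apply hconv
      exact hT.bound_near hm hW hR0 hL hJB hpos
    · intro h2
      apply hconv
      exact hT.bound_clifford hm hW hR0 (RR_one_of hT h2) hL hJB hpos
  · simp only [Function.Injective, not_forall] at hinj
    obtain ⟨z', z, hz, hne⟩ := hinj
    have h2 := two_le_of_double hm1 hW hF hT hne hz
    constructor
    · apply hconv
      exact (by linarith [leastClifford_nonneg (finrank ℝ V), leastClifford_lt_two hm] :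
        0.95 * leastClifford (finrank ℝ V) ≤ 2 * sphereVol (finrank ℝ V)).trans h2
    · intro _
      apply hconv
      exact (leastClifford_lt_two hm).trans h2

end

end Vale.Agent.P224.FV
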