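import Vale.Agent.P224.FV.Stokes
import Vale.Agent.P224.Pointwise

namespace Vale.Agent.P224.FV

open Matrix MeasureTheory Module Function Set
open scoped RealInnerProductSpace Topology ContDiff Manifold

set_option linter.unusedSectionVars false

section

variable {V W M : Type*} [NormedAddCommGroup V] [InnerProductSpace ℝ V] [FiniteDimensional ℝ V]
  [NormedAddCommGroup W] [InnerProductSpace ℝ W] [FiniteDimensional ℝ W]
  {X : Type*} [NormedAddCommGroup X] [NormedSpace ℝ X]
  [TopologicalSpace M] [ChartedSpace V M]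

lemma lP_eq_pd (f : V → W) (i : Fin (finrank ℝ V)) : lP f i = pd f i := rfl

lemma lG_eq_metricMat (f : V → W) (u : V) : lG f u = metricMat f u := rfl

lemma fderiv_vW (f : V → W) (a : W) (u : V) : fderiv ℝ f u (vW f a u) = lT f a u := by
  simp only [vW, lT, map_sum, map_smul, lP]

lemma inner_fderiv_sub_lT {f : V → W} {u : V} (h : Function.Injective (fderiv ℝ f u)) (a : W)
    (v : V) : ⟪fderiv ℝ f u v, a - lT f a u⟫ = 0 := by
  have hv : v = ∑ i, (stdOrthonormalBasis ℝ V).repr v i • stdOrthonormalBasis ℝ V i :=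
    ((stdOrthonormalBasis ℝ V).sum_repr v).symm
  rw [hv, map_sum, sum_inner]
  refine Finset.sum_eq_zero fun i _ => ?_
  rw [map_smul, inner_smul_left]
  have : ⟪fderiv ℝ f u (stdOrthonormalBasis ℝ V i), a - lT f a u⟫ = 0 := by
    have h1 := inner_lT (lG_det_pos h).ne' a i
    rw [inner_sub_right]
    change ⟪lP f i u, a⟫ - ⟪lP f i u, lT f a u⟫ = 0
    rw [h1, real_inner_comm, sub_self]
  rw [this, mul_zero]

lemma eq_of_proj {S : Submodule ℝ W} {a t₁ t₂ : W} (h1 : t₁ ∈ S) (h2 : t₂ ∈ S)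
    (o1 : ∀ s ∈ S, ⟪s, a - t₁⟫ = 0) (o2 : ∀ s ∈ S, ⟪s, a - t₂⟫ = 0) : t₁ = t₂ := by
  have h3 : t₁ - t₂ ∈ S := S.sub_mem h1 h2
  have h4 : ⟪t₁ - t₂, t₁ - t₂⟫ = 0 := by
    have := o1 _ h3
    have h5 := o2 _ h3
    have h6 : t₁ - t₂ = (a - t₂) - (a - t₁) := by abel
    rw [h6] at this h5 ⊢
    rw [inner_sub_right, h5, this]; simp
  exact sub_eq_zero.mp (inner_self_eq_zero.mp h4)

variable (V) in
/-- derivative of h at p in the direction of the tangential part of a -/
noncomputable def dl (F : M → W) (a : W) (h : M → X) (p : M) : X :=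
  fderiv ℝ (rep (V := V) h p) (chartAt V p p) (vW (rep (V := V) F p) a (chartAt V p p))

lemma rep_contDiffOn [IsManifold 𝓘(ℝ, V) ∞ M] {n : ℕ∞} {h : M → X}
    (hh : ContMDiff 𝓘(ℝ, V) 𝓘(ℝ, X) n h) (x : M) :
    ContDiffOn ℝ n (rep (V := V) h x) (chartAt V x).target := by
  rw [← contMDiffOn_iff_contDiffOn]
  have : ContMDiffOn 𝓘(ℝ, V) 𝓘(ℝ, V) n (chartAt V x).symm (chartAt V x).target :=
    (contMDiffOn_chart_symm (n := ∞)).of_le (by exact_mod_cast le_top)
  exact hh.comp_contMDiffOn this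

lemma rep_comp (h : M → X) {x p : M} (hp : p ∈ (chartAt V x).source) :
    rep (V := V) h p =ᶠ[𝓝 (chartAt V p p)]
      rep (V := V) h x ∘ ((chartAt V x) ∘ (chartAt V p).symm) := by
  have hps : p ∈ (chartAt V p).source := mem_chart_source _ p
  have h1 : ∀ᶠ v in 𝓝 (chartAt V p p), (chartAt V p).symm v ∈ (chartAt V x).source := by
    have : ContinuousAt (chartAt V p).symm (chartAt V p p) :=
      (chartAt V p).continuousAt_symm ((chartAt V p).map_source hps)
    apply this.eventually_mem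
    rw [(chartAt V p).left_inv hps]
    exact (chartAt V x).open_source.mem_nhds hp
  filter_upwards [h1] with v hv
  simp only [Function.comp_apply, rep]
  rw [(chartAt V x).left_inv hv]

lemma trans_apply (x p : M) :
    ((chartAt V x) ∘ (chartAt V p).symm) (chartAt V p p) = chartAt V x p := by
  simp only [Function.comp_apply]
  rw [(chartAt V p).left_inv (mem_chart_source _ p)]

lemma fderiv_rep_comp [IsManifold 𝓘(ℝ, V) ∞ M] {h : M → X} {x p : M}
    (hp : p ∈ (chartAt V x).source)
    (hd : DifferentiableAt ℝ (rep (V := V) h x) (chartAt V x p)) :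
    fderiv ℝ (rep (V := V) h p) (chartAt V p p)
      = (fderiv ℝ (rep (V := V) h x) (chartAt V x p)).comp
        (fderiv ℝ ((chartAt V x) ∘ (chartAt V p).symm) (chartAt V p p)) := by
  rw [(rep_comp h hp).fderiv_eq]
  have h1 : DifferentiableAt ℝ ((chartAt V x) ∘ (chartAt V p).symm) (chartAt V p p) :=
    (transition_contDiffAt x p hp).differentiableAt (by norm_num)
  rw [← trans_apply (V := V) x p] at hd
  rw [fderiv_comp _ hd h1, trans_apply]

lemma trans_vW [IsManifold 𝓘(ℝ, V) ∞ M] {F : M → W} (hF : SphImm V F) (a : W) {x p : M}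
    (hp : p ∈ (chartAt V x).source) :
    fderiv ℝ ((chartAt V x) ∘ (chartAt V p).symm) (chartAt V p p)
      (vW (rep (V := V) F p) a (chartAt V p p)) = vW (rep (V := V) F x) a (chartAt V x p) := by
  have hx := immV_rep hF x
  have hpp := immV_rep hF p
  have hpT : chartAt V p p ∈ (chartAt V p).target :=
    (chartAt V p).map_source (mem_chart_source _ p)
  have hxT : chartAt V x p ∈ (chartAt V x).target := (chartAt V x).map_source hp
  have hd : DifferentiableAt ℝ (rep (V := V) F x) (chartAt V x p) :=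
    (hx.smooth.contDiffAt (hx.isOpen.mem_nhds hxT)).differentiableAt (by norm_num)
  have hc := fderiv_rep_comp hp hd
  have hix := hx.inj _ hxT
  have hip := hpp.inj _ hpT
  apply hix
  have e1 : fderiv ℝ (rep (V := V) F x) (chartAt V x p)
      (fderiv ℝ ((chartAt V x) ∘ (chartAt V p).symm) (chartAt V p p)
      (vW (rep (V := V) F p) a (chartAt V p p))) = lT (rep (V := V) F p) a (chartAt V p p) := by
    rw [← fderiv_vW, hc]
    rfl
  rw [e1, fderiv_vW]
  -- ranges agree
  have hr : LinearMap.range (fderiv ℝ (rep (V := V) F p) (chartAt V p p)).toLinearMap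
      = LinearMap.range (fderiv ℝ (rep (V := V) F x) (chartAt V x p)).toLinearMap := by
    apply Submodule.eq_of_le_of_finrank_eq
    · rw [hc]
      rintro _ ⟨v, rfl⟩
      exact ⟨_, rfl⟩
    · rw [LinearMap.finrank_range_of_inj hip, LinearMap.finrank_range_of_inj hix]
  apply eq_of_proj (S := LinearMap.range (fderiv ℝ (rep (V := V) F x) (chartAt V x p)).toLinearMap)
    (a := a)
  · rw [← hr, ← fderiv_vW]
    exact ⟨_, rfl⟩
  · rw [← fderiv_vW]
    exact ⟨_, rfl⟩
  · rw [← hr]
    rintro _ ⟨v, rfl⟩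
    exact inner_fderiv_sub_lT hip a v
  · rintro _ ⟨v, rfl⟩
    exact inner_fderiv_sub_lT hix a v

/-- chart independence -/
lemma dl_eq [IsManifold 𝓘(ℝ, V) ∞ M] {F : M → W} (hF : SphImm V F) (a : W) {h : M → X} {x p : M}
    (hp : p ∈ (chartAt V x).source)
    (hd : DifferentiableAt ℝ (rep (V := V) h x) (chartAt V x p)) :
    dl V F a h p = fderiv ℝ (rep (V := V) h x) (chartAt V x p)
      (vW (rep (V := V) F x) a (chartAt V x p)) := by
  unfold dl
  rw [fderiv_rep_comp hp hd, ContinuousLinearMap.comp_apply, trans_vW hF a hp]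

lemma rep_differentiableAt [IsManifold 𝓘(ℝ, V) ∞ M] {h : M → X}
    (hh : ContMDiff 𝓘(ℝ, V) 𝓘(ℝ, X) ∞ h) (x : M) {u : V} (hu : u ∈ (chartAt V x).target) :
    DifferentiableAt ℝ (rep (V := V) h x) u :=
  ((rep_contDiffOn hh x).contDiffAt ((chartAt V x).open_target.mem_nhds hu)).differentiableAt
    (by norm_num)

lemma rep_diff_self [IsManifold 𝓘(ℝ, V) ∞ M] {h : M → X}
    (hh : ContMDiff 𝓘(ℝ, V) 𝓘(ℝ, X) ∞ h) (x : M) :
    DifferentiableAt ℝ (rep (V := V) h x) (chartAt V x x) :=
  rep_differentiableAt hh x ((chartAt V x).map_source (mem_chart_source _ x))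

/-- the local data of a minimal immersion -/
lemma locMin_rep [IsManifold 𝓘(ℝ, V) ∞ M] (hW : finrank ℝ W = finrank ℝ V + 2) {F : M → W}
    (hF : SphImm V F) (hmin : ∀ x n, IsUnitNormal V F x n → meanCurv V F x n = 0) (x : M) :
    LocMin (rep (V := V) F x) (chartAt V x).target := by
  have hI := immV_rep hF x
  refine ⟨hI.isOpen, hI.smooth, hI.unit, hI.inj, ?_⟩
  intro u hu n hn1 hn2 hn3
  obtain ⟨h1, h2, -⟩ := pointwise hW hF x hu n hn1 hn2 hn3
  rw [hmin _ _ h1, Matrix.trace] at h2
  simp only [Matrix.diag_apply, Matrix.mul_apply] at h2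
  rw [h2]
  refine Finset.sum_congr rfl fun i _ => Finset.sum_congr rfl fun j _ => ?_
  have hsm : ContDiffAt ℝ 2 (rep (V := V) F x) u :=
    (hI.smooth.contDiffAt (hI.isOpen.mem_nhds hu)).of_le (by norm_cast)
  rw [lQ_symm hsm i j]
  rfl

/-- the derivative field is continuous -/
lemma continuous_dl [IsManifold 𝓘(ℝ, V) ∞ M] {F : M → W} (hF : SphImm V F) (a : W) {h : M → X}
    (hh : ContMDiff 𝓘(ℝ, V) 𝓘(ℝ, X) ∞ h) : Continuous (dl V F a h) := by
  rw [continuous_iff_continuousAt]
  intro x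
  have hI := immV_rep hF x
  have hxs : x ∈ (chartAt V x).source := mem_chart_source _ x
  have hxT : chartAt V x x ∈ (chartAt V x).target := (chartAt V x).map_source hxs
  have h1 : dl V F a h =ᶠ[𝓝 x] fun p => fderiv ℝ (rep (V := V) h x) (chartAt V x p)
      (vW (rep (V := V) F x) a (chartAt V x p)) := by
    filter_upwards [(chartAt V x).open_source.mem_nhds hxs] with p hp
    exact dl_eq hF a hp (rep_differentiableAt hh x ((chartAt V x).map_source hp))
  refine ContinuousAt.congr ?_ h1.symm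
  have hφ : ContinuousAt (chartAt V x) x := (chartAt V x).continuousAt hxs
  have hsm : ContDiffAt ℝ 1 (rep (V := V) F x) (chartAt V x x) :=
    (hI.smooth.contDiffAt (hI.isOpen.mem_nhds hxT)).of_le (by exact_mod_cast le_top)
  have hhm : ContDiffAt ℝ 1 (rep (V := V) h x) (chartAt V x x) :=
    ((rep_contDiffOn hh x).contDiffAt ((chartAt V x).open_target.mem_nhds hxT)).of_le
      (by exact_mod_cast le_top)
  have hc1 : ContinuousAt (fderiv ℝ (rep (V := V) h x)) (chartAt V x x) :=
    (hhm.fderiv_right (m := 0) (by norm_num)).continuousAt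
  have hc2 : ContinuousAt (vW (rep (V := V) F x) a) (chartAt V x x) := by
    have : ContDiffAt ℝ 0 (vW (rep (V := V) F x) a) (chartAt V x x) := by
      unfold vW
      exact ContDiffAt.sum fun i _ =>
        (contDiffAt_lW (n := 0) hsm (lG_det_pos (hI.inj _ hxT)).ne' a i).smul contDiffAt_const
    exact this.continuousAt
  have hc3 : ContinuousAt (fun u => fderiv ℝ (rep (V := V) h x) u
      (vW (rep (V := V) F x) a u)) (chartAt V x x) := hc1.clm_apply hc2
  exact ContinuousAt.comp (f := chartAt V x) hc3 hφ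

end

end Vale.Agent.P224.FV
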