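import Vale.Agent.P224.FV.Fischer

namespace Vale.Agent.P224.FV

set_option linter.unusedSectionVars false

open MvPolynomial Finset MeasureTheory

section

variable {n l : ℕ} {X : Type*} [MeasurableSpace X]

/-- bounded measurable families of polynomials with uniformly finite support -/
structure Good (Φ : X → MvPolynomial (Fin n) ℝ) : Prop where
  meas : ∀ α, Measurable fun p => coeff α (Φ p)
  bdd : ∃ K : ℝ, 0 ≤ K ∧ ∀ α p, |coeff α (Φ p)| ≤ K
  supp : ∃ S : Finset (Fin n →₀ ℕ), ∀ p, ∀ α, α ∉ S → coeff α (Φ p) = 0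

lemma Good.const (q : MvPolynomial (Fin n) ℝ) : Good (fun _ : X => q) where
  meas := fun α => measurable_const
  bdd := by
    refine ⟨∑ α ∈ q.support, |coeff α q|, Finset.sum_nonneg fun _ _ => abs_nonneg _, ?_⟩
    intro α _
    by_cases h : α ∈ q.support
    · exact Finset.single_le_sum (f := fun α => |coeff α q|) (fun _ _ => abs_nonneg _) h
    · rw [MvPolynomial.notMem_support_iff.mp h, abs_zero]
      exact Finset.sum_nonneg fun _ _ => abs_nonneg _
  supp := ⟨q.support, fun _ α h => MvPolynomial.notMem_support_iff.mp h⟩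

lemma Good.add {Φ Ψ : X → MvPolynomial (Fin n) ℝ} (h1 : Good Φ) (h2 : Good Ψ) :
    Good (fun p => Φ p + Ψ p) where
  meas := fun α => by
    simp only [coeff_add]
    exact (h1.meas α).add (h2.meas α)
  bdd := by
    obtain ⟨K1, hK1, b1⟩ := h1.bdd
    obtain ⟨K2, hK2, b2⟩ := h2.bdd
    refine ⟨K1 + K2, add_nonneg hK1 hK2, fun α p => ?_⟩
    rw [coeff_add]
    exact (abs_add_le _ _).trans (add_le_add (b1 α p) (b2 α p))
  supp := by
    classical
    obtain ⟨S1, s1⟩ := h1.supp
    obtain ⟨S2, s2⟩ := h2.supp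
    refine ⟨S1 ∪ S2, fun p α hα => ?_⟩
    rw [Finset.mem_union, not_or] at hα
    rw [coeff_add, s1 p α hα.1, s2 p α hα.2, add_zero]

lemma Good.smul {Φ : X → MvPolynomial (Fin n) ℝ} (h : Good Φ) {f : X → ℝ} (hf : Measurable f)
    {K : ℝ} (hK0 : 0 ≤ K) (hK : ∀ p, |f p| ≤ K) : Good (fun p => C (f p) * Φ p) where
  meas := fun α => by
    simp only [coeff_C_mul]
    exact hf.mul (h.meas α)
  bdd := by
    obtain ⟨K1, hK1, b1⟩ := h.bdd
    refine ⟨K * K1, mul_nonneg hK0 hK1, fun α p => ?_⟩
    rw [coeff_C_mul, abs_mul]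
    exact mul_le_mul (hK p) (b1 α p) (abs_nonneg _) hK0
  supp := by
    obtain ⟨S1, s1⟩ := h.supp
    refine ⟨S1, fun p α hα => ?_⟩
    rw [coeff_C_mul, s1 p α hα, mul_zero]

lemma Good.X_mul {Φ : X → MvPolynomial (Fin n) ℝ} (h : Good Φ) (i : Fin n) :
    Good (fun p => MvPolynomial.X i * Φ p) where
  meas := fun α => by
    classical
    simp only [coeff_X_mul']
    by_cases hi : i ∈ α.support
    · simp only [hi, if_true]; exact h.meas _
    · simp only [hi, if_false]; exact measurable_const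
  bdd := by
    classical
    obtain ⟨K1, hK1, b1⟩ := h.bdd
    refine ⟨K1, hK1, fun α p => ?_⟩
    rw [coeff_X_mul']
    split_ifs
    · exact b1 _ _
    · simpa using hK1
  supp := by
    classical
    obtain ⟨S1, s1⟩ := h.supp
    refine ⟨S1.image (fun β => β + Finsupp.single i 1), fun p α hα => ?_⟩
    rw [coeff_X_mul']
    split_ifs with hi
    · apply s1
      intro hmem
      apply hα
      rw [Finset.mem_image]
      refine ⟨_, hmem, ?_⟩
      apply tsub_add_cancel_of_le
      rw [Finsupp.single_le_iff]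
      exact Nat.one_le_iff_ne_zero.mpr (Finsupp.mem_support_iff.mp hi)
    · rfl

lemma Good.sum {ι : Type*} (s : Finset ι) {Φ : ι → X → MvPolynomial (Fin n) ℝ}
    (h : ∀ i ∈ s, Good (Φ i)) : Good (fun p => ∑ i ∈ s, Φ i p) := by
  classical
  induction s using Finset.induction_on with
  | empty => simpa using Good.const (X := X) (0 : MvPolynomial (Fin n) ℝ)
  | insert a s ha ih =>
    simp only [sum_insert ha]
    exact (h a (mem_insert_self a s)).add (ih fun i hi => h i (mem_insert_of_mem hi))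

lemma Good.lin_mul {x : X → Fin n → ℝ} (hx : Measurable x) (hx1 : ∀ p i, |x p i| ≤ 1)
    {Φ : X → MvPolynomial (Fin n) ℝ} (h : Good Φ) : Good (fun p => lin (x p) * Φ p) := by
  have : (fun p => lin (x p) * Φ p) = fun p => ∑ i, C (x p i) * (MvPolynomial.X i * Φ p) := by
    funext p
    unfold lin
    rw [Finset.sum_mul]
    exact Finset.sum_congr rfl fun i _ => by ring
  rw [this]
  exact Good.sum _ fun i _ => (h.X_mul i).smul ((measurable_pi_apply i).comp hx) zero_le_one
    (fun p => hx1 p i)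

lemma Good.lin_pow {x : X → Fin n → ℝ} (hx : Measurable x) (hx1 : ∀ p i, |x p i| ≤ 1) (k : ℕ) :
    Good (fun p => lin (x p) ^ k) := by
  induction k with
  | zero => simpa using Good.const (X := X) (1 : MvPolynomial (Fin n) ℝ)
  | succ k ih =>
    simp only [pow_succ']
    exact ih.lin_mul hx hx1

lemma Good.nsq_mul {Φ : X → MvPolynomial (Fin n) ℝ} (h : Good Φ) : Good (fun p => nsq * Φ p) := by
  have : (fun p => nsq * Φ p)
      = fun p => ∑ i, (MvPolynomial.X i * (MvPolynomial.X i * Φ p)) := by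
    funext p
    unfold nsq
    rw [Finset.sum_mul]
    exact Finset.sum_congr rfl fun i _ => by ring
  rw [this]
  exact Good.sum _ fun i _ => (h.X_mul i).X_mul i

variable (μ : Measure X) [IsFiniteMeasure μ]

/-- positivity of the Fischer kernel -/
lemma Good.pos {Φ : X → MvPolynomial (Fin n) ℝ} (h : Good Φ) {ν : X → Fin l → ℝ}
    (hν : Measurable ν) (hν1 : ∀ p i, |ν p i| ≤ 1) :
    0 ≤ ∫ q, fB (Φ q.1) (Φ q.2) * (∑ i, ν q.1 i * ν q.2 i) ∂(μ.prod μ) := by
  obtain ⟨S, hS⟩ := h.supp
  obtain ⟨K, hK0, hK⟩ := h.bdd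
  have e1 : ∀ q : X × X, fB (Φ q.1) (Φ q.2) * (∑ i, ν q.1 i * ν q.2 i)
      = ∑ α ∈ S, ∑ i, fac α * ((coeff α (Φ q.1) * ν q.1 i) * (coeff α (Φ q.2) * ν q.2 i)) := by
    intro q
    have : fB (Φ q.1) (Φ q.2) = ∑ α ∈ S, fac α * (coeff α (Φ q.1) * coeff α (Φ q.2)) := by
      unfold fB
      apply finsum_eq_sum_of_support_subset
      intro α hα
      by_contra hc
      apply hα
      have : α ∉ S := fun h => hc (Finset.mem_coe.mpr h)
      simp only
      rw [hS q.1 α this]
      ring
    rw [this, Finset.sum_mul]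
    apply Finset.sum_congr rfl
    intro α _
    rw [Finset.mul_sum]
    apply Finset.sum_congr rfl
    intro i _
    ring
  have hint : ∀ α i, Integrable (fun p => coeff α (Φ p) * ν p i) μ := by
    intro α i
    refine Integrable.of_bound ((h.meas α).mul
      ((measurable_pi_apply i).comp hν)).aestronglyMeasurable (K * 1) ?_
    filter_upwards with p
    rw [Real.norm_eq_abs, abs_mul]
    exact mul_le_mul (hK α p) (hν1 p i) (abs_nonneg _) hK0
  simp only [e1]
  rw [integral_finsetSum]
  · apply Finset.sum_nonneg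
    intro α _
    rw [integral_finsetSum]
    · apply Finset.sum_nonneg
      intro i _
      rw [integral_const_mul, integral_prod_mul (f := fun p => coeff α (Φ p) * ν p i)
        (g := fun p => coeff α (Φ p) * ν p i)]
      exact mul_nonneg (fac_pos α).le (mul_self_nonneg _)
    · intro i _
      exact ((hint α i).mul_prod (hint α i)).const_mul _
  · intro α _
    apply integrable_finsetSum
    intro i _
    exact ((hint α i).mul_prod (hint α i)).const_mul _

/-- the moments -/
noncomputable def mom (x : X → Fin n → ℝ) (ν : X → Fin l → ℝ) (j : ℕ) : ℝ :=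
  ∫ q, (∑ i, x q.1 i * x q.2 i) ^ j * (∑ i, ν q.1 i * ν q.2 i) ∂(μ.prod μ)

variable {x : X → Fin n → ℝ} {ν : X → Fin l → ℝ}

lemma abs_coord_le (hx1 : ∀ p, ∑ i, x p i * x p i = 1) (p : X) (i : Fin n) : |x p i| ≤ 1 := by
  have h1 : x p i * x p i ≤ 1 := by
    rw [← hx1 p]
    exact Finset.single_le_sum (f := fun i => x p i * x p i) (fun i _ => mul_self_nonneg _)
      (Finset.mem_univ i)
  rw [← sq_le_one_iff_abs_le_one]
  linarith

lemma abs_dot_le (hx1 : ∀ p, ∑ i, x p i * x p i = 1) (p q : X) :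
    |∑ i, x p i * x q i| ≤ 1 := by
  have h := Finset.sum_mul_sq_le_sq_mul_sq Finset.univ (fun i => x p i) (fun i => x q i)
  have h1 := hx1 p
  have h2 := hx1 q
  simp only [← sq] at h1 h2
  rw [h1, h2] at h
  rw [← sq_le_one_iff_abs_le_one]
  linarith

lemma integrable_mom (hx : Measurable x) (hν : Measurable ν)
    (hx1 : ∀ p, ∑ i, x p i * x p i = 1) (hν1 : ∀ p, ∑ i, ν p i * ν p i = 1) (j : ℕ) :
    Integrable (fun q : X × X => (∑ i, x q.1 i * x q.2 i) ^ j * (∑ i, ν q.1 i * ν q.2 i))
      (μ.prod μ) := by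
  have m1 : ∀ i, Measurable fun q : X × X => x q.1 i := fun i =>
    (measurable_pi_apply i).comp (hx.comp measurable_fst)
  have m2 : ∀ i, Measurable fun q : X × X => x q.2 i := fun i =>
    (measurable_pi_apply i).comp (hx.comp measurable_snd)
  have m3 : ∀ i, Measurable fun q : X × X => ν q.1 i := fun i =>
    (measurable_pi_apply i).comp (hν.comp measurable_fst)
  have m4 : ∀ i, Measurable fun q : X × X => ν q.2 i := fun i =>
    (measurable_pi_apply i).comp (hν.comp measurable_snd)
  refine Integrable.of_bound (Measurable.aestronglyMeasurable ?_) 1 ?_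
  · exact ((Finset.measurable_sum _ fun i _ => (m1 i).mul (m2 i)).pow_const j).mul
      (Finset.measurable_sum _ fun i _ => (m3 i).mul (m4 i))
  · filter_upwards with q
    rw [Real.norm_eq_abs, abs_mul, abs_pow]
    calc |∑ i, x q.1 i * x q.2 i| ^ j * |∑ i, ν q.1 i * ν q.2 i| ≤ 1 * 1 :=
          mul_le_mul (pow_le_one₀ (abs_nonneg _) (abs_dot_le hx1 _ _)) (abs_dot_le hν1 _ _)
            (abs_nonneg _) zero_le_one
      _ = 1 := by norm_num

lemma mom_nonneg (hx : Measurable x) (hν : Measurable ν)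
    (hx1 : ∀ p, ∑ i, x p i * x p i = 1) (hν1 : ∀ p, ∑ i, ν p i * ν p i = 1) (j : ℕ) :
    0 ≤ mom μ x ν j := by
  have h := (Good.lin_pow hx (abs_coord_le hx1) j).pos μ hν (abs_coord_le hν1)
  simp only [fB_lin_pow] at h
  unfold mom
  have e : ∀ q : X × X, (j.factorial : ℝ) * (∑ i, x q.1 i * x q.2 i) ^ j
      * (∑ i, ν q.1 i * ν q.2 i)
      = j.factorial * ((∑ i, x q.1 i * x q.2 i) ^ j * (∑ i, ν q.1 i * ν q.2 i)) := fun q => by ring
  simp only [e] at h
  rw [integral_const_mul] at h
  have hf : (0 : ℝ) < j.factorial := by exact_mod_cast Nat.factorial_pos j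
  exact nonneg_of_mul_nonneg_right h hf

lemma integral_lin3 {Y : Type*} [MeasurableSpace Y] (τ : Measure Y) {f g h : Y → ℝ}
    (hf : Integrable f τ) (hg : Integrable g τ) (hh : Integrable h τ) (a b c : ℝ) :
    ∫ y, (a * f y + b * g y + c * h y) ∂τ = a * ∫ y, f y ∂τ + b * ∫ y, g y ∂τ + c * ∫ y, h y ∂τ := by
  have h1 : ∫ y, (a * f y + b * g y + c * h y) ∂τ
      = ∫ y, (a * f y + b * g y) ∂τ + ∫ y, c * h y ∂τ :=
    integral_add ((hf.const_mul a).add (hg.const_mul b)) (hh.const_mul c)
  have h2 : ∫ y, (a * f y + b * g y) ∂τ = ∫ y, a * f y ∂τ + ∫ y, b * g y ∂τ :=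
    integral_add (hf.const_mul a) (hg.const_mul b)
  rw [h1, h2, integral_const_mul, integral_const_mul, integral_const_mul]

/-- the quadratic inequality -/
lemma mom_quad (hx : Measurable x) (hν : Measurable ν)
    (hx1 : ∀ p, ∑ i, x p i * x p i = 1) (hν1 : ∀ p, ∑ i, ν p i * ν p i = 1) (j : ℕ) (t : ℝ) :
    0 ≤ ((j : ℝ) + 2) * (j + 1) * (mom μ x ν (j + 2) - 2 * t * mom μ x ν j)
      + t ^ 2 * ((2 * n + 4 * j) * mom μ x ν j + j * (j - 1) * mom μ x ν (j - 2)) := by
  have g1 := Good.lin_pow hx (abs_coord_le hx1) (j + 2)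
  have g2 := ((Good.lin_pow hx (abs_coord_le hx1) j).nsq_mul).smul
    (f := fun _ => -t) measurable_const (abs_nonneg t) (fun _ => by rw [abs_neg])
  have h := (g1.add g2).pos μ hν (abs_coord_le hν1)
  have hf : (0 : ℝ) < j.factorial := by exact_mod_cast Nat.factorial_pos j
  have e : ∀ q : X × X, fB (lin (x q.1) ^ (j + 2) + C (-t) * (nsq * lin (x q.1) ^ j))
      (lin (x q.2) ^ (j + 2) + C (-t) * (nsq * lin (x q.2) ^ j)) * (∑ i, ν q.1 i * ν q.2 i)
      = j.factorial * (((j : ℝ) + 2) * (j + 1) * ((∑ i, x q.1 i * x q.2 i) ^ (j + 2)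
        * (∑ i, ν q.1 i * ν q.2 i))
        + (t ^ 2 * (2 * n + 4 * j) - 2 * t * ((j : ℝ) + 2) * (j + 1))
          * ((∑ i, x q.1 i * x q.2 i) ^ j * (∑ i, ν q.1 i * ν q.2 i))
        + t ^ 2 * (j * (j - 1)) * ((∑ i, x q.1 i * x q.2 i) ^ (j - 2)
          * (∑ i, ν q.1 i * ν q.2 i))) := by
    intro q
    rw [fB_add_left, fB_add_right, fB_add_right, fB_smul_left, fB_smul_left, fB_smul_right,
      fB_smul_right, fB_lin_pow, fB_comm (lin (x q.1) ^ (j + 2)),
      fB_nsq_lin _ _ (hx1 q.1), fB_nsq_lin _ _ (hx1 q.2), fB_nsq_nsq _ _ (hx1 q.1) (hx1 q.2)]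
    have : ∑ i, x q.2 i * x q.1 i = ∑ i, x q.1 i * x q.2 i :=
      Finset.sum_congr rfl fun i _ => mul_comm _ _
    rw [this, Nat.factorial_succ, Nat.factorial_succ]
    push_cast
    ring
  simp only [e] at h
  have i0 := integrable_mom μ hx hν hx1 hν1 j
  have i2 := integrable_mom μ hx hν hx1 hν1 (j + 2)
  have i3 := integrable_mom μ hx hν hx1 hν1 (j - 2)
  rw [integral_const_mul, integral_lin3 _ i2 i0 i3] at h
  have h2 := nonneg_of_mul_nonneg_right h hf
  unfold mom
  linarith

lemma mom_step {R0 R2 Q q t2 : ℝ} (_hR : 0 ≤ R0) (hq : 0 < q) (ht2 : 0 < t2)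
    (h : ∀ t : ℝ, 0 ≤ t2 * (R2 - 2 * t * R0) + t ^ 2 * Q) (hQ : Q ≤ q * R0) :
    t2 * R0 ≤ q * R2 := by
  have h1 := h (t2 / q)
  have h2 : (t2 / q) ^ 2 * Q ≤ (t2 / q) ^ 2 * (q * R0) :=
    mul_le_mul_of_nonneg_left hQ (by positivity)
  have h3 : 0 ≤ t2 * (R2 - 2 * (t2 / q) * R0) + (t2 / q) ^ 2 * (q * R0) := by linarith
  have h4 : t2 * (R2 - 2 * (t2 / q) * R0) + (t2 / q) ^ 2 * (q * R0)
      = t2 / q * (q * R2 - t2 * R0) := by
    field_simp
    ring
  rw [h4] at h3
  have h5 : 0 < t2 / q := by positivity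
  have := nonneg_of_mul_nonneg_right h3 h5
  linarith

/-- moment recursion when the first two moments vanish -/
theorem mom_rec2 (hx : Measurable x) (hν : Measurable ν)
    (hx1 : ∀ p, ∑ i, x p i * x p i = 1) (hν1 : ∀ p, ∑ i, ν p i * ν p i = 1)
    (h0 : mom μ x ν 0 = 0) (h1 : mom μ x ν 1 = 0) (j : ℕ) :
    ((j : ℝ) + 2) * (j + 1) * mom μ x ν j ≤ j * (j + 2 + n) * mom μ x ν (j + 2) := by
  induction j using Nat.strong_induction_on with
  | _ j ih =>
    rcases j with _ | _ | j
    · simp [h0]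
    · have := mom_nonneg μ hx hν hx1 hν1 3
      simp only [zero_add, h1, mul_zero]
      positivity
    · have ih' := ih j (by omega)
      have hR := mom_nonneg μ hx hν hx1 hν1 (j + 2)
      have hquad := mom_quad μ hx hν hx1 hν1 (j + 2)
      simp only [Nat.add_sub_cancel] at hquad
      push_cast at hquad ⊢
      have key2 := mom_step (q := ((j : ℝ) + 2) * ((j : ℝ) + 2 + 2 + n)) hR (by positivity)
        (by positivity) hquad (by linarith)
      have e1 : (j : ℝ) + 1 + 1 = j + 2 := by ring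
      rw [e1]
      exact key2

/-- moment recursion without vanishing moments -/
theorem mom_rec0 (hx : Measurable x) (hν : Measurable ν)
    (hx1 : ∀ p, ∑ i, x p i * x p i = 1) (hν1 : ∀ p, ∑ i, ν p i * ν p i = 1) (j : ℕ) :
    ((j : ℝ) + 1) * mom μ x ν j ≤ (j + n) * mom μ x ν (j + 2) := by
  rcases n.eq_zero_or_pos with hn | hn
  · have hz : ∀ j, mom μ x ν j = 0 := by
      intro j
      unfold mom
      have : ∀ q : X × X, (∑ i, x q.1 i * x q.2 i) ^ j * (∑ i, ν q.1 i * ν q.2 i) = 0 := by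
        intro q
        have h1 := hx1 q.1
        subst hn
        simp at h1
      simp only [this, integral_zero]
    rw [hz, hz]; simp
  have hn' : (1 : ℝ) ≤ n := by exact_mod_cast hn
  have key : ∀ j : ℕ, ((j : ℝ) + 2) * (j + 1) * mom μ x ν j
      ≤ ((j + 2) * (j + n)) * mom μ x ν (j + 2) := by
    intro j
    induction j using Nat.strong_induction_on with
    | _ j ih =>
      rcases j with _ | _ | j
      · have hR := mom_nonneg μ hx hν hx1 hν1 0
        have hquad := mom_quad μ hx hν hx1 hν1 0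
        simp only [zero_add]
        push_cast at hquad ⊢
        have := mom_step (q := (0 + 2) * (0 + (n : ℝ))) hR (by positivity) (by norm_num) hquad
          (by linarith)
        linarith
      · have hR := mom_nonneg μ hx hν hx1 hν1 1
        have hquad := mom_quad μ hx hν hx1 hν1 1
        simp only [zero_add]
        push_cast at hquad ⊢
        apply mom_step hR (by positivity) (by positivity) hquad
        have : 0 ≤ ((n : ℝ) - 1) * mom μ x ν 1 := mul_nonneg (by linarith) hR
        linarith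
      · have ih' := ih j (by omega)
        have hR := mom_nonneg μ hx hν hx1 hν1 (j + 2)
        have hquad := mom_quad μ hx hν hx1 hν1 (j + 2)
        simp only [Nat.add_sub_cancel] at hquad
        push_cast at hquad ⊢
        have key2 := mom_step (q := ((j : ℝ) + 2 + 2) * ((j : ℝ) + 2 + n)) hR (by positivity)
          (by positivity) hquad (by linarith)
        have e1 : (j : ℝ) + 1 + 1 = j + 2 := by ring
        rw [e1]
        exact key2
  have h2 := key j
  have h3 : (0 : ℝ) < (j : ℝ) + 2 := by positivity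
  have h4 : ((j : ℝ) + 2) * (((j : ℝ) + 1) * mom μ x ν j)
      ≤ (j + 2) * ((j + n) * mom μ x ν (j + 2)) := by linarith
  exact le_of_mul_le_mul_left h4 h3

/-- moment recursion when the zeroth moment vanishes -/
theorem mom_rec1 (hx : Measurable x) (hν : Measurable ν)
    (hx1 : ∀ p, ∑ i, x p i * x p i = 1) (hν1 : ∀ p, ∑ i, ν p i * ν p i = 1)
    (h0 : mom μ x ν 0 = 0) (j : ℕ) :
    ((j : ℝ) + 2) * mom μ x ν j ≤ (j + n + 1) * mom μ x ν (j + 2) := by
  have key : ∀ j : ℕ, ((j : ℝ) + 2) * (j + 1) * mom μ x ν j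
      ≤ ((j + 1) * (j + n + 1)) * mom μ x ν (j + 2) := by
    intro j
    induction j using Nat.strong_induction_on with
    | _ j ih =>
      rcases j with _ | _ | j
      · have := mom_nonneg μ hx hν hx1 hν1 2
        simp only [h0, mul_zero, zero_add]
        positivity
      · have hR := mom_nonneg μ hx hν hx1 hν1 1
        have hquad := mom_quad μ hx hν hx1 hν1 1
        simp only [zero_add]
        push_cast at hquad ⊢
        apply mom_step hR (by positivity) (by positivity) hquad
        linarith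
      · have ih' := ih j (by omega)
        have hR := mom_nonneg μ hx hν hx1 hν1 (j + 2)
        have hquad := mom_quad μ hx hν hx1 hν1 (j + 2)
        simp only [Nat.add_sub_cancel] at hquad
        push_cast at hquad ⊢
        have key2 := mom_step (q := ((j : ℝ) + 2 + 1) * ((j : ℝ) + 2 + n + 1)) hR (by positivity)
          (by positivity) hquad (by linarith)
        have e1 : (j : ℝ) + 1 + 1 = j + 2 := by ring
        rw [e1]
        exact key2
  have h2 := key j
  have h3 : (0 : ℝ) < (j : ℝ) + 1 := by positivity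
  have h4 : ((j : ℝ) + 1) * (((j : ℝ) + 2) * mom μ x ν j)
      ≤ (j + 1) * ((j + n + 1) * mom μ x ν (j + 2)) := by linarith
  exact le_of_mul_le_mul_left h4 h3

end

end Vale.Agent.P224.FV
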