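import Mathlib

namespace Vale.Agent.P224.FV

open Real Set Filter
open scoped Topology

/-- polynomial growth -/
def PG (b : ℕ → ℝ) : Prop := ∃ C : ℝ, ∃ K : ℕ, 0 ≤ C ∧ ∀ j, |b j| ≤ C * ((j : ℝ) + 1) ^ K

/-- power series -/
noncomputable def ps (b : ℕ → ℝ) (r : ℝ) : ℝ := ∑' j, b j * r ^ j

lemma summable_pow_geom (K : ℕ) {ρ : ℝ} (h0 : 0 ≤ ρ) (h1 : ρ < 1) :
    Summable (fun j : ℕ => ((j : ℝ) + 1) ^ K * ρ ^ j) := by
  rcases h0.eq_or_lt with h | h
  · subst h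
    apply summable_of_ne_finset_zero (s := {0})
    intro j hj
    have : j ≠ 0 := by simpa using hj
    simp [this]
  · have hn : ‖ρ‖ < 1 := by rwa [Real.norm_eq_abs, abs_of_pos h]
    have h2 := summable_pow_mul_geometric_of_norm_lt_one (R := ℝ) K hn
    have h3 := (summable_nat_add_iff 1).mpr h2
    have h4 : (fun j : ℕ => ((j : ℝ) + 1) ^ K * ρ ^ j)
        = fun j : ℕ => ρ⁻¹ * ((((j + 1 : ℕ) : ℝ)) ^ K * ρ ^ (j + 1)) := by
      funext j
      push_cast
      rw [pow_succ]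
      field_simp
    rw [h4]
    exact h3.mul_left _

lemma PG.summable {b : ℕ → ℝ} (h : PG b) {r : ℝ} (hr : |r| < 1) :
    Summable (fun j => b j * r ^ j) := by
  obtain ⟨C, K, hC, hb⟩ := h
  have h1 := (summable_pow_geom K (abs_nonneg r) hr).mul_left C
  refine Summable.of_norm_bounded h1 fun j => ?_
  rw [Real.norm_eq_abs, abs_mul, abs_pow, ← mul_assoc]
  exact mul_le_mul_of_nonneg_right (hb j) (by positivity)

lemma PG.mul_id {b : ℕ → ℝ} (h : PG b) : PG (fun j => (j : ℝ) * b j) := by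
  obtain ⟨C, K, hC, hb⟩ := h
  refine ⟨C, K + 1, hC, fun j => ?_⟩
  rw [abs_mul, Nat.abs_cast, pow_succ]
  calc (j : ℝ) * |b j| ≤ ((j : ℝ) + 1) * (C * ((j : ℝ) + 1) ^ K) :=
        mul_le_mul (by linarith) (hb j) (abs_nonneg _) (by positivity)
    _ = _ := by ring

lemma PG.mul {b d : ℕ → ℝ} (h : PG b) (h' : PG d) : PG (fun j => b j * d j) := by
  obtain ⟨C, K, hC, hb⟩ := h
  obtain ⟨C', K', hC', hb'⟩ := h'
  refine ⟨C * C', K + K', by positivity, fun j => ?_⟩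
  rw [abs_mul]
  calc |b j| * |d j| ≤ (C * ((j : ℝ) + 1) ^ K) * (C' * ((j : ℝ) + 1) ^ K') :=
        mul_le_mul (hb j) (hb' j) (abs_nonneg _) (by positivity)
    _ = _ := by rw [pow_add]; ring

/-- derivative of a power series, in Euler form -/
lemma PG.hasDerivAt {b : ℕ → ℝ} (h : PG b) {r : ℝ} (hr : |r| < 1) :
    HasDerivAt (ps b) (∑' j, b j * ((j : ℝ) * r ^ (j - 1))) r := by
  obtain ⟨ρ, hρ1, hρ2⟩ := exists_between hr
  have hρ0 : 0 < ρ := (abs_nonneg r).trans_lt hρ1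
  obtain ⟨C, K, hC, hb⟩ := h
  set u : ℕ → ℝ := fun j => C * ρ⁻¹ * (((j : ℝ) + 1) ^ (K + 1) * ρ ^ j) with hu
  have hus : Summable u := (summable_pow_geom (K + 1) hρ0.le hρ2).mul_left _
  have hPG : PG b := ⟨C, K, hC, hb⟩
  unfold ps
  apply hasDerivAt_tsum_of_isPreconnected (u := u) (t := Ioo (-ρ) ρ) hus isOpen_Ioo
    (isPreconnected_Ioo) (g := fun j z => b j * z ^ j)
    (g' := fun j z => b j * ((j : ℝ) * z ^ (j - 1))) (y₀ := 0)
  · intro j z hz
    exact (hasDerivAt_pow j z).const_mul (b j)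
  · intro j z hz
    have hz' : |z| ≤ ρ := (abs_lt.mpr hz).le
    rw [Real.norm_eq_abs, abs_mul, abs_mul, abs_pow, Nat.abs_cast]
    rcases j with _ | j
    · simp only [Nat.cast_zero, zero_mul, mul_zero, hu]
      positivity
    · simp only [Nat.add_sub_cancel, hu]
      calc |b (j + 1)| * (((j + 1 : ℕ) : ℝ) * |z| ^ j)
          ≤ (C * (((j + 1 : ℕ) : ℝ) + 1) ^ K) * ((((j + 1 : ℕ) : ℝ) + 1) * ρ ^ j) := by
            refine mul_le_mul (hb _) ?_ (by positivity) (by positivity)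
            refine mul_le_mul (by linarith) (pow_le_pow_left₀ (abs_nonneg _) hz' j)
              (by positivity) (by positivity)
        _ = _ := by
            rw [pow_succ ρ]
            field_simp
            ring
  · exact ⟨by linarith, hρ0⟩
  · exact hPG.summable (by simp)
  · exact abs_lt.mp hρ1

lemma PG.theta {b : ℕ → ℝ} (r : ℝ) :
    (∑' j, b j * ((j : ℝ) * r ^ (j - 1))) * r = ps (fun j => (j : ℝ) * b j) r := by
  unfold ps
  rw [← tsum_mul_right]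
  apply tsum_congr
  intro j
  rcases j with _ | j
  · simp
  · simp only [Nat.add_sub_cancel]
    rw [pow_succ]; ring

/-- derivative along the angle -/
lemma PG.deriv_sin {b : ℕ → ℝ} (h : PG b) {φ : ℝ} (hφ : φ ∈ Ioo 0 (π / 2)) :
    HasDerivAt (fun φ => ps b (sin φ))
      (ps (fun j => (j : ℝ) * b j) (sin φ) * (cos φ / sin φ)) φ := by
  have hs0 : 0 < sin φ := sin_pos_of_pos_of_lt_pi hφ.1 (by linarith [hφ.2, pi_pos])
  have hc0 : 0 < cos φ := cos_pos_of_mem_Ioo ⟨by linarith [hφ.1, pi_pos], hφ.2⟩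
  have hs1 : |sin φ| < 1 := by
    have := sin_sq_add_cos_sq φ
    rw [← sq_lt_one_iff_abs_lt_one]
    nlinarith
  have h1 := (h.hasDerivAt hs1).comp φ (Real.hasDerivAt_sin φ)
  refine h1.congr_deriv ?_
  rw [← PG.theta]
  field_simp

lemma PG.continuousOn_sin {b : ℕ → ℝ} (h : PG b) :
    ContinuousOn (fun φ => ps b (sin φ)) (Ico 0 (π / 2)) := by
  intro φ hφ
  have hc0 : 0 < cos φ := cos_pos_of_mem_Ioo ⟨by linarith [hφ.1, pi_pos], hφ.2⟩
  have hs1 : |sin φ| < 1 := by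
    have := sin_sq_add_cos_sq φ
    rw [← sq_lt_one_iff_abs_lt_one]
    nlinarith
  exact ((h.hasDerivAt hs1).comp φ (Real.hasDerivAt_sin φ)).continuousAt.continuousWithinAt

lemma ps_nonneg {b : ℕ → ℝ} (hb : ∀ j, 0 ≤ b j) {r : ℝ} (hr : 0 ≤ r) : 0 ≤ ps b r :=
  tsum_nonneg fun j => mul_nonneg (hb j) (pow_nonneg hr j)

end Vale.Agent.P224.FV
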