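import Vale.Agent.P224.FV.Compare
import Vale.Agent.P224.FV.TwoPoint
import Vale.Agent.P224.FV.Moments

namespace Vale.Agent.P224.FV

open Real Set Filter MeasureTheory
open scoped Topology RealInnerProductSpace

/-- differential inequality from the recursion -/
lemma ineqT_of_rec {b : ℕ → ℝ} (hPG : PG b) {m : ℕ} {c : ℝ}
    (hA0 : 0 ≤ (0 - c) * b 0) (hA1 : 0 ≤ (1 + m - c) * b 1)
    (hrec : ∀ j : ℕ, ((j : ℝ) + m) * (j + m + 1) * b j
      ≤ (((j : ℝ) + 2) ^ 2 + m * (j + 2) - c) * b (j + 2)) {r : ℝ} (hr0 : 0 ≤ r) (hr1 : r < 1) :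
    (c + m * (m + 1) * r ^ 2) * ps b r ≤
      (1 - r ^ 2) * ps (fun j => (j : ℝ) * ((j : ℝ) * b j)) r
        + (m * (1 - r ^ 2) - (m + 1) * r ^ 2) * ps (fun j => (j : ℝ) * b j) r := by
  have hr : |r| < 1 := by rwa [abs_of_nonneg hr0]
  have s0 := hPG.summable hr
  have s1 := hPG.mul_id.summable hr
  have s2 := hPG.mul_id.mul_id.summable hr
  set A : ℕ → ℝ := fun j => ((j : ℝ) ^ 2 + m * j - c) * b j * r ^ j with hA
  set D : ℕ → ℝ := fun j => ((j : ℝ) + m) * (j + m + 1) * b j * r ^ j with hD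
  have eA : A = fun j : ℕ => (j : ℝ) * ((j : ℝ) * b j) * r ^ j + m * ((j : ℝ) * b j * r ^ j)
      - c * (b j * r ^ j) := by
    funext j; simp only [hA]; ring
  have eD : D = fun j : ℕ => (j : ℝ) * ((j : ℝ) * b j) * r ^ j + (2 * m + 1) * ((j : ℝ) * b j * r ^ j)
      + m * (m + 1) * (b j * r ^ j) := by
    funext j; simp only [hD]; ring
  have sA : Summable A := by
    rw [eA]; exact (s2.add (s1.mul_left _)).sub (s0.mul_left _)
  have sD : Summable D := by
    rw [eD]; exact (s2.add (s1.mul_left _)).add (s0.mul_left _)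
  have tA : ∑' j, A j = ps (fun j => (j : ℝ) * ((j : ℝ) * b j)) r
      + m * ps (fun j => (j : ℝ) * b j) r - c * ps b r := by
    rw [eA, (s2.add (s1.mul_left _)).tsum_sub (s0.mul_left _), s2.tsum_add (s1.mul_left _),
      tsum_mul_left, tsum_mul_left]
    rfl
  have tD : ∑' j, D j = ps (fun j => (j : ℝ) * ((j : ℝ) * b j)) r
      + (2 * m + 1) * ps (fun j => (j : ℝ) * b j) r + m * (m + 1) * ps b r := by
    rw [eD, (s2.add (s1.mul_left _)).tsum_add (s0.mul_left _), s2.tsum_add (s1.mul_left _),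
      tsum_mul_left, tsum_mul_left]
    rfl
  have hsplit : ∑' j, A j = A 0 + A 1 + ∑' j, A (j + 2) := by
    rw [← sA.sum_add_tsum_nat_add 2, Finset.sum_range_succ, Finset.sum_range_one]
  have h2 : r ^ 2 * ∑' j, D j ≤ ∑' j, A (j + 2) := by
    rw [← tsum_mul_left]
    apply Summable.tsum_le_tsum _ (sD.mul_left _) ((summable_nat_add_iff 2).mpr sA)
    intro j
    simp only [hA, hD]
    have h3 := mul_le_mul_of_nonneg_right (hrec j) (pow_nonneg hr0 (j + 2))
    push_cast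
    calc r ^ 2 * (((j : ℝ) + m) * (j + m + 1) * b j * r ^ j)
        = ((j : ℝ) + m) * (j + m + 1) * b j * r ^ (j + 2) := by rw [pow_add]; ring
      _ ≤ _ := h3
  have hA0' : 0 ≤ A 0 := by simpa [hA] using hA0
  have hA1' : 0 ≤ A 1 := by
    have := mul_nonneg hA1 hr0
    simp only [hA, Nat.cast_one, pow_one]
    linarith
  have h4 : r ^ 2 * ∑' j, D j ≤ ∑' j, A j := by rw [hsplit]; linarith
  rw [tA, tD] at h4
  linarith

/-- binomial coefficients -/
noncomputable def bc (m j : ℕ) : ℝ := ((j + (m - 1)).choose (m - 1) : ℕ)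

lemma bc_nonneg (m j : ℕ) : 0 ≤ bc m j := Nat.cast_nonneg _

lemma bc_rec {m : ℕ} (hm : 1 ≤ m) (j : ℕ) :
    ((j : ℝ) + 1) * bc m (j + 1) = ((j : ℝ) + m) * bc m j := by
  obtain ⟨k, rfl⟩ : ∃ k, m = k + 1 := ⟨m - 1, by omega⟩
  unfold bc
  simp only [Nat.add_sub_cancel]
  have h := Nat.add_one_mul_choose_eq (j + k) k
  have h2 := Nat.choose_succ_right_eq (j + k + 1) k
  -- (j+k+1) * C(j+k,k) = C(j+k+1,k+1) * (k+1)
  have h3 : (j + 1) * (j + 1 + k).choose k = (j + (k + 1)) * (j + k).choose k := by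
    have e1 : j + 1 + k = j + k + 1 := by ring
    rw [e1]
    have h4 : (j + k + 1).choose k * (j + k + 1 - k) = (j + k + 1).choose (k + 1) * (k + 1) :=
      h2.symm
    have e2 : j + k + 1 - k = j + 1 := by omega
    rw [e2] at h4
    have h5 : (j + k + 1) * (j + k).choose k = (j + k + 1).choose (k + 1) * (k + 1) := h
    calc (j + 1) * (j + k + 1).choose k = (j + k + 1).choose k * (j + 1) := by ring
      _ = (j + k + 1).choose (k + 1) * (k + 1) := h4
      _ = (j + k + 1) * (j + k).choose k := h5.symm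
      _ = _ := by ring
  have h6 := congrArg (fun t : ℕ => (t : ℝ)) h3
  push_cast at h6 ⊢
  linarith

lemma bc_PG {m : ℕ} (hm : 1 ≤ m) : PG (bc m) := by
  refine ⟨((m : ℝ)) ^ m, m, by positivity, fun j => ?_⟩
  rw [abs_of_nonneg (bc_nonneg m j)]
  unfold bc
  have h1 : (j + (m - 1)).choose (m - 1) ≤ (j + (m - 1)) ^ (m - 1) := Nat.choose_le_pow _ _
  have h2 : ((j + (m - 1)).choose (m - 1) : ℝ) ≤ ((j : ℝ) + (m - 1 : ℕ)) ^ (m - 1) := by
    exact_mod_cast h1
  have h3 : (j : ℝ) + (m - 1 : ℕ) ≤ m * ((j : ℝ) + 1) := by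
    have : ((m - 1 : ℕ) : ℝ) ≤ m := by exact_mod_cast Nat.sub_le m 1
    have h1m : (1 : ℝ) ≤ m := by exact_mod_cast hm
    nlinarith [Nat.cast_nonneg (α := ℝ) j]
  calc ((j + (m - 1)).choose (m - 1) : ℝ) ≤ ((j : ℝ) + (m - 1 : ℕ)) ^ (m - 1) := h2
    _ ≤ (m * ((j : ℝ) + 1)) ^ (m - 1) := pow_le_pow_left₀ (by positivity) h3 _
    _ ≤ (m * ((j : ℝ) + 1)) ^ m := by
        apply pow_le_pow_right₀ _ (Nat.sub_le m 1)
        have h1m : (1 : ℝ) ≤ m := by exact_mod_cast hm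
        nlinarith [Nat.cast_nonneg (α := ℝ) j]
    _ = _ := by rw [mul_pow]

lemma hasSum_kernel {m : ℕ} (hm : 1 ≤ m) {x : ℝ} (hx : |x| < 1) :
    HasSum (fun j => bc m j * x ^ j) (1 / (1 - x) ^ m) := by
  have h := hasSum_choose_mul_geometric_of_norm_lt_one (m - 1) (r := x)
    (by rwa [Real.norm_eq_abs])
  have e : m - 1 + 1 = m := by omega
  rw [e] at h
  exact h

section

variable {X : Type*} [MeasurableSpace X] {E : Type*} [NormedAddCommGroup E]
  [InnerProductSpace ℝ E] [FiniteDimensional ℝ E] [MeasurableSpace E] [BorelSpace E]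

/-- coordinates -/
noncomputable def crd (p : X → E) (x : X) (i : Fin (Module.finrank ℝ E)) : ℝ :=
  ⟪stdOrthonormalBasis ℝ E i, p x⟫

lemma crd_inner (p : X → E) (x y : X) : ∑ i, crd p x i * crd p y i = ⟪p x, p y⟫ := by
  unfold crd
  rw [← (stdOrthonormalBasis ℝ E).sum_inner_mul_inner (p x) (p y)]
  exact Finset.sum_congr rfl fun i _ => by rw [real_inner_comm (p x)]

lemma crd_measurable {p : X → E} (hp : Measurable p) : Measurable (crd p) := by
  apply measurable_pi_lambda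
  intro i
  exact measurable_const.inner hp

variable {μ : Measure X} [IsFiniteMeasure μ] {m : ℕ} {p n : X → E}

/-- the moments of the normal correlation -/
noncomputable def RR (μ : Measure X) (p n : X → E) (j : ℕ) : ℝ := mom μ (crd p) (crd n) j

lemma RR_eq (j : ℕ) : RR μ p n j = ∫ q, ⟪p q.1, p q.2⟫ ^ j * ⟪n q.1, n q.2⟫ ∂(μ.prod μ) := by
  unfold RR mom
  simp only [crd_inner]

lemma Pts.crd_p (h : Pts p n) (x : X) : ∑ i, crd p x i * crd p x i = 1 := by
  rw [crd_inner, real_inner_self_eq_norm_sq, h.np]; norm_num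

lemma Pts.crd_n (h : Pts p n) (x : X) : ∑ i, crd n x i * crd n x i = 1 := by
  rw [crd_inner, real_inner_self_eq_norm_sq, h.nn]; norm_num

lemma Pts.RR_nonneg (h : Pts p n) (j : ℕ) : 0 ≤ RR μ p n j :=
  mom_nonneg μ (crd_measurable h.mp) (crd_measurable h.mn) h.crd_p h.crd_n j

lemma Pts.integrable_RR (h : Pts p n) (j : ℕ) :
    Integrable (fun q : X × X => ⟪p q.1, p q.2⟫ ^ j * ⟪n q.1, n q.2⟫) (μ.prod μ) := by
  have := integrable_mom μ (crd_measurable h.mp) (crd_measurable h.mn) h.crd_p h.crd_n j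
  simpa only [crd_inner] using this

lemma Pts.RR_le (h : Pts p n) (j : ℕ) : |RR μ p n j| ≤ (μ.prod μ).real univ := by
  rw [RR_eq]
  have : ∀ᵐ q ∂(μ.prod μ), ‖⟪p q.1, p q.2⟫ ^ j * ⟪n q.1, n q.2⟫‖ ≤ 1 := by
    filter_upwards with q
    rw [Real.norm_eq_abs, abs_mul, abs_pow]
    calc |⟪p q.1, p q.2⟫| ^ j * |⟪n q.1, n q.2⟫| ≤ 1 * 1 :=
          mul_le_mul (pow_le_one₀ (abs_nonneg _) (h.abs_pp _ _)) (h.abs_nn _ _)
            (abs_nonneg _) zero_le_one
      _ = 1 := by norm_num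
  have h2 := norm_integral_le_of_norm_le_const this
  rw [Real.norm_eq_abs, one_mul] at h2
  exact h2

/-- coefficients of the normal correlation -/
noncomputable def bb (μ : Measure X) (m : ℕ) (p n : X → E) (j : ℕ) : ℝ := bc m j * RR μ p n j

lemma Pts.bb_PG (h : Pts p n) (hm : 1 ≤ m) : PG (bb μ m p n) :=
  (bc_PG hm).mul ⟨(μ.prod μ).real univ, 0, measureReal_nonneg, fun j => by
    rw [pow_zero, mul_one]; exact h.RR_le j⟩

lemma Pts.bb_nonneg (h : Pts p n) (j : ℕ) : 0 ≤ bb μ m p n j :=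
  mul_nonneg (bc_nonneg m j) (h.RR_nonneg j)

/-- power series of the normal correlation -/
theorem Pts.BB_eq (h : Pts p n) (hm : 1 ≤ m) {φ : ℝ}
    (hφ : φ ∈ Ioo (-(π / 2)) (π / 2)) :
    BB μ m p n φ = cos φ ^ m * ps (bb μ m p n) (sin φ) := by
  have hs1 := abs_sin_lt_one hφ
  have hbs : Summable (fun j => bc m j * |sin φ| ^ j) := (bc_PG hm).summable (by rwa [abs_abs])
  have hint : ∀ j, Integrable (fun q : X × X => bc m j * sin φ ^ j *
      (⟪p q.1, p q.2⟫ ^ j * ⟪n q.1, n q.2⟫)) (μ.prod μ) := fun j =>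
    (h.integrable_RR j).const_mul _
  have hsum : Summable (fun j => ∫ q, ‖bc m j * sin φ ^ j *
      (⟪p q.1, p q.2⟫ ^ j * ⟪n q.1, n q.2⟫)‖ ∂(μ.prod μ)) := by
    refine Summable.of_nonneg_of_le (fun j => integral_nonneg fun q => norm_nonneg _) ?_
      (hbs.mul_right ((μ.prod μ).real univ))
    intro j
    have hb : ∀ q : X × X, ‖bc m j * sin φ ^ j *
        (⟪p q.1, p q.2⟫ ^ j * ⟪n q.1, n q.2⟫)‖ ≤ bc m j * |sin φ| ^ j := by
      intro q
      rw [Real.norm_eq_abs, abs_mul, abs_mul, abs_of_nonneg (bc_nonneg m j), abs_pow, abs_mul,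
        abs_pow]
      calc bc m j * |sin φ| ^ j * (|⟪p q.1, p q.2⟫| ^ j * |⟪n q.1, n q.2⟫|)
          ≤ bc m j * |sin φ| ^ j * (1 * 1) := by
            have := bc_nonneg m j
            gcongr
            · exact pow_le_one₀ (abs_nonneg _) (h.abs_pp _ _)
            · exact h.abs_nn _ _
        _ = _ := by ring
    calc ∫ q, ‖bc m j * sin φ ^ j * (⟪p q.1, p q.2⟫ ^ j * ⟪n q.1, n q.2⟫)‖ ∂(μ.prod μ)
        ≤ ∫ _q : X × X, bc m j * |sin φ| ^ j ∂(μ.prod μ) :=
          integral_mono (hint j).norm (integrable_const _) hb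
      _ = bc m j * |sin φ| ^ j * (μ.prod μ).real univ := by
          rw [integral_const, smul_eq_mul, mul_comm]
  have key := hasSum_integral_of_summable_integral_norm hint hsum
  have e1 : ∀ q : X × X, ∑' j, bc m j * sin φ ^ j * (⟪p q.1, p q.2⟫ ^ j * ⟪n q.1, n q.2⟫)
      = ⟪n q.1, n q.2⟫ * (1 / (1 - ⟪p q.1, p q.2⟫ * sin φ) ^ m) := by
    intro q
    have hx : |⟪p q.1, p q.2⟫ * sin φ| < 1 := by
      rw [abs_mul]
      calc |⟪p q.1, p q.2⟫| * |sin φ| ≤ 1 * |sin φ| :=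
            mul_le_mul_of_nonneg_right (h.abs_pp _ _) (abs_nonneg _)
        _ < 1 := by linarith
    have h2 := (hasSum_kernel hm hx).mul_left ⟪n q.1, n q.2⟫
    rw [← h2.tsum_eq]
    apply tsum_congr
    intro j
    rw [mul_pow]; ring
  simp only [e1] at key
  have e2 : ∀ j, ∫ q, bc m j * sin φ ^ j * (⟪p q.1, p q.2⟫ ^ j * ⟪n q.1, n q.2⟫) ∂(μ.prod μ)
      = bb μ m p n j * sin φ ^ j := by
    intro j
    rw [integral_const_mul, ← RR_eq]
    unfold bb
    ring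
  simp only [e2] at key
  unfold ps
  rw [key.tsum_eq]
  unfold BB cf
  rw [← integral_const_mul]
  refine integral_congr_ae ?_
  filter_upwards with q
  rw [div_pow]
  ring

/-- recursion for the coefficients -/
lemma Pts.bb_rec0 (h : Pts p n) (hm : 1 ≤ m) (hE : Module.finrank ℝ E = m + 2) (j : ℕ) :
    ((j : ℝ) + m) * (j + m + 1) * bb μ m p n j
      ≤ (((j : ℝ) + 2) ^ 2 + m * (j + 2) - 0) * bb μ m p n (j + 2) := by
  have hr := mom_rec0 μ (crd_measurable h.mp) (crd_measurable h.mn) h.crd_p h.crd_n j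
  have hr' : ((j : ℝ) + 1) * RR μ p n j
      ≤ (j + Module.finrank ℝ E) * RR μ p n (j + 2) := hr
  rw [hE] at hr'
  have b1 := bc_rec hm j
  have b2 := bc_rec hm (j + 1)
  push_cast at b2 hr'
  have hb := bc_nonneg m (j + 2)
  have b3 : ((j : ℝ) + 2) * (j + 1) * bc m (j + 2) = ((j : ℝ) + m) * (j + m + 1) * bc m j := by
    have e : j + 1 + 1 = j + 2 := rfl
    rw [e] at b2
    have : ((j : ℝ) + 1) * (((j : ℝ) + 1 + 1) * bc m (j + 2))
        = ((j : ℝ) + 1 + m) * (((j : ℝ) + 1) * bc m (j + 1)) := by rw [b2]; ring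
    rw [b1] at this
    linarith
  unfold bb
  have hj : (0 : ℝ) ≤ (j : ℝ) + 2 := by positivity
  have h3 := mul_le_mul_of_nonneg_right hr' (mul_nonneg hb hj)
  calc ((j : ℝ) + m) * (j + m + 1) * (bc m j * RR μ p n j)
      = ((j : ℝ) + 2) * (j + 1) * bc m (j + 2) * RR μ p n j := by rw [b3]; ring
    _ = ((j : ℝ) + 1) * RR μ p n j * (bc m (j + 2) * (j + 2)) := by ring
    _ ≤ _ := h3
    _ = _ := by ring

/-- recursion for the coefficients: lowest degree two -/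
lemma TwoPt.bb_rec2 (h : TwoPt μ m p n) (hm : 1 ≤ m) (hE : Module.finrank ℝ E = m + 2)
    (h0 : RR μ p n 0 = 0) (h1 : RR μ p n 1 = 0) (j : ℕ) :
    ((j : ℝ) + m) * (j + m + 1) * bb μ m p n j
      ≤ (((j : ℝ) + 2) ^ 2 + m * (j + 2) - 2 * (m + 2)) * bb μ m p n (j + 2) := by
  have hr := mom_rec2 μ (crd_measurable h.mp) (crd_measurable h.mn) h.crd_p h.crd_n h0 h1 j
  have hr' : ((j : ℝ) + 2) * (j + 1) * RR μ p n j
      ≤ j * (j + 2 + Module.finrank ℝ E) * RR μ p n (j + 2) := hr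
  rw [hE] at hr'
  have b1 := bc_rec hm j
  have b2 := bc_rec hm (j + 1)
  push_cast at b2 hr'
  have hb := bc_nonneg m (j + 2)
  -- (j+2)(j+1) bc(j+2) = (j+m)(j+m+1) bc j
  have b3 : ((j : ℝ) + 2) * (j + 1) * bc m (j + 2) = ((j : ℝ) + m) * (j + m + 1) * bc m j := by
    have e : j + 1 + 1 = j + 2 := rfl
    rw [e] at b2
    have : ((j : ℝ) + 1) * (((j : ℝ) + 1 + 1) * bc m (j + 2))
        = ((j : ℝ) + 1 + m) * (((j : ℝ) + 1) * bc m (j + 1)) := by rw [b2]; ring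
    rw [b1] at this
    linarith
  unfold bb
  have h3 := mul_le_mul_of_nonneg_right hr' hb
  calc ((j : ℝ) + m) * (j + m + 1) * (bc m j * RR μ p n j)
      = ((j : ℝ) + 2) * (j + 1) * bc m (j + 2) * RR μ p n j := by rw [b3]; ring
    _ = ((j : ℝ) + 2) * (j + 1) * RR μ p n j * bc m (j + 2) := by ring
    _ ≤ _ := h3
    _ = _ := by ring

/-- recursion for the coefficients: lowest degree one -/
lemma TwoPt.bb_rec1 (h : TwoPt μ m p n) (hm : 1 ≤ m) (hE : Module.finrank ℝ E = m + 2)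
    (h0 : RR μ p n 0 = 0) (j : ℕ) :
    ((j : ℝ) + m) * (j + m + 1) * bb μ m p n j
      ≤ (((j : ℝ) + 2) ^ 2 + m * (j + 2) - (m + 1)) * bb μ m p n (j + 2) := by
  have hr := mom_rec1 μ (crd_measurable h.mp) (crd_measurable h.mn) h.crd_p h.crd_n h0 j
  have hr' : ((j : ℝ) + 2) * RR μ p n j
      ≤ (j + Module.finrank ℝ E + 1) * RR μ p n (j + 2) := hr
  rw [hE] at hr'
  have b1 := bc_rec hm j
  have b2 := bc_rec hm (j + 1)
  push_cast at b2 hr'
  have hb := bc_nonneg m (j + 2)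
  have b3 : ((j : ℝ) + 2) * (j + 1) * bc m (j + 2) = ((j : ℝ) + m) * (j + m + 1) * bc m j := by
    have e : j + 1 + 1 = j + 2 := rfl
    rw [e] at b2
    have : ((j : ℝ) + 1) * (((j : ℝ) + 1 + 1) * bc m (j + 2))
        = ((j : ℝ) + 1 + m) * (((j : ℝ) + 1) * bc m (j + 1)) := by rw [b2]; ring
    rw [b1] at this
    linarith
  unfold bb
  have hj : (0 : ℝ) ≤ (j : ℝ) + 1 := by positivity
  have h3 := mul_le_mul_of_nonneg_right hr' (mul_nonneg hb hj)
  calc ((j : ℝ) + m) * (j + m + 1) * (bc m j * RR μ p n j)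
      = ((j : ℝ) + 2) * (j + 1) * bc m (j + 2) * RR μ p n j := by rw [b3]; ring
    _ = ((j : ℝ) + 2) * RR μ p n j * (bc m (j + 2) * (j + 1)) := by ring
    _ ≤ _ := h3
    _ = _ := by ring

end

end Vale.Agent.P224.FV
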