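import Vale.Agent.P224.FV.Local

namespace Vale.Agent.P224.FV

open Matrix MeasureTheory Module Function
open scoped RealInnerProductSpace Topology ContDiff

section

variable {V : Type*} [NormedAddCommGroup V] [InnerProductSpace ℝ V] [FiniteDimensional ℝ V]
  {E : Type*} [NormedAddCommGroup E] [InnerProductSpace ℝ E]

/-- local data: an immersed minimal piece of the unit sphere -/
structure LocMin (f : V → E) (T : Set V) : Prop where
  isOpen : IsOpen T
  smooth : ContDiffOn ℝ ∞ f T
  unit : ∀ u ∈ T, ‖f u‖ = 1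
  inj : ∀ u ∈ T, Function.Injective (fderiv ℝ f u)
  minimal : ∀ u ∈ T, ∀ n : E, ‖n‖ = 1 → ⟪f u, n⟫ = 0 → (∀ i, ⟪lP f i u, n⟫ = 0) →
      ∑ i, ∑ j, (lG f u)⁻¹ i j * ⟪lQ f i j u, n⟫ = 0

variable {f : V → E} {T : Set V}

lemma lP_linearIndependent {u : V} (h : Function.Injective (fderiv ℝ f u)) :
    LinearIndependent ℝ (fun i => lP f i u) := by
  have h1 : LinearIndependent ℝ (stdOrthonormalBasis ℝ V) :=
    (stdOrthonormalBasis ℝ V).toBasis.linearIndependent
  have := h1.map' (fderiv ℝ f u : V →ₗ[ℝ] E) (LinearMap.ker_eq_bot.mpr h)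
  exact this

lemma lG_det_pos {u : V} (h : Function.Injective (fderiv ℝ f u)) : 0 < (lG f u).det := by
  have h1 := Matrix.posDef_gram_of_linearIndependent (𝕜 := ℝ) (lP_linearIndependent h)
  exact h1.det_pos

lemma LocMin.contDiffAt (h : LocMin f T) {u : V} (hu : u ∈ T) : ContDiffAt ℝ ∞ f u :=
  h.smooth.contDiffAt (h.isOpen.mem_nhds hu)

lemma LocMin.contDiffAt_nat (h : LocMin f T) {u : V} (hu : u ∈ T) (n : ℕ) :
    ContDiffAt ℝ n f u :=
  (h.contDiffAt hu).of_le (by exact_mod_cast le_top)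

lemma LocMin.det_pos (h : LocMin f T) {u : V} (hu : u ∈ T) : 0 < (lG f u).det :=
  lG_det_pos (h.inj u hu)

lemma continuous_mul_of_tsupport {g φ : V → ℝ} (hT : IsOpen T) (hg : ContinuousOn g T)
    (hφ : Continuous φ) (hs : tsupport φ ⊆ T) : Continuous (fun u => g u * φ u) := by
  rw [continuous_iff_continuousAt]
  intro u
  by_cases hu : u ∈ T
  · exact (hg.continuousAt (hT.mem_nhds hu)).mul hφ.continuousAt
  · have h1 : u ∉ tsupport φ := fun h => hu (hs h)
    have h2 : ∀ᶠ v in 𝓝 u, φ v = 0 := by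
      have := (isClosed_tsupport φ).isOpen_compl.mem_nhds h1
      filter_upwards [this] with v hv
      exact image_eq_zero_of_notMem_tsupport hv
    have h3 : (fun u => g u * φ u) =ᶠ[𝓝 u] fun _ => 0 := by
      filter_upwards [h2] with v hv
      rw [hv, mul_zero]
    exact continuousAt_const.congr h3.symm

lemma integrable_mul_of_tsupport [MeasurableSpace V] [BorelSpace V] {g φ : V → ℝ}
    (hT : IsOpen T) (hg : ContinuousOn g T)
    (hφ : Continuous φ) (hs : tsupport φ ⊆ T) (hc : HasCompactSupport φ) :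
    Integrable (fun u => g u * φ u) :=
  (continuous_mul_of_tsupport hT hg hφ hs).integrable_of_hasCompactSupport
    (hc.mul_left (f := g))

/-- the tangential coordinate vector of a -/
noncomputable def vW (f : V → E) (a : E) (u : V) : V :=
  ∑ i, lW f a i u • stdOrthonormalBasis ℝ V i

lemma LocMin.cont_Y (h : LocMin f T) (a : E) (i : Fin (finrank ℝ V)) :
    ContinuousOn (fun v => Real.sqrt (lG f v).det * lW f a i v) T := fun u hu =>
  (((contDiffAt_sqrt (n := 0) (h.contDiffAt_nat hu 1) (h.det_pos hu).ne').mul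
    (contDiffAt_lW (n := 0) (h.contDiffAt_nat hu 1) (h.det_pos hu).ne' a i)).continuousAt
      ).continuousWithinAt

lemma LocMin.diff_Y (h : LocMin f T) (a : E) (i : Fin (finrank ℝ V)) {u : V} (hu : u ∈ T) :
    DifferentiableAt ℝ (fun v => Real.sqrt (lG f v).det * lW f a i v) u :=
  (((contDiffAt_sqrt (n := 1) (h.contDiffAt_nat hu 2) (h.det_pos hu).ne').mul
    (contDiffAt_lW (n := 1) (h.contDiffAt_nat hu 2) (h.det_pos hu).ne' a i)).differentiableAt
      (by norm_num))

lemma LocMin.cont_DY (h : LocMin f T) (a : E) (i : Fin (finrank ℝ V)) (w : V) :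
    ContinuousOn (fun u => fderiv ℝ (fun v => Real.sqrt (lG f v).det * lW f a i v) u w) T := by
  intro u hu
  have h1 : ContDiffAt ℝ 1 (fun v => Real.sqrt (lG f v).det * lW f a i v) u :=
    (contDiffAt_sqrt (n := 1) (h.contDiffAt_nat hu 2) (h.det_pos hu).ne').mul
    (contDiffAt_lW (n := 1) (h.contDiffAt_nat hu 2) (h.det_pos hu).ne' a i)
  have h2 : ContDiffAt ℝ 0
      (fderiv ℝ (fun v => Real.sqrt (lG f v).det * lW f a i v)) u :=
    h1.fderiv_right (m := 0) (by norm_num)
  exact (h2.continuousAt.clm_apply continuousAt_const).continuousWithinAt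

variable [MeasurableSpace V] [BorelSpace V]

/-- local first variation formula -/
theorem LocMin.stokes (h : LocMin f T) (a : E) {φ : V → ℝ} (hφ : ContDiff ℝ 1 φ)
    (hc : HasCompactSupport φ) (hs : tsupport φ ⊆ T) :
    ∫ u, Real.sqrt (lG f u).det * fderiv ℝ φ u (vW f a u)
      = (finrank ℝ V : ℝ) * ∫ u, Real.sqrt (lG f u).det * ⟪a, f u⟫ * φ u := by
  have hφc : Continuous φ := hφ.continuous
  have hφd : ∀ w : V, Continuous (fun u => fderiv ℝ φ u w) := fun w =>
    (hφ.continuous_fderiv (by norm_num)).clm_apply continuous_const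
  have hsd : ∀ w : V, tsupport (fun u => fderiv ℝ φ u w) ⊆ T := fun w =>
    (tsupport_fderiv_apply_subset ℝ w).trans hs
  have hcd : ∀ w : V, HasCompactSupport (fun u => fderiv ℝ φ u w) := fun w =>
    hc.fderiv_apply ℝ w
  set Y : Fin (finrank ℝ V) → V → ℝ := fun i v => Real.sqrt (lG f v).det * lW f a i v with hY
  have hint1 : ∀ i, Integrable (fun u => Y i u * fderiv ℝ φ u (stdOrthonormalBasis ℝ V i)) :=
    fun i => integrable_mul_of_tsupport h.isOpen (h.cont_Y a i) (hφd _) (hsd _) (hcd _)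
  have hint2 : ∀ i, Integrable (fun u => fderiv ℝ (Y i) u (stdOrthonormalBasis ℝ V i) * φ u) :=
    fun i => integrable_mul_of_tsupport h.isOpen (h.cont_DY a i _) hφc hs hc
  have hint3 : ∀ i, Integrable (fun u => Y i u * φ u) :=
    fun i => integrable_mul_of_tsupport h.isOpen (h.cont_Y a i) hφc hs hc
  have key : ∀ i, ∫ u, Y i u * fderiv ℝ φ u (stdOrthonormalBasis ℝ V i)
      = - ∫ u, fderiv ℝ (Y i) u (stdOrthonormalBasis ℝ V i) * φ u := fun i =>
    integral_mul_fderiv_eq_neg_fderiv_mul_of_integrable (hint2 i) (hint1 i) (hint3 i)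
      (fun x hx => h.diff_Y a i (hs hx)) (fun x _ => hφ.differentiable (by norm_num) x)
  have e1 : (fun u => Real.sqrt (lG f u).det * fderiv ℝ φ u (vW f a u))
      = fun u => ∑ i, Y i u * fderiv ℝ φ u (stdOrthonormalBasis ℝ V i) := by
    funext u
    rw [vW, map_sum, Finset.mul_sum]
    refine Finset.sum_congr rfl fun i _ => ?_
    rw [map_smul, smul_eq_mul, hY]
    ring
  rw [e1, integral_finsetSum _ (fun i _ => hint1 i)]
  simp only [key]
  rw [Finset.sum_neg_distrib, ← integral_finsetSum _ (fun i _ => hint2 i), ← integral_neg,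
    ← integral_const_mul]
  apply integral_congr_ae
  filter_upwards with u
  by_cases hu : u ∈ T
  · rw [← Finset.sum_mul, div_formula (h.contDiffAt_nat hu 3) (h.det_pos hu) ?_ (h.minimal u hu)]
    · ring
    · filter_upwards [h.isOpen.mem_nhds hu] with v hv
      exact h.unit v hv
  · have : φ u = 0 := image_eq_zero_of_notMem_tsupport (fun hx => hu (hs hx))
    simp [this]

end

end Vale.Agent.P224.FV
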